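import Vale.Agent.P164.Defs
import Vale.Agent.P142.Pole
import Vale.Agent.P142.Coef

namespace Vale.Agent.P164

open Set Metric

/-- univalent function on the upper half-plane -/
def Uv (f : ℂ → ℂ) : Prop := DifferentiableOn ℂ f uhp ∧ InjOn f uhp

theorem isOpen_uhp : IsOpen uhp := isOpen_lt continuous_const Complex.continuous_im

theorem Uv.deriv_ne {f : ℂ → ℂ} (hf : Uv f) {z : ℂ} (hz : z ∈ uhp) : deriv f z ≠ 0 :=
  Vale.Agent.P142.deriv_ne isOpen_uhp hf.1 hf.2 hz

open Vale.Agent.P142 in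
theorem kb_tail {g : ℂ → ℂ} (hg : DifferentiableOn ℂ g (ball 0 1)) {M : ℝ}
    (hM : ∀ k, ‖co g (k + 1)‖ ≤ M) {w : ℂ} (hw : ‖w‖ = 1 / 2) : ‖g w - g 0‖ ≤ M := by
  have hwb : w ∈ ball (0 : ℂ) 1 := mem_ball_zero_iff.2 (by rw [hw]; norm_num)
  have h1 := Complex.hasSum_taylorSeries_on_ball hg hwb
  have h2 : HasSum (fun n : ℕ => co g n * w ^ n) (g w) := by
    have e : (fun n : ℕ => co g n * w ^ n) =
        fun n : ℕ => (n.factorial : ℂ)⁻¹ • (w - 0) ^ n • iteratedDeriv n g 0 := by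
      funext n
      simp only [co, smul_eq_mul, sub_zero]
      ring
    rw [e]
    exact h1
  have h3 := (hasSum_nat_add_iff' 1).2 h2
  simp only [Finset.range_one, Finset.sum_singleton, pow_zero, mul_one, co_zero] at h3
  have h4 : HasSum (fun n : ℕ => M / 2 * (1 / 2 : ℝ) ^ n) (M / 2 * 2) :=
    hasSum_geometric_two.mul_left _
  have h5 := h3.norm_le_of_bounded h4 fun n => by
    rw [norm_mul, norm_pow, hw, pow_succ]
    have := hM n
    have h6 : (0 : ℝ) ≤ (1 / 2) ^ n := by positivity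
    nlinarith
  linarith

open Vale.Agent.P142 in
theorem kb_disc {F : ℂ → ℂ} (hd : DifferentiableOn ℂ F (ball 0 1)) (hi : InjOn F (ball 0 1)) :
    ‖deriv (deriv F) 0‖ ≤ 10 * ‖deriv F 0‖ := by
  have h0 : (0 : ℂ) ∈ ball (0 : ℂ) 1 := mem_ball_self one_pos
  have hn := isOpen_ball.mem_nhds h0
  have hz : ‖(0 : ℂ)‖ < 1 := by simp
  have ha : deriv F 0 ≠ 0 := deriv_ne isOpen_ball hd hi h0
  have hG : DifferentiableOn ℂ (dslope F 0) (ball 0 1) := (Complex.differentiableOn_dslope hn).2 hd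
  have hG0 : dslope F 0 0 = deriv F 0 := dslope_same _ _
  have hGne : ∀ w ∈ ball (0 : ℂ) 1, dslope F 0 w ≠ 0 := fun w hw => by
    by_cases h : w = 0
    · rw [h, hG0]; exact ha
    · rw [dslope_of_ne _ h, slope_def_field]
      exact div_ne_zero (sub_ne_zero.2 fun e => h (hi hw h0 e)) (sub_ne_zero.2 h)
  have hG1 : deriv (dslope F 0) 0 = deriv (deriv F) 0 / 2 := by
    have h1 := co_dslope hd hz 1
    rw [zero_mul, sub_zero] at h1
    simp only [co, iteratedDeriv_succ, iteratedDeriv_zero] at h1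
    norm_num [Nat.factorial] at h1
    rw [← h1]
  have hR0 : R F 0 0 = -(deriv (deriv F) 0 / 2) / (deriv F 0) ^ 2 := by
    rw [R, dslope_same]
    have h1 := (hG.differentiableAt hn).hasDerivAt.inv (hGne 0 h0)
    rw [hG1, hG0] at h1
    exact h1.deriv
  have hco : ∀ k, ‖co (R F 0) (k + 1)‖ ≤ ‖deriv F 0‖⁻¹ := fun k => by
    have h1 := R_area hd hi hz {k + 1}
    simp only [Finset.sum_singleton, norm_zero, V, norm_inv] at h1
    norm_num at h1
    have h2 : (0 : ℝ) ≤ k := k.cast_nonneg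
    refine (sq_le_sq₀ (norm_nonneg _) (by positivity)).1 ?_
    rw [inv_pow]
    nlinarith [sq_nonneg ‖co (R F 0) (k + 1)‖]
  have hA : 0 < ‖deriv F 0‖ := norm_pos_iff.2 ha
  by_contra hc
  rw [not_le] at hc
  set A := ‖deriv F 0‖ with hAdef
  set B := ‖deriv (deriv F) 0‖ with hB
  have hb : ‖R F 0 0‖ = B / 2 / A ^ 2 := by
    rw [hR0, norm_div, norm_neg, norm_div, norm_pow]
    simp [hAdef, hB]
  set m : ℝ := B / 4 / A ^ 2 - 3 / 2 * A⁻¹ with hm
  have hm1 : A⁻¹ < m := by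
    have h1 : 5 / 2 * A⁻¹ < B / 4 / A ^ 2 := by
      rw [lt_div_iff₀ (by positivity)]
      have : A⁻¹ * A ^ 2 = A := by field_simp
      rw [mul_assoc, this]
      linarith
    linarith
  have hm0 : 0 < m := lt_trans (inv_pos.2 hA) hm1
  have hcl : DiffContOnCl ℂ (dslope F 0) (ball 0 (1 / 2)) := by
    refine DifferentiableOn.diffContOnCl (hG.mono ?_)
    rw [closure_ball _ (by norm_num)]
    exact sub_ball (by norm_num)
  have key := Complex.norm_le_of_forall_mem_frontier_norm_le isBounded_ball hcl (C := m⁻¹)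
    (fun w hw => ?_) (subset_closure (mem_ball_self (by norm_num)))
  · rw [hG0] at key
    have := inv_strictAnti₀ (inv_pos.2 hA) hm1
    rw [inv_inv] at this
    linarith
  · rw [frontier_ball _ (by norm_num), mem_sphere_zero_iff_norm] at hw
    have hwb : w ∈ ball (0 : ℂ) 1 := mem_ball_zero_iff.2 (by rw [hw]; norm_num)
    have h1 := kb_tail (R_diff hd hi hz) hco hw
    have h2 : (dslope F 0 w)⁻¹ = (deriv F 0)⁻¹ + w * R F 0 w := by
      have := sub_smul_dslope (fun w => (dslope F 0 w)⁻¹) 0 w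
      rw [sub_zero, smul_eq_mul, hG0] at this
      rw [R, this]
      ring
    have h3 : w * R F 0 0 = (dslope F 0 w)⁻¹ - (deriv F 0)⁻¹ - w * (R F 0 w - R F 0 0) := by
      rw [h2]; ring
    have h4 : ‖w * R F 0 0‖ ≤ ‖(dslope F 0 w)⁻¹‖ + ‖(deriv F 0)⁻¹‖ + ‖w * (R F 0 w - R F 0 0)‖ := by
      rw [h3]
      exact (norm_sub_le _ _).trans (add_le_add_left (norm_sub_le _ _) _)
    rw [norm_mul, norm_mul, hw, hb, norm_inv, norm_inv] at h4
    have h5 : m ≤ ‖dslope F 0 w‖⁻¹ := by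
      have : B / 4 / A ^ 2 = 1 / 2 * (B / 2 / A ^ 2) := by ring
      rw [hm, this]
      linarith
    have h6 := inv_anti₀ hm0 h5
    rwa [inv_inv] at h6

/-- crude Bieberbach bound -/
theorem koebe0 : ∃ K : ℝ, 0 < K ∧ ∀ f : ℂ → ℂ, Uv f → ∀ z ∈ uhp,
    ‖deriv (deriv f) z‖ ≤ K * ‖deriv f z‖ / z.im := by
  refine ⟨10, by norm_num, fun f hf z hz => ?_⟩
  have hy : 0 < z.im := hz
  have hy' : (z.im : ℂ) ≠ 0 := by exact_mod_cast hy.ne'
  have hm : ∀ w ∈ ball (0 : ℂ) 1, z + z.im * w ∈ uhp := fun w hw => by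
    have h1 := (abs_le.1 (Complex.abs_im_le_norm w)).1
    have h2 := mem_ball_zero_iff.1 hw
    show 0 < (z + z.im * w).im
    simp only [Complex.add_im, Complex.mul_im, Complex.ofReal_re, Complex.ofReal_im, zero_mul,
      add_zero]
    nlinarith
  have hl : ∀ w : ℂ, HasDerivAt (fun w : ℂ => z + z.im * w) z.im w := fun w => by
    simpa using ((hasDerivAt_id w).const_mul (z.im : ℂ)).const_add z
  have hF : ∀ {g : ℂ → ℂ}, DifferentiableOn ℂ g uhp → ∀ w ∈ ball (0 : ℂ) 1,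
      HasDerivAt (fun w => g (z + z.im * w)) (deriv g (z + z.im * w) * z.im) w := fun hg w hw =>
    (hg.differentiableAt (isOpen_uhp.mem_nhds (hm w hw))).hasDerivAt.comp w (hl w)
  have h0 : (0 : ℂ) ∈ ball (0 : ℂ) 1 := mem_ball_self one_pos
  have key := kb_disc (F := fun w => f (z + z.im * w))
    (fun w hw => (hF hf.1 w hw).differentiableAt.differentiableWithinAt)
    (fun u hu v hv e => mul_left_cancel₀ hy' (add_left_cancel (hf.2 (hm u hu) (hm v hv) e)))
  have e1 : deriv (fun w => f (z + z.im * w)) =ᶠ[nhds 0]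
      fun w => deriv f (z + z.im * w) * z.im := by
    filter_upwards [isOpen_ball.mem_nhds h0] with w hw using (hF hf.1 w hw).deriv
  have e2 : deriv (deriv fun w => f (z + z.im * w)) 0 = deriv (deriv f) z * z.im * z.im := by
    rw [e1.deriv_eq, ((hF (hf.1.deriv isOpen_uhp) 0 h0).mul_const _).deriv, mul_zero, add_zero]
  rw [e2, (hF hf.1 0 h0).deriv, mul_zero, add_zero, norm_mul, norm_mul, norm_mul, Complex.norm_real,
    Real.norm_eq_abs, abs_of_pos hy, ← mul_assoc, mul_le_mul_iff_left₀ hy] at key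
  rwa [le_div_iff₀ hy]

end Vale.Agent.P164
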