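import Vale.Agent.P164.Univ2

namespace Vale.Agent.P164

open Set Metric

/-- abstract Loewner chain -/
structure Chain (W : ℝ → ℝ) (D : ℝ → Set ℂ) (g : ℝ → ℂ → ℂ) : Prop where
  cont : ContinuousOn W (Ici 0)
  op : ∀ t, 0 ≤ t → IsOpen (D t)
  sub : ∀ t, 0 ≤ t → D t ⊆ uhp
  anti : ∀ s t, 0 ≤ s → s ≤ t → D t ⊆ D s
  diff : ∀ t, 0 ≤ t → DifferentiableOn ℂ (g t) (D t)
  bij : ∀ t, 0 ≤ t → BijOn (g t) (D t) uhp
  init : ∀ t, 0 ≤ t → ∀ z ∈ D t, g 0 z = z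
  ode : ∀ t, 0 ≤ t → ∀ z ∈ D t, ∀ s ∈ Icc 0 t,
    HasDerivWithinAt (fun s => g s z) (2 / (g s z - (W s : ℂ))) (Icc 0 t) s

/-- inverse maps -/
noncomputable def iv (D : ℝ → Set ℂ) (g : ℝ → ℂ → ℂ) (t : ℝ) : ℂ → ℂ :=
  Function.invFunOn (g t) (D t)

/-- `Z_t(z) = g_t(z) - W_t` -/
noncomputable def zz (W : ℝ → ℝ) (g : ℝ → ℂ → ℂ) (t : ℝ) (z : ℂ) : ℂ := g t z - (W t : ℂ)

/-- half the conformal radius -/
noncomputable def ups (g : ℝ → ℂ → ℂ) (t : ℝ) (z : ℂ) : ℝ := (g t z).im / ‖deriv (g t) z‖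

variable {W : ℝ → ℝ} {D : ℝ → Set ℂ} {g : ℝ → ℂ → ℂ}

theorem Chain.D_zero (h : Chain W D g) : D 0 = uhp := by
  refine (h.sub 0 le_rfl).antisymm fun w hw => ?_
  obtain ⟨z, hz, rfl⟩ := (h.bij 0 le_rfl).surjOn hw
  rwa [h.init 0 le_rfl z hz]

theorem Chain.im_pos (h : Chain W D g) {t : ℝ} (ht : 0 ≤ t) {z : ℂ} (hz : z ∈ D t) :
    0 < (g t z).im := (h.bij t ht).mapsTo hz

theorem Chain.iv_mem (h : Chain W D g) {t : ℝ} (ht : 0 ≤ t) {w : ℂ} (hw : w ∈ uhp) :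
    iv D g t w ∈ D t ∧ g t (iv D g t w) = w := by
  exact Function.invFunOn_pos ((h.bij t ht).surjOn hw)

theorem Chain.iv_g (h : Chain W D g) {t : ℝ} (ht : 0 ≤ t) {z : ℂ} (hz : z ∈ D t) :
    iv D g t (g t z) = z := by
  exact (h.bij t ht).injOn.leftInvOn_invFunOn hz

theorem Chain.deriv_ne (h : Chain W D g) {t : ℝ} (ht : 0 ≤ t) {z : ℂ} (hz : z ∈ D t) :
    deriv (g t) z ≠ 0 := by
  exact Vale.Agent.P142.deriv_ne (h.op t ht) (h.diff t ht) (h.bij t ht).injOn hz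

theorem Chain.chain_der (h : Chain W D g) {t : ℝ} (ht : 0 ≤ t) {z : ℂ} (hz : z ∈ D t) :
    HasDerivAt (iv D g t) (deriv (g t) z)⁻¹ (g t z) :=
  (((h.diff t ht).analyticAt ((h.op t ht).mem_nhds hz)).hasStrictDerivAt.to_local_left_inverse
    (h.deriv_ne ht hz) (Filter.mem_of_superset ((h.op t ht).mem_nhds hz)
      fun _ hx => h.iv_g ht hx)).hasDerivAt

theorem Chain.iv_uv (h : Chain W D g) {t : ℝ} (ht : 0 ≤ t) : Uv (iv D g t) := by
  refine ⟨fun w hw => ?_, fun a ha b hb e => ?_⟩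
  · have h1 := h.chain_der ht (h.iv_mem ht hw).1
    rw [(h.iv_mem ht hw).2] at h1
    exact h1.differentiableAt.differentiableWithinAt
  · rw [← (h.iv_mem ht ha).2, e, (h.iv_mem ht hb).2]

theorem Chain.deriv_iv (h : Chain W D g) {t : ℝ} (ht : 0 ≤ t) {z : ℂ} (hz : z ∈ D t) :
    deriv (iv D g t) (g t z) = (deriv (g t) z)⁻¹ := by
  exact (h.chain_der ht hz).deriv

theorem Chain.ups_eq (h : Chain W D g) {t : ℝ} (ht : 0 ≤ t) {z : ℂ} (hz : z ∈ D t) :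
    ups g t z = (g t z).im * ‖deriv (iv D g t) (g t z)‖ := by
  rw [h.deriv_iv ht hz, norm_inv, ups, div_eq_mul_inv]

theorem Chain.ups_pos (h : Chain W D g) {t : ℝ} (ht : 0 ≤ t) {z : ℂ} (hz : z ∈ D t) :
    0 < ups g t z := by
  exact div_pos (h.im_pos ht hz) (norm_pos_iff.2 (h.deriv_ne ht hz))

theorem Chain.ups_zero (h : Chain W D g) {z : ℂ} (hz : z ∈ uhp) : ups g 0 z = z.im := by
  have h1 : g 0 =ᶠ[nhds z] id := Filter.mem_of_superset (isOpen_uhp.mem_nhds hz)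
    fun x hx => h.init 0 le_rfl x (h.D_zero ▸ hx)
  rw [ups, h1.deriv_eq, h1.eq_of_nhds, deriv_id, norm_one, div_one, id]

/-- a disc inside the domain has radius at most `2 ups` -/
theorem Chain.rad_le (h : Chain W D g) {t : ℝ} (ht : 0 ≤ t) {z : ℂ} {R : ℝ} (hR : 0 < R)
    (hb : ball z R ⊆ D t) : R ≤ 2 * ups g t z := by
  have h1 := schwarz_disc hR ((h.diff t ht).mono hb) ((h.bij t ht).mapsTo.mono_left hb)
  rw [ups, ← mul_div_assoc,
    le_div_iff₀' (norm_pos_iff.2 (h.deriv_ne ht (hb (mem_ball_self hR))))]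
  exact h1

/-- the domain contains a disc of radius comparable to `ups` -/
theorem ball_sub : ∃ c : ℝ, 0 < c ∧ c ≤ 1 ∧ ∀ {W D g}, Chain W D g → ∀ t, 0 ≤ t → ∀ z ∈ D t,
    ball z (c * ups g t z) ⊆ D t := by
  obtain ⟨c, h0, h1, hc⟩ := koebe2
  refine ⟨c * (1 / 2), by positivity, by linarith, fun h t ht z hz => ?_⟩
  have h2 := hc _ (h.iv_uv ht) _ (h.im_pos ht hz) (1 / 2) one_half_pos le_rfl
  rw [h.iv_g ht hz, ← h.ups_eq ht hz] at h2
  refine h2.trans ?_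
  rintro _ ⟨w, hw, rfl⟩
  refine (h.iv_mem ht ?_).1
  have h3 := (abs_le.1 ((Complex.abs_im_le_norm _).trans (mem_ball_iff_norm.1 hw).le)).1
  have h4 := h.im_pos ht hz
  rw [Complex.sub_im] at h3
  change 0 < w.im
  linarith

/-- solutions of the Loewner equation that stay in the half-plane are given by the chain -/
theorem Chain.of_sol (h : Chain W D g) {t : ℝ} (ht : 0 ≤ t) {w : ℝ → ℂ}
    (hw : ∀ s ∈ Icc 0 t, HasDerivWithinAt w (2 / (w s - (W s : ℂ))) (Icc 0 t) s)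
    (hp : ∀ s ∈ Icc 0 t, 0 < (w s).im) : w 0 ∈ D t ∧ ∀ s ∈ Icc 0 t, g s (w 0) = w s := by
  obtain ⟨hz, e⟩ := h.iv_mem ht (hp t (right_mem_Icc.2 ht))
  generalize iv D g t (w t) = z at hz e
  have c1 : ContinuousOn w (Icc 0 t) := fun s hs => (hw s hs).continuousWithinAt
  have c2 : ContinuousOn (fun s => g s z) (Icc 0 t) :=
    fun s hs => (h.ode t ht z hz s hs).continuousWithinAt
  obtain ⟨m, hm, hm'⟩ := isCompact_Icc.exists_forall_le' (a := 0)
    ((Complex.continuous_im.comp_continuousOn c1).inf (Complex.continuous_im.comp_continuousOn c2))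
    fun s hs => lt_min (hp s hs) (h.im_pos hs.1 (h.anti s t hs.1 hs.2 hz))
  have hn : ∀ (s : ℝ) (x : ℂ), m ≤ x.im → m ≤ ‖x - W s‖ := fun s x hx => by
    refine le_trans ?_ ((le_abs_self _).trans (Complex.abs_im_le_norm _))
    simpa using hx
  have key := ODE_solution_unique_of_mem_Icc_left (v := fun s x => 2 / (x - (W s : ℂ)))
    (s := fun _ => {x : ℂ | m ≤ x.im}) (K := ⟨2 / (m * m), by positivity⟩)
    (fun s _ => LipschitzOnWith.of_dist_le_mul fun x hx y hy => by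
      have a1 := hn s x hx
      have a2 := hn s y hy
      rw [dist_eq_norm, div_sub_div _ _ (norm_pos_iff.1 (hm.trans_le a1))
        (norm_pos_iff.1 (hm.trans_le a2)), dist_comm, dist_eq_norm,
        show 2 * (y - W s) - (x - W s) * 2 = 2 * (y - x) by ring, norm_div, norm_mul, norm_mul,
        Complex.norm_two, mul_div_right_comm]
      exact mul_le_mul_of_nonneg_right (div_le_div_of_nonneg_left zero_le_two (mul_pos hm hm)
        (mul_le_mul a1 a2 hm.le (norm_nonneg _))) (norm_nonneg _))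
    c2 (fun s hs => (h.ode t ht z hz s (Ioc_subset_Icc_self hs)).mono_of_mem_nhdsWithin
      (Icc_mem_nhdsLE_of_mem hs))
    (fun s hs => (hm' s (Ioc_subset_Icc_self hs)).trans (min_le_right _ _))
    c1 (fun s hs => (hw s (Ioc_subset_Icc_self hs)).mono_of_mem_nhdsWithin
      (Icc_mem_nhdsLE_of_mem hs))
    (fun s hs => (hm' s (Ioc_subset_Icc_self hs)).trans (min_le_left _ _)) e
  have h0 : w 0 = z := (key (left_mem_Icc.2 ht)).symm.trans (h.init t ht z hz)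
  rw [h0]
  exact ⟨hz, key⟩

end Vale.Agent.P164
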