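import Vale.Agent.P164.Flow

namespace Vale.Agent.P164

open Set

variable {W : ℝ → ℝ} {γ : ℝ → ℂ}

theorem cur_open (hγ : ContinuousOn γ (Ici 0)) (t : ℝ) : IsOpen (uhp \ γ '' Icc 0 t) :=
  isOpen_uhp.sdiff (isCompact_Icc.image_of_continuousOn (hγ.mono Icc_subset_Ici_self)).isClosed

theorem cur_cc {t : ℝ} {z w : ℂ} (hz : z ∈ dom γ t)
    (hw : w ∈ connectedComponentIn (uhp \ γ '' Icc 0 t) z) : w ∈ dom γ t :=
  ⟨connectedComponentIn_subset _ _ hw, connectedComponentIn_eq hw ▸ hz.2⟩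

theorem cur_anti {s t : ℝ} (hst : s ≤ t) : dom γ t ⊆ dom γ s := fun z hz => by
  have h1 : uhp \ γ '' Icc 0 t ⊆ uhp \ γ '' Icc 0 s :=
    sdiff_subset_sdiff_right (image_mono (Icc_subset_Icc_right hst))
  exact ⟨h1 hz.1, fun hb => hz.2 (hb.subset (connectedComponentIn_mono z h1))⟩

theorem Generates.chain (hW : ContinuousOn W (Ici 0)) (h : Generates W γ) :
    ∃ g, Chain W (dom γ) g := by
  obtain ⟨hγ, -, g, hg⟩ := h
  refine ⟨g, hW, fun t _ => isOpen_iff_mem_nhds.2 fun z hz => Filter.mem_of_superset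
    ((cur_open hγ t).connectedComponentIn.mem_nhds (mem_connectedComponentIn hz.1))
    fun w hw => cur_cc hz hw, fun t _ z hz => hz.1.1, fun s t _ hst => cur_anti hst,
    fun t ht => (hg t ht).1, fun t ht => (hg t ht).2.1, fun t ht z hz => ((hg t ht).2.2 z hz).1,
    fun t ht z hz => ((hg t ht).2.2 z hz).2⟩

theorem frontier_dom (hγ : ContinuousOn γ (Ici 0)) {t : ℝ} {w : ℂ} (hw : w ∈ uhp)
    (h1 : w ∈ closure (dom γ t)) (h2 : w ∉ dom γ t) : w ∈ γ '' Icc 0 t := by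
  by_contra h3
  have h4 : w ∈ uhp \ γ '' Icc 0 t := ⟨hw, h3⟩
  obtain ⟨x, hx, hx'⟩ := mem_closure_iff.1 h1 _ (cur_open hγ t).connectedComponentIn
    (mem_connectedComponentIn h4)
  exact h2 ⟨h4, connectedComponentIn_eq hx ▸ hx'.2⟩

theorem cur_up {a : ℝ} (ha : 0 < a) {z : ℂ} : z ∈ uhp ↔ (a : ℂ) * z ∈ uhp := by
  change 0 < z.im ↔ 0 < ((a : ℂ) * z).im
  rw [Complex.im_ofReal_mul, mul_pos_iff_of_pos_left ha]

theorem cur_scale {a t : ℝ} (ha : 0 < a) {z : ℂ} :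
    z ∈ dom (fun t => γ (a ^ 2 * t) / (a : ℂ)) t ↔ (a : ℂ) * z ∈ dom γ (a ^ 2 * t) := by
  have ha' : (a : ℂ) ≠ 0 := Complex.ofReal_ne_zero.2 ha.ne'
  have h2 : 0 < a ^ 2 := by positivity
  have hU : ∀ z : ℂ, z ∈ uhp \ (fun t => γ (a ^ 2 * t) / (a : ℂ)) '' Icc 0 t ↔
      (a : ℂ) * z ∈ uhp \ γ '' Icc 0 (a ^ 2 * t) := fun z => by
    refine and_congr (cur_up ha) (not_congr ⟨?_, ?_⟩)
    · rintro ⟨s, hs, rfl⟩
      exact ⟨a ^ 2 * s, ⟨mul_nonneg h2.le hs.1, mul_le_mul_of_nonneg_left hs.2 h2.le⟩,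
        (mul_div_cancel₀ _ ha').symm⟩
    · rintro ⟨s, hs, e⟩
      refine ⟨s / a ^ 2, ⟨div_nonneg hs.1 h2.le, (div_le_iff₀' h2).2 hs.2⟩, ?_⟩
      change γ (a ^ 2 * (s / a ^ 2)) / a = z
      rw [mul_div_cancel₀ _ h2.ne', e, mul_div_cancel_left₀ _ ha']
  have hV : Homeomorph.mulLeft₀ (a : ℂ) ha' '' (uhp \ (fun t => γ (a ^ 2 * t) / (a : ℂ)) '' Icc 0 t)
      = uhp \ γ '' Icc 0 (a ^ 2 * t) := by
    rw [← (Homeomorph.mulLeft₀ (a : ℂ) ha').image_preimage (uhp \ γ '' Icc 0 (a ^ 2 * t))]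
    exact congrArg _ (Set.ext hU)
  refine (and_congr_right fun hz => not_congr ?_).trans (and_congr_left' (hU z))
  have h3 := (Homeomorph.mulLeft₀ (a : ℂ) ha').image_connectedComponentIn hz
  rw [hV] at h3
  refine Iff.trans ?_ (congrArg Bornology.IsBounded h3).to_iff
  generalize connectedComponentIn _ z = C
  simp only [isBounded_iff_forall_norm_le, forall_mem_image]
  have hn : ∀ x : ℂ, ‖Homeomorph.mulLeft₀ (a : ℂ) ha' x‖ = a * ‖x‖ := fun x => by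
    change ‖(a : ℂ) * x‖ = _
    rw [norm_mul, Complex.norm_of_nonneg ha.le]
  simp only [hn]
  exact ⟨fun ⟨M, hM⟩ => ⟨a * M, fun x hx => mul_le_mul_of_nonneg_left (hM x hx) ha.le⟩,
    fun ⟨M, hM⟩ => ⟨M / a, fun x hx => (le_div_iff₀' ha).2 (hM hx)⟩⟩

theorem Generates.scale (h : Generates W γ) {a : ℝ} (ha : 0 < a) :
    Generates (fun t => W (a ^ 2 * t) / a) (fun t => γ (a ^ 2 * t) / (a : ℂ)) := by
  obtain ⟨hγ, hi, g, hg⟩ := h
  have ha' : (a : ℂ) ≠ 0 := Complex.ofReal_ne_zero.2 ha.ne'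
  have h2 : 0 < a ^ 2 := by positivity
  have hup : ∀ w : ℂ, w ∈ uhp → w / (a : ℂ) ∈ uhp := fun w hw => by
    change 0 < (w / (a : ℂ)).im
    rw [Complex.div_ofReal_im]
    exact div_pos hw ha
  refine ⟨(hγ.comp (continuous_const.mul continuous_id).continuousOn
    fun t ht => mul_nonneg h2.le ht).div_const _, fun t ht => ?_,
    fun t z => g (a ^ 2 * t) (a * z) / a, fun t ht => ?_⟩
  · rw [Complex.div_ofReal_im]
    exact div_nonneg (hi _ (mul_nonneg h2.le ht)) ha.le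
  obtain ⟨g1, g2, g3⟩ := hg _ (mul_nonneg h2.le ht)
  refine ⟨(g1.comp (differentiableOn_id.const_mul _) fun z hz => (cur_scale ha).1 hz).div_const _,
    ⟨fun z hz => hup _ (g2.mapsTo ((cur_scale ha).1 hz)), fun x hx y hy e => ?_, fun w hw => ?_⟩,
    fun z hz => ⟨?_, fun s hs => ?_⟩⟩
  · exact mul_left_cancel₀ ha' (g2.injOn ((cur_scale ha).1 hx) ((cur_scale ha).1 hy)
      ((div_left_inj' ha').1 e))
  · obtain ⟨x, hx, e⟩ := g2.surjOn ((cur_up ha).1 hw)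
    have e1 : (a : ℂ) * (x / a) = x := mul_div_cancel₀ _ ha'
    refine ⟨x / a, (cur_scale ha).2 (by rwa [e1]), ?_⟩
    change g (a ^ 2 * t) (a * (x / a)) / a = w
    rw [e1, e, mul_div_cancel_left₀ _ ha']
  · change g (a ^ 2 * 0) (a * z) / a = z
    rw [mul_zero, (g3 _ ((cur_scale ha).1 hz)).1, mul_div_cancel_left₀ _ ha']
  · have hm : MapsTo (fun s => a ^ 2 * s) (Icc 0 t) (Icc 0 (a ^ 2 * t)) := fun s hs =>
      ⟨mul_nonneg h2.le hs.1, mul_le_mul_of_nonneg_left hs.2 h2.le⟩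
    have d1 : HasDerivWithinAt (fun s => a ^ 2 * s) (a ^ 2) (Icc 0 t) s := by
      simpa using ((hasDerivAt_id s).const_mul (a ^ 2)).hasDerivWithinAt
    have d2 := (((g3 _ ((cur_scale ha).1 hz)).2 _ (hm hs)).scomp s d1 hm).div_const (a : ℂ)
    refine d2.congr_deriv ?_
    rw [Complex.real_smul, Complex.ofReal_div, ← sub_div, div_div_eq_mul_div, Complex.ofReal_pow]
    field_simp

/-- a point near the curve reaches small conformal radius before it is swallowed -/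
theorem hit : ∃ C6 : ℝ, 1 ≤ C6 ∧ ∀ (W : ℝ → ℝ) (γ : ℝ → ℂ) (g : ℝ → ℂ → ℂ),
    ContinuousOn γ (Ici 0) → Chain W (dom γ) g → ∀ (t : ℝ) (z : ℂ) (ε : ℝ), 0 ≤ t → 0 < ε →
      ‖γ t - z‖ < ε → 4 * ε < z.im → ∃ s ∈ Icc 0 t, z ∈ dom γ s ∧ ups g s z ≤ C6 * ε := by
  obtain ⟨c, c0, c1, hc⟩ := ball_sub
  refine ⟨3 / c, (le_div_iff₀ c0).2 (by linarith), fun W γ g hγ h t z ε ht hε h1 h2 => ?_⟩
  have hn : ContinuousOn (fun s => ‖γ s - z‖) (Ici 0) := (hγ.sub continuousOn_const).norm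
  have him : ∀ x : ℂ, z.im - x.im ≤ ‖x - z‖ := fun x => by
    have := (abs_le.1 (Complex.abs_im_le_norm (x - z))).1
    rw [Complex.sub_im] at this
    linarith
  have h3 : (γ 0).im ≤ 0 := not_lt.1 fun hp => by
    have h4 : γ 0 ∈ dom γ 0 := h.D_zero ▸ hp
    exact h4.1.2 ⟨0, left_mem_Icc.2 le_rfl, rfl⟩
  have hK : IsCompact (Icc 0 t ∩ (fun s => ‖γ s - z‖) ⁻¹' Iic (2 * ε)) :=
    isCompact_Icc.of_isClosed_subset ((hn.mono Icc_subset_Ici_self).preimage_isClosed_of_isClosed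
      isClosed_Icc isClosed_Iic) inter_subset_left
  obtain ⟨s0, ⟨hs0, hs0'⟩, hmin⟩ := hK.exists_isLeast
    ⟨t, right_mem_Icc.2 ht, show ‖γ t - z‖ ≤ 2 * ε by linarith⟩
  replace hs0' : ‖γ s0 - z‖ ≤ 2 * ε := hs0'
  have hp : 0 < s0 := lt_of_le_of_ne hs0.1 fun e => by
    have := him (γ 0)
    rw [← e] at hs0'
    linarith
  have near : ∀ {b s r : ℝ}, 0 ≤ b → b < s → ‖γ s - z‖ < r →
      ∃ a, b ≤ a ∧ a < s ∧ ∀ u ∈ Icc a s, ‖γ u - z‖ < r := fun {b s r} hb hbs hr => by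
    have e1 := (hn.continuousAt (Ici_mem_nhds (hb.trans_lt hbs))).eventually (gt_mem_nhds hr)
    obtain ⟨δ, hδ, hδ'⟩ := Metric.eventually_nhds_iff.1 e1
    refine ⟨max b (s - δ / 2), le_max_left _ _, max_lt hbs (by linarith), fun u hu => hδ' ?_⟩
    have := (le_max_right _ _).trans hu.1
    rw [Real.dist_eq, abs_lt]
    exact ⟨by linarith, by linarith [hu.2]⟩
  obtain ⟨s1, h4, h5, h6⟩ := near (r := 3 * ε) le_rfl hp (by linarith)
  by_cases hz : z ∈ dom γ s1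
  · refine ⟨s1, ⟨h4, h5.le.trans hs0.2⟩, hz, ?_⟩
    have h7 : γ s1 ∉ Metric.ball z (c * ups g s1 z) := fun hb =>
      (hc h s1 h4 z hz hb).1.2 ⟨s1, right_mem_Icc.2 h4, rfl⟩
    rw [mem_ball_iff_norm, not_lt] at h7
    have h8 := h6 s1 (left_mem_Icc.2 h5.le)
    rw [div_mul_eq_mul_div, le_div_iff₀' c0]
    linarith
  exfalso
  have hB : Metric.ball z (2 * ε) ⊆ uhp \ γ '' Icc 0 s1 := fun x hx => by
    rw [mem_ball_iff_norm] at hx
    refine ⟨show 0 < x.im by linarith [him x], ?_⟩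
    rintro ⟨u, hu, rfl⟩
    exact absurd (hmin ⟨⟨hu.1, hu.2.trans (h5.le.trans hs0.2)⟩, mem_Iic.2 hx.le⟩)
      (not_le.2 (hu.2.trans_lt h5))
  have hD : ∀ x ∈ dom γ s1, x ∉ Metric.ball z (2 * ε) := fun x hx hb =>
    hz (cur_cc hx ((convex_ball z _).isPreconnected.subset_connectedComponentIn hb hB
      (Metric.mem_ball_self (by linarith))))
  obtain ⟨a, a1, a2, a3⟩ := near (r := 2 * ε) h4 (h5.trans_le hs0.2) (by linarith)
  have a0 := h4.trans a1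
  have hE : dom γ a ⊆ dom γ t := fun x hx => by
    have hC : connectedComponentIn (uhp \ γ '' Icc 0 a) x ⊆ uhp \ γ '' Icc 0 t := fun y hy => by
      have hy' := cur_cc hx hy
      refine ⟨hy'.1.1, ?_⟩
      rintro ⟨u, hu, rfl⟩
      rcases le_total u a with hua | hua
      · exact hy'.1.2 ⟨u, ⟨hu.1, hua⟩, rfl⟩
      · exact hD _ (cur_anti a1 hy') (mem_ball_iff_norm.2 (a3 u ⟨hua, hu.2⟩))
    exact ⟨hC (mem_connectedComponentIn hx.1), fun hb => hx.2 (hb.subset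
      (isPreconnected_connectedComponentIn.subset_connectedComponentIn
        (mem_connectedComponentIn hx.1) hC))⟩
  obtain ⟨x, hx, -⟩ := (h.bij t ht).surjOn (show Complex.I ∈ uhp from by simp [uhp])
  have hx' := cur_anti a2.le hx
  have hm : MapsTo (iv (dom γ) g a) uhp (dom γ t) := fun w hw => hE (h.iv_mem a0 hw).1
  have sp := schwarz_pick ((h.diff t ht).comp (h.iv_uv a0).1 hm) ((h.bij t ht).mapsTo.comp hm)
    (h.im_pos a0 hx')
  have d1 : HasDerivAt (g t) (deriv (g t) x) (iv (dom γ) g a (g a x)) := by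
    rw [h.iv_g a0 hx']
    exact ((h.diff t ht).differentiableAt ((h.op t ht).mem_nhds hx)).hasDerivAt
  rw [(d1.comp _ (h.chain_der a0 hx')).deriv, Function.comp_apply, h.iv_g a0 hx', norm_mul,
    norm_inv] at sp
  refine absurd (h.ups_lt ht hx a0 a2 le_rfl) (not_lt.2 ?_)
  rw [ups, ups, le_div_iff₀' (norm_pos_iff.2 (h.deriv_ne ht hx)), div_eq_inv_mul, ← mul_assoc]
  exact sp

end Vale.Agent.P164
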