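import Vale.Agent.P164.Flow2
import Vale.Agent.P164.Eul

namespace Vale.Agent.P164

open Set

variable {W : ℝ → ℝ} {D : ℝ → Set ℂ} {g : ℝ → ℂ → ℂ}

theorem eu_mv {F : Type*} [NormedAddCommGroup F] [NormedSpace ℝ F] {f f' : ℝ → F} {a b C : ℝ}
    (c : F) (ha : 0 ≤ a) (hf : ∀ s ∈ Icc 0 b, HasDerivWithinAt f (f' s) (Icc 0 b) s)
    (hC : ∀ s ∈ Icc a b, ‖f' s - c‖ ≤ C) {t : ℝ} (ht : t ∈ Icc a b) :
    ‖f t - f a - (t - a) • c‖ ≤ C * (t - a) := by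
  have h1 := (convex_Icc a b).norm_image_sub_le_of_norm_hasDerivWithin_le
    (f := fun s => f s - s • c) (f' := fun s => f' s - c) (C := C) (fun s hs => by
      have h2 := ((hf s ⟨ha.trans hs.1, hs.2⟩).mono (Icc_subset_Icc_left ha)).fun_sub
        ((hasDerivWithinAt_id s (Icc a b)).smul_const c)
      rwa [one_smul] at h2) hC (left_mem_Icc.2 (ht.1.trans ht.2)) ht
  rw [Real.norm_of_nonneg (sub_nonneg.2 ht.1)] at h1
  rwa [show f t - f a - (t - a) • c = f t - t • c - (f a - a • c) by rw [sub_smul]; abel]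

theorem eu_inv {m : ℝ} (hm : 0 < m) {z : ℂ} (hz : m ≤ z.im) : ‖z⁻¹‖ ≤ m⁻¹ := by
  rw [norm_inv]
  exact inv_anti₀ hm (hz.trans (Complex.im_le_norm z))

theorem eu_lip {m : ℝ} (hm : 0 < m) {z w : ℂ} (hz : m ≤ z.im) (hw : m ≤ w.im) :
    ‖z⁻¹ - w⁻¹‖ ≤ m⁻¹ ^ 2 * ‖z - w‖ := by
  have h1 : z ≠ 0 := fun h => by simp [h] at hz; linarith
  have h2 : w ≠ 0 := fun h => by simp [h] at hw; linarith
  have e : z⁻¹ - w⁻¹ = z⁻¹ * w⁻¹ * (w - z) := by field_simp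
  rw [e, norm_mul, norm_mul, norm_sub_rev, sq]
  exact mul_le_mul_of_nonneg_right (mul_le_mul (eu_inv hm hz) (eu_inv hm hw) (norm_nonneg _)
    (by positivity)) (norm_nonneg _)

theorem eu_q (z : ℂ) : -4 * z.im ^ 2 / ‖z‖ ^ 4 = -4 * z⁻¹.im ^ 2 := by
  rw [Complex.inv_im, Complex.normSq_eq_norm_sq]
  ring

theorem eu_qle {m : ℝ} (hm : 0 < m) {z : ℂ} (hz : m ≤ z.im) :
    |(-4 * z⁻¹.im ^ 2)| ≤ 4 * m⁻¹ ^ 2 := by
  have h1 := (Complex.abs_im_le_norm _).trans (eu_inv hm hz)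
  rw [abs_mul, abs_pow, abs_neg, abs_of_pos (by norm_num : (0 : ℝ) < 4)]
  gcongr

theorem eu_qlip {m : ℝ} (hm : 0 < m) {z w : ℂ} (hz : m ≤ z.im) (hw : m ≤ w.im) :
    |(-4 * z⁻¹.im ^ 2) - -4 * w⁻¹.im ^ 2| ≤ 8 * m⁻¹ ^ 3 * ‖z - w‖ := by
  have h1 := (Complex.abs_im_le_norm _).trans (eu_inv hm hz)
  have h2 := (Complex.abs_im_le_norm _).trans (eu_inv hm hw)
  have h3 := (Complex.abs_im_le_norm _).trans (eu_lip hm hz hw)
  have h4 : |z⁻¹.im + w⁻¹.im| ≤ 2 * m⁻¹ := (abs_add_le _ _).trans (by linarith)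
  rw [show -4 * z⁻¹.im ^ 2 - -4 * w⁻¹.im ^ 2 = -4 * ((z⁻¹.im + w⁻¹.im) * (z⁻¹ - w⁻¹).im) by
    rw [Complex.sub_im]; ring, abs_mul, abs_mul, abs_neg, abs_of_pos (by norm_num : (0 : ℝ) < 4)]
  calc _ ≤ 4 * (2 * m⁻¹ * (m⁻¹ ^ 2 * ‖z - w‖)) := by gcongr
    _ = _ := by ring

def eu_c (p : St) : ℂ := ⟨p.x, p.y⟩

theorem eu_rho (p : St) : Complex.normSq (eu_c p) = rho2 p := by
  rw [Complex.normSq_apply, rho2, sq, sq]
  rfl

theorem eu_l (δ : ℝ) (p : St) (ξ : ℝ) : (eul δ p ξ).l = p.l + δ * (-4 * (eu_c p)⁻¹.im ^ 2) := by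
  rw [eul_l, Complex.inv_im, eu_rho]
  show _ = p.l + δ * (-4 * (-p.y / rho2 p) ^ 2)
  ring

theorem eu_z {m δ : ℝ} (hm : 0 < m) (hδ : 0 ≤ δ) (hδm : 4 * δ ≤ m ^ 2) {p : St} (hp : m ≤ p.y)
    (ξ : ℝ) : ‖eu_c (eul δ p ξ) - (eu_c p + δ • (2 * (eu_c p)⁻¹) - ξ)‖ ≤ 4 * m⁻¹ ^ 3 * δ ^ 2 := by
  have hy : 0 < p.y := hm.trans_le hp
  have h1 := step_le hδ hm hp
  have h2 : δ / m ^ 2 ≤ 1 / 4 := by
    rw [div_le_iff₀ (by positivity)]
    linarith
  have h3 : 0 ≤ δ / rho2 p := div_nonneg hδ (rho2_nonneg p)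
  have h4 := Real.abs_exp_sub_one_sub_id_le (x := -(2 * δ / rho2 p)) (by
    rw [abs_neg, mul_div_assoc, abs_of_nonneg (by positivity)]
    linarith)
  have e : eu_c (eul δ p ξ) - (eu_c p + δ • (2 * (eu_c p)⁻¹) - ξ) =
      ((p.y * (Real.exp (-(2 * δ / rho2 p)) - 1 - -(2 * δ / rho2 p)) : ℝ) : ℂ) * Complex.I := by
    have e1 : ∀ q, (eu_c q).re = q.x := fun _ => rfl
    have e2 : ∀ q, (eu_c q).im = q.y := fun _ => rfl
    refine Complex.ext ?_ ?_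
    · simp only [Complex.sub_re, Complex.add_re, Complex.smul_re, Complex.mul_re, Complex.inv_re,
        Complex.inv_im, eu_rho, e1, e2, eul_x, Complex.ofReal_re, Complex.ofReal_im, Complex.I_re,
        Complex.I_im, Complex.re_ofNat, Complex.im_ofNat, smul_eq_mul]
      ring
    · simp only [Complex.sub_im, Complex.add_im, Complex.smul_im, Complex.mul_im, Complex.inv_re,
        Complex.inv_im, eu_rho, e1, e2, eul_y, Complex.ofReal_re, Complex.ofReal_im, Complex.I_re,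
        Complex.I_im, Complex.re_ofNat, Complex.im_ofNat, smul_eq_mul]
      ring
  rw [e, norm_mul, Complex.norm_I, mul_one, Complex.norm_real, Real.norm_eq_abs, abs_mul,
    abs_of_pos hy]
  have h5 := step_le hδ hy le_rfl
  calc _ ≤ p.y * (-(2 * δ / rho2 p)) ^ 2 := by gcongr
    _ = 4 * p.y * (δ / rho2 p) ^ 2 := by ring
    _ ≤ 4 * p.y * (δ / p.y ^ 2) ^ 2 := by gcongr
    _ = 4 * p.y⁻¹ ^ 3 * δ ^ 2 := by field_simp
    _ ≤ _ := by gcongr

theorem Chain.eu_step (h : Chain W D g) {m δ ω a : ℝ} (hm : 0 < m) (hδ : 0 < δ)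
    (hδm : 4 * δ ≤ m ^ 2) (ha : 0 ≤ a) {u : ℂ} (hu : u ∈ D a) (hY : 3 / 2 * m ≤ (g a u).im)
    {p : St} (hp : m ≤ p.y) (hω : ∀ t ∈ Icc a (a + δ), |W t - W a| ≤ ω) :
    u ∈ D (a + δ) ∧ (∀ t ∈ Icc a (a + δ), ‖zz W g t u - zz W g a u‖ ≤ 2 * m⁻¹ * δ + ω ∧
      |Real.log (ups g t u) - Real.log (ups g a u)| ≤ 4 * m⁻¹ ^ 2 * δ) ∧
    ‖eu_c (eul δ p (W (a + δ) - W a)) - zz W g (a + δ) u‖ ≤ ‖eu_c p - zz W g a u‖ +
      2 * m⁻¹ ^ 2 * (‖eu_c p - zz W g a u‖ + (2 * m⁻¹ * δ + ω)) * δ + 4 * m⁻¹ ^ 3 * δ ^ 2 ∧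
    |(eul δ p (W (a + δ) - W a)).l - Real.log (ups g (a + δ) u)| ≤ |p.l - Real.log (ups g a u)| +
      8 * m⁻¹ ^ 3 * (‖eu_c p - zz W g a u‖ + (2 * m⁻¹ * δ + ω)) * δ := by
  have hb : 0 ≤ a + δ := by linarith
  have hab : a + δ ∈ Icc a (a + δ) := right_mem_Icc.2 (by linarith)
  have hY2 := pow_le_pow_left₀ (by positivity) hY 2
  obtain ⟨hD, h1⟩ := h.ext ha hu hab.1 (by nlinarith)
  have h2 : m ≤ (g (a + δ) u).im :=
    (pow_le_pow_iff_left₀ hm.le (h.im_pos hb hD).le two_ne_zero).1 (by nlinarith)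
  have h3 : ∀ t ∈ Icc a (a + δ), m ≤ (zz W g t u).im := fun t ht => by
    rw [zz_im]
    exact h2.trans (h.Y_anti hb hD (ha.trans ht.1) ht.2 le_rfl)
  have hg : ∀ s ∈ Icc 0 (a + δ), HasDerivWithinAt (fun s => g s u) (2 * (zz W g s u)⁻¹)
      (Icc 0 (a + δ)) s := fun s hs => h.ode _ hb u hD s hs
  have hl : ∀ s ∈ Icc 0 (a + δ), HasDerivWithinAt (fun s => Real.log (ups g s u))
      (-4 * (zz W g s u)⁻¹.im ^ 2) (Icc 0 (a + δ)) s := fun s hs => by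
    rw [← eu_q, zz_im]
    exact h.d_logU hb hD hs
  have hz : ∀ s t, zz W g t u - zz W g s u = g t u - g s u - ((W t - W s : ℝ) : ℂ) := by
    intro s t
    unfold zz
    push_cast
    ring
  have h4 : ∀ t ∈ Icc a (a + δ), ‖zz W g t u - zz W g a u‖ ≤ 2 * m⁻¹ * δ + ω := by
    intro t ht
    have h5 := eu_mv 0 ha hg (C := 2 * m⁻¹) (fun s hs => by
      rw [sub_zero, norm_mul, Complex.norm_two]
      exact mul_le_mul_of_nonneg_left (eu_inv hm (h3 s hs)) zero_le_two) ht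
    rw [smul_zero, sub_zero] at h5
    rw [hz]
    refine (norm_sub_le _ _).trans (add_le_add (h5.trans ?_) ?_)
    · exact mul_le_mul_of_nonneg_left (by linarith [ht.2]) (by positivity)
    · rw [Complex.norm_real]
      exact hω t ht
  have h6 : ∀ t ∈ Icc a (a + δ),
      ‖zz W g t u - eu_c p‖ ≤ ‖eu_c p - zz W g a u‖ + (2 * m⁻¹ * δ + ω) := fun t ht => by
    have := norm_sub_le_norm_sub_add_norm_sub (zz W g t u) (zz W g a u) (eu_c p)
    rw [norm_sub_rev (zz W g a u)] at this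
    linarith [h4 t ht]
  refine ⟨hD, fun t ht => ⟨h4 t ht, ?_⟩, ?_, ?_⟩
  · have h5 := eu_mv 0 ha hl (C := 4 * m⁻¹ ^ 2) (fun s hs => by
      rw [sub_zero]
      exact eu_qle hm (h3 s hs)) ht
    rw [smul_zero, sub_zero] at h5
    exact h5.trans (mul_le_mul_of_nonneg_left (by linarith [ht.2]) (by positivity))
  · have h5 := eu_mv (2 * (eu_c p)⁻¹) ha hg
      (C := 2 * m⁻¹ ^ 2 * (‖eu_c p - zz W g a u‖ + (2 * m⁻¹ * δ + ω))) (fun s hs => by
        rw [← mul_sub, norm_mul, Complex.norm_two, mul_assoc]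
        exact mul_le_mul_of_nonneg_left ((eu_lip hm (h3 s hs) hp).trans
          (mul_le_mul_of_nonneg_left (h6 s hs) (by positivity))) zero_le_two) hab
    rw [add_sub_cancel_left] at h5
    have h7 := eu_z hm hδ.le hδm hp (W (a + δ) - W a)
    have e : eu_c (eul δ p (W (a + δ) - W a)) - zz W g (a + δ) u = (eu_c p - zz W g a u -
        (g (a + δ) u - g a u - δ • (2 * (eu_c p)⁻¹))) + (eu_c (eul δ p (W (a + δ) - W a)) -
          (eu_c p + δ • (2 * (eu_c p)⁻¹) - ((W (a + δ) - W a : ℝ) : ℂ))) := by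
      linear_combination -hz a (a + δ)
    rw [e]
    exact (norm_add_le _ _).trans (add_le_add ((norm_sub_le _ _).trans (add_le_add le_rfl h5)) h7)
  · have h5 := eu_mv (-4 * (eu_c p)⁻¹.im ^ 2) ha hl
      (C := 8 * m⁻¹ ^ 3 * (‖eu_c p - zz W g a u‖ + (2 * m⁻¹ * δ + ω))) (fun s hs =>
        (eu_qlip hm (h3 s hs) hp).trans (mul_le_mul_of_nonneg_left (h6 s hs) (by positivity))) hab
    rw [add_sub_cancel_left, smul_eq_mul, Real.norm_eq_abs] at h5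
    rw [eu_l, show p.l + δ * (-4 * (eu_c p)⁻¹.im ^ 2) - Real.log (ups g (a + δ) u) =
      p.l - Real.log (ups g a u) - (Real.log (ups g (a + δ) u) - Real.log (ups g a u) -
        δ * (-4 * (eu_c p)⁻¹.im ^ 2)) by ring]
    exact (abs_sub _ _).trans (add_le_add le_rfl h5)

/-- convergence of the Euler scheme, uniformly in the starting point -/
theorem Chain.eu (h : Chain W D g) (h0 : W 0 = 0) {T y1 e : ℝ} (hT : 0 < T) (hy : 0 < y1)
    (he : 0 < e) : ∃ δ0 : ℝ, 0 < δ0 ∧ ∀ δ : ℝ, 0 < δ → δ ≤ δ0 → ∀ u ∈ uhp, ∀ N : ℕ, N * δ ≤ T →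
      ((u ∈ D (N * δ) ∧ y1 ≤ (g (N * δ) u).im) ∨ y1 ≤ (fre δ u (inc W δ) N).y) →
      u ∈ D ((N + 1) * δ) ∧ ∀ n : ℕ, n ≤ N → ∀ t ∈ Icc (n * δ) ((n + 1) * δ),
        |(fre δ u (inc W δ) n).x - (zz W g t u).re| ≤ e ∧
        |(fre δ u (inc W δ) n).y - (g t u).im| ≤ e ∧
        |(fre δ u (inc W δ) n).l - Real.log (ups g t u)| ≤ e := by
  obtain ⟨m, rfl⟩ : ∃ m, y1 = 2 * m := ⟨y1 / 2, by ring⟩
  have hm : 0 < m := by linarith
  have hi : 0 < m⁻¹ := inv_pos.2 hm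
  obtain ⟨L, hL⟩ : ∃ L, L = 2 * m⁻¹ ^ 2 + 8 * m⁻¹ ^ 3 := ⟨_, rfl⟩
  obtain ⟨K, hK⟩ : ∃ K, K = 2 * m⁻¹ + 4 * m⁻¹ ^ 2 + 1 := ⟨_, rfl⟩
  have hL0 : 0 < L := by rw [hL]; positivity
  have hK0 : 0 < K := by rw [hK]; positivity
  obtain ⟨ω, hω⟩ : ∃ ω, ω = min e (m / 2) / Real.exp (L * T) / 2 := ⟨_, rfl⟩
  have hω0 : 0 < ω := by rw [hω]; positivity
  have hωe : 2 * ω * Real.exp (L * T) = min e (m / 2) := by
    rw [hω]
    field_simp
  obtain ⟨δ1, hδ1, hW⟩ := Metric.uniformContinuousOn_iff_le.1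
    ((isCompact_Icc (a := 0) (b := T + 1)).uniformContinuousOn_of_continuous
      (h.cont.mono Icc_subset_Ici_self)) ω hω0
  refine ⟨min (min δ1 1) (min (m ^ 2 / 4) (ω / K)), by positivity,
    fun δ hδ hδ0 u hu N hN hyp => ?_⟩
  simp only [le_min_iff] at hδ0
  obtain ⟨⟨d1, d2⟩, d3, d4⟩ := hδ0
  rw [le_div_iff₀ hK0, hK] at d4
  have hn : ∀ n : ℕ, n ≤ N → 0 ≤ n * δ ∧ n * δ ≤ N * δ := fun n hn =>
    ⟨by positivity, mul_le_mul_of_nonneg_right (Nat.cast_le.2 hn) hδ.le⟩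
  have hpow : ∀ n : ℕ, n ≤ N → 2 * ω * (1 + L * δ) ^ n ≤ min e (m / 2) := by
    intro n hnN
    rw [← hωe]
    refine mul_le_mul_of_nonneg_left ?_ (by positivity)
    calc (1 + L * δ) ^ n ≤ Real.exp (L * δ) ^ n :=
          pow_le_pow_left₀ (by positivity) (by linarith [Real.add_one_le_exp (L * δ)]) n
      _ = Real.exp (L * (n * δ)) := by rw [← Real.exp_nat_mul]; ring_nf
      _ ≤ _ := Real.exp_le_exp.2 (mul_le_mul_of_nonneg_left ((hn n hnN).2.trans hN) hL0.le)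
  have hst := fun (n : ℕ) (hnN : n ≤ N) (h1 : u ∈ D (n * δ))
      (h2 : ‖eu_c (fre δ u (inc W δ) n) - zz W g (n * δ) u‖ ≤ m / 2) =>
    have h3 : |(fre δ u (inc W δ) n).y - (g (n * δ) u).im| ≤ m / 2 := by
      have := (Complex.abs_im_le_norm _).trans h2
      rwa [Complex.sub_im, zz_im] at this
    have h4 : 2 * m ≤ (g (n * δ) u).im ∨ 2 * m ≤ (fre δ u (inc W δ) n).y :=
      hyp.imp (fun h5 => h5.2.trans (h.Y_anti (hn N le_rfl).1 h5.1 (hn n hnN).1 (hn n hnN).2 le_rfl))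
        fun h5 => h5.trans (fre_y_anti hδ.le hu _ hnN)
    h.eu_step (ω := ω) (p := fre δ u (inc W δ) n) hm hδ (by linarith) (hn n hnN).1 h1
      (by rcases h4 with h5 | h5 <;> linarith [abs_le.1 h3])
      (by rcases h4 with h5 | h5 <;> linarith [abs_le.1 h3]) fun t ht => by
        obtain ⟨h5, h6⟩ := hn n hnN
        refine hW t ⟨h5.trans ht.1, by linarith [ht.2]⟩ _ ⟨h5, by linarith⟩ ?_
        rw [Real.dist_eq, abs_of_nonneg (by linarith [ht.1])]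
        linarith [ht.2]
  have hq1 : 0 ≤ m⁻¹ * δ := by positivity
  have hq2 : 0 ≤ m⁻¹ ^ 2 * δ := by positivity
  have key : ∀ n : ℕ, n ≤ N → u ∈ D (n * δ) ∧ ‖eu_c (fre δ u (inc W δ) n) - zz W g (n * δ) u‖ +
      |(fre δ u (inc W δ) n).l - Real.log (ups g (n * δ) u)| + 2 * ω ≤ 2 * ω * (1 + L * δ) ^ n := by
    intro n
    induction n with
    | zero =>
      intro _
      have h1 : u ∈ D 0 := h.D_zero ▸ hu
      have h2 : eu_c (ini u) = u := rfl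
      rw [Nat.cast_zero, zero_mul, fre_zero, h2, zz, h.init 0 le_rfl u h1, h0, h.ups_zero hu, ini_l]
      exact ⟨h1, by simp⟩
    | succ n ih =>
      intro hnN
      obtain ⟨h1, h2⟩ := ih (by omega)
      have h3 := (hpow n (by omega)).trans (min_le_right _ _)
      obtain ⟨h4, -, h5, h6⟩ := hst n (by omega) h1 (by
        linarith [abs_nonneg ((fre δ u (inc W δ) n).l - Real.log (ups g (n * δ) u))])
      have e : ((n + 1 : ℕ) : ℝ) * δ = n * δ + δ := by push_cast; ring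
      have e' : inc W δ n = W (n * δ + δ) - W (n * δ) := by rw [inc, add_one_mul]
      rw [e, fre_succ, e', pow_succ, ← mul_assoc]
      refine ⟨h4, le_trans ?_ (mul_le_mul_of_nonneg_right h2 (by positivity))⟩
      have a1 := norm_nonneg (eu_c (fre δ u (inc W δ) n) - zz W g (n * δ) u)
      have a2 := abs_nonneg ((fre δ u (inc W δ) n).l - Real.log (ups g (n * δ) u))
      generalize ‖eu_c (fre δ u (inc W δ) n) - zz W g (n * δ) u‖ = E at *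
      generalize |(fre δ u (inc W δ) n).l - Real.log (ups g (n * δ) u)| = F at *
      have b1 : L * δ * (E + (2 * m⁻¹ * δ + ω) + δ) ≤ L * δ * (E + F + 2 * ω) :=
        mul_le_mul_of_nonneg_left (by linarith) (by positivity)
      have b2 : 0 ≤ m⁻¹ ^ 2 * δ ^ 2 := by positivity
      have b3 : 0 ≤ m⁻¹ ^ 3 * δ ^ 2 := by positivity
      rw [hL] at b1 ⊢
      linarith
  have fin := fun (n : ℕ) (hnN : n ≤ N) => hst n hnN (key n hnN).1 (by
    linarith [abs_nonneg ((fre δ u (inc W δ) n).l - Real.log (ups g (n * δ) u)), (key n hnN).2,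
      (hpow n hnN).trans (min_le_right _ _)])
  refine ⟨by rw [add_one_mul]; exact (fin N le_rfl).1, fun n hnN t ht => ?_⟩
  rw [add_one_mul] at ht
  obtain ⟨h1, h2⟩ := (fin n hnN).2.1 t ht
  have h3 := (key n hnN).2.trans ((hpow n hnN).trans (min_le_left _ _))
  have a1 := norm_nonneg (eu_c (fre δ u (inc W δ) n) - zz W g (n * δ) u)
  have a2 := abs_nonneg ((fre δ u (inc W δ) n).l - Real.log (ups g (n * δ) u))
  have h4 : ‖eu_c (fre δ u (inc W δ) n) - zz W g t u‖ ≤ e := by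
    have := norm_sub_le_norm_sub_add_norm_sub (eu_c (fre δ u (inc W δ) n)) (zz W g (n * δ) u)
      (zz W g t u)
    rw [norm_sub_rev (zz W g (n * δ) u)] at this
    linarith
  refine ⟨(Complex.abs_re_le_norm _).trans h4, ?_, ?_⟩
  · have := (Complex.abs_im_le_norm _).trans h4
    rwa [Complex.sub_im, zz_im] at this
  · have := abs_sub_le (fre δ u (inc W δ) n).l (Real.log (ups g (n * δ) u)) (Real.log (ups g t u))
    rw [abs_sub_comm (Real.log (ups g (n * δ) u))] at this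
    linarith

end Vale.Agent.P164
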