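import Vale.Agent.P164.Chain

namespace Vale.Agent.P164

open Set Metric

variable {W : ℝ → ℝ} {D : ℝ → Set ℂ} {g : ℝ → ℂ → ℂ}

theorem flow_sub {F : Type*} [NormedAddCommGroup F] [NormedSpace ℝ F] [CompleteSpace F]
    {f f' : ℝ → F} {t a b : ℝ} (hf : ∀ s ∈ Icc 0 t, HasDerivWithinAt f (f' s) (Icc 0 t) s)
    (hc : ContinuousOn f' (Icc 0 t)) (ha : 0 ≤ a) (hab : a ≤ b) (hb : b ≤ t) :
    ∫ s in a..b, f' s = f b - f a :=
  intervalIntegral.integral_eq_sub_of_hasDerivAt_of_le hab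
    (fun s hs => (hf s (Icc_subset_Icc ha hb hs)).continuousWithinAt.mono (Icc_subset_Icc ha hb))
    (fun s hs => (hf s ⟨ha.trans hs.1.le, hs.2.le.trans hb⟩).hasDerivAt
      (Icc_mem_nhds (ha.trans_lt hs.1) (hs.2.trans_le hb)))
    ((hc.mono (Icc_subset_Icc ha hb)).intervalIntegrable_of_Icc hab)

theorem flow_ftc {c : ℝ → ℂ} {t a s : ℝ} (hc : ContinuousOn c (Icc 0 t)) (ha : a ∈ Icc 0 t)
    (hs : s ∈ Icc 0 t) : HasDerivWithinAt (fun s => ∫ r in a..s, c r) (c s) (Icc 0 t) s := by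
  have : Fact (s ∈ Icc 0 t) := ⟨hs⟩
  exact intervalIntegral.integral_hasDerivWithinAt_right
    (hc.mono (uIcc_subset_Icc ha hs)).intervalIntegrable
    (hc.stronglyMeasurableAtFilter_nhdsWithin measurableSet_Icc s) (hc s hs)

theorem flow_lin {u c : ℝ → ℂ} {t a b : ℝ}
    (hu : ∀ s ∈ Icc 0 t, HasDerivWithinAt u (-c s * u s) (Icc 0 t) s)
    (hc : ContinuousOn c (Icc 0 t)) (ha : 0 ≤ a) (hab : a ≤ b) (hb : b ≤ t) :
    u b = u a * Complex.exp (-∫ s in a..b, c s) := by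
  have h1 := flow_sub (f := fun s => u s * Complex.exp (∫ r in a..s, c r)) (f' := fun _ => 0)
    (fun s hs => ((hu s hs).mul (flow_ftc hc ⟨ha, hab.trans hb⟩ hs).cexp).congr_deriv (by ring))
    continuousOn_const ha hab hb
  simp only [intervalIntegral.integral_zero, intervalIntegral.integral_same, Complex.exp_zero,
    mul_one] at h1
  rw [← sub_eq_zero.1 h1.symm, mul_assoc, ← Complex.exp_add, add_neg_cancel, Complex.exp_zero,
    mul_one]

theorem Chain.flow_pos (h : Chain W D g) {t : ℝ} {z : ℂ} (hz : z ∈ D t) {s : ℝ}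
    (hs : s ∈ Icc 0 t) : 0 < (g s z).im := h.im_pos hs.1 (h.anti s t hs.1 hs.2 hz)

theorem Chain.flow_ne (h : Chain W D g) {t : ℝ} {z : ℂ} (hz : z ∈ D t) {s : ℝ}
    (hs : s ∈ Icc 0 t) : zz W g s z ≠ 0 := fun h0 => by
  have h1 := congrArg Complex.im h0
  simp only [zz, Complex.sub_im, Complex.ofReal_im, sub_zero, Complex.zero_im] at h1
  exact (h.flow_pos hz hs).ne' h1

theorem Chain.zz_cont (h : Chain W D g) {t : ℝ} (ht : 0 ≤ t) {z : ℂ} (hz : z ∈ D t) :
    ContinuousOn (fun s => zz W g s z) (Icc 0 t) := by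
  exact ContinuousOn.sub (fun s hs => (h.ode t ht z hz s hs).continuousWithinAt)
    (Complex.continuous_ofReal.comp_continuousOn (h.cont.mono Icc_subset_Ici_self))

theorem zz_im (s : ℝ) (z : ℂ) : (zz W g s z).im = (g s z).im := by simp [zz]

/-- `d log Y = - 2 / |Z|^2 dt` -/
theorem Chain.d_logY (h : Chain W D g) {t : ℝ} (ht : 0 ≤ t) {z : ℂ} (hz : z ∈ D t) {s : ℝ}
    (hs : s ∈ Icc 0 t) : HasDerivWithinAt (fun s => Real.log (g s z).im)
      (-2 / ‖zz W g s z‖ ^ 2) (Icc 0 t) s := by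
  have h1 : HasDerivWithinAt (fun s => (g s z).im) (2 / zz W g s z).im (Icc 0 t) s :=
    Complex.imCLM.hasFDerivAt.comp_hasDerivWithinAt s (h.ode t ht z hz s hs)
  have h2 := (h.flow_pos hz hs).ne'
  refine (h1.log h2).congr_deriv ?_
  rw [Complex.div_im, Complex.sq_norm, zz_im]
  simp only [Complex.im_ofNat, Complex.re_ofNat, zero_mul, zero_div, zero_sub]
  field_simp

/-- two point formula -/
theorem Chain.two_pt (h : Chain W D g) {t : ℝ} (ht : 0 ≤ t) {z w : ℂ} (hz : z ∈ D t) (hw : w ∈ D t)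
    {a b : ℝ} (ha : 0 ≤ a) (hab : a ≤ b) (hb : b ≤ t) :
    g b z - g b w = (g a z - g a w) *
      Complex.exp (-∫ s in a..b, 2 / (zz W g s z * zz W g s w)) := by
  refine flow_lin (u := fun s => g s z - g s w) (c := fun s => 2 / (zz W g s z * zz W g s w))
    (fun s hs => ((h.ode t ht z hz s hs).sub (h.ode t ht w hw s hs)).congr_deriv ?_)
    (continuousOn_const.div ((h.zz_cont ht hz).mul (h.zz_cont ht hw))
      fun s hs => mul_ne_zero (h.flow_ne hz hs) (h.flow_ne hw hs)) ha hab hb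
  have h1 := h.flow_ne hz hs
  have h2 := h.flow_ne hw hs
  simp only [zz] at h1 h2 ⊢
  field_simp
  ring

/-- two point formula with the reflected point -/
theorem Chain.two_pt' (h : Chain W D g) {t : ℝ} (ht : 0 ≤ t) {z w : ℂ} (hz : z ∈ D t) (hw : w ∈ D t)
    {a b : ℝ} (ha : 0 ≤ a) (hab : a ≤ b) (hb : b ≤ t) :
    g b z - (starRingEnd ℂ) (g b w) = (g a z - (starRingEnd ℂ) (g a w)) *
      Complex.exp (-∫ s in a..b, 2 / (zz W g s z * (starRingEnd ℂ) (zz W g s w))) := by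
  refine flow_lin (u := fun s => g s z - (starRingEnd ℂ) (g s w))
    (c := fun s => 2 / (zz W g s z * (starRingEnd ℂ) (zz W g s w)))
    (fun s hs => ((h.ode t ht z hz s hs).sub (h.ode t ht w hw s hs).star).congr_deriv ?_)
    (continuousOn_const.div ((h.zz_cont ht hz).mul (h.zz_cont ht hw).star)
      fun s hs => mul_ne_zero (h.flow_ne hz hs) ((map_ne_zero _).2 (h.flow_ne hw hs))) ha hab hb
  have h1 := h.flow_ne hz hs
  have h2 := (map_ne_zero (starRingEnd ℂ)).2 (h.flow_ne hw hs)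
  simp only [zz, Complex.star_def, map_div₀, map_sub, Complex.conj_ofReal, map_ofNat] at h1 h2 ⊢
  field_simp
  ring

theorem Chain.flow_c2 (h : Chain W D g) {t : ℝ} (ht : 0 ≤ t) {z : ℂ} (hz : z ∈ D t) :
    ContinuousOn (fun s => 2 / ‖zz W g s z‖ ^ 2) (Icc 0 t) :=
  continuousOn_const.div ((h.zz_cont ht hz).norm.pow 2)
    fun _ hs => pow_ne_zero 2 (norm_ne_zero_iff.2 (h.flow_ne hz hs))

theorem Chain.flow_logY (h : Chain W D g) {t : ℝ} (ht : 0 ≤ t) {z : ℂ} (hz : z ∈ D t) {a b : ℝ}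
    (ha : 0 ≤ a) (hab : a ≤ b) (hb : b ≤ t) :
    Real.log (g a z).im - Real.log (g b z).im = ∫ s in a..b, 2 / ‖zz W g s z‖ ^ 2 := by
  rw [flow_sub (f := fun s => -Real.log (g s z).im)
    (fun s hs => (h.d_logY ht hz hs).neg.congr_deriv (by ring)) (h.flow_c2 ht hz) ha hab hb]
  ring

theorem Chain.flow_anti (h : Chain W D g) {t : ℝ} (ht : 0 ≤ t) {z : ℂ} (hz : z ∈ D t) {a b : ℝ}
    (ha : 0 ≤ a) (hab : a ≤ b) (hb : b ≤ t) : (g b z).im ≤ (g a z).im := by
  rw [← Real.log_le_log_iff (h.flow_pos hz ⟨ha.trans hab, hb⟩) (h.flow_pos hz ⟨ha, hab.trans hb⟩),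
    ← sub_nonneg, h.flow_logY ht hz ha hab hb]
  exact intervalIntegral.integral_nonneg hab fun s _ => by positivity

theorem Chain.flow_le (h : Chain W D g) {t : ℝ} (ht : 0 ≤ t) {z : ℂ} (hz : z ∈ D t) {s : ℝ}
    (hs : s ∈ Icc 0 t) : (g t z).im ≤ ‖zz W g s z‖ :=
  (h.flow_anti ht hz hs.1 hs.2 le_rfl).trans ((zz_im s z).ge.trans (Complex.im_le_norm _))

/-- the spatial derivative -/
theorem Chain.deriv_eq (h : Chain W D g) {t : ℝ} (ht : 0 ≤ t) {z : ℂ} (hz : z ∈ D t) :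
    deriv (g t) z = Complex.exp (-∫ s in (0 : ℝ)..t, 2 / zz W g s z ^ 2) := by
  have n1 : D t ∈ nhds z := (h.op t ht).mem_nhds hz
  have p1 := h.im_pos ht hz
  have c1 : ∀ s ∈ Icc 0 t, ContinuousAt (g s) z := fun s hs =>
    ((h.diff s hs.1).differentiableAt
      ((h.op s hs.1).mem_nhds (h.anti s t hs.1 hs.2 hz))).continuousAt
  have n2 : ∀ᶠ w in nhds z, (g t z).im / 2 < (g t w).im :=
    continuousAt_const.eventually_lt
      (Complex.continuous_im.continuousAt.comp (c1 t ⟨ht, le_rfl⟩)) (half_lt_self p1)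
  have su : uIoc 0 t ⊆ Icc 0 t := by
    rw [uIoc_of_le ht]
    exact Ioc_subset_Icc_self
  have c2 : ContinuousAt (fun w => ∫ s in (0 : ℝ)..t, 2 / (zz W g s w * zz W g s z)) z := by
    refine intervalIntegral.continuousAt_of_dominated_interval
      (bound := fun _ => 2 / ((g t z).im / 2 * (g t z).im)) ?_ ?_ intervalIntegrable_const ?_
    · filter_upwards [n1] with w hw
      exact ((continuousOn_const.div ((h.zz_cont ht hw).mul (h.zz_cont ht hz))
        fun s hs => mul_ne_zero (h.flow_ne hw hs) (h.flow_ne hz hs)).mono su).aestronglyMeasurable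
          measurableSet_uIoc
    · filter_upwards [n1, n2] with w hw hw'
      refine Filter.Eventually.of_forall fun s hs => ?_
      rw [norm_div, norm_mul, Complex.norm_ofNat]
      exact div_le_div_of_nonneg_left zero_le_two (by positivity)
        (mul_le_mul (hw'.le.trans (h.flow_le ht hw (su hs))) (h.flow_le ht hz (su hs)) p1.le
          (norm_nonneg _))
    · refine Filter.Eventually.of_forall fun s hs => ?_
      exact continuousAt_const.div
        (((c1 s (su hs)).sub continuousAt_const).mul continuousAt_const)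
        (mul_ne_zero (h.flow_ne hz (su hs)) (h.flow_ne hz (su hs)))
  refine HasDerivAt.deriv (hasDerivAt_iff_tendsto_slope.2 ?_)
  have c3 := (c2.neg.cexp.tendsto).mono_left (nhdsWithin_le_nhds (s := {z}ᶜ))
  simp only [sq]
  refine c3.congr' ?_
  filter_upwards [nhdsWithin_le_nhds n1, self_mem_nhdsWithin] with w hw hwz
  rw [slope_def_field, h.two_pt ht hw hz le_rfl ht le_rfl, h.init t ht w hw, h.init t ht z hz,
    mul_div_cancel_left₀ _ (sub_ne_zero.2 hwz)]
  rfl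

/-- `d log ups = - 4 Y^2 / |Z|^4 dt` -/
theorem Chain.d_logU (h : Chain W D g) {t : ℝ} (ht : 0 ≤ t) {z : ℂ} (hz : z ∈ D t) {s : ℝ}
    (hs : s ∈ Icc 0 t) : HasDerivWithinAt (fun s => Real.log (ups g s z))
      (-4 * (g s z).im ^ 2 / ‖zz W g s z‖ ^ 4) (Icc 0 t) s := by
  have c1 : ContinuousOn (fun s => 2 / zz W g s z ^ 2) (Icc 0 t) :=
    continuousOn_const.div ((h.zz_cont ht hz).pow 2) fun _ hs => pow_ne_zero 2 (h.flow_ne hz hs)
  have h1 : HasDerivWithinAt (fun s => (∫ r in (0 : ℝ)..s, 2 / zz W g r z ^ 2).re)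
      (2 / zz W g s z ^ 2).re (Icc 0 t) s :=
    Complex.reCLM.hasFDerivAt.comp_hasDerivWithinAt s (flow_ftc c1 ⟨le_rfl, ht⟩ hs)
  have e : ∀ r ∈ Icc 0 t, Real.log (ups g r z) =
      Real.log (g r z).im + (∫ r in (0 : ℝ)..r, 2 / zz W g r z ^ 2).re := fun r hr => by
    rw [ups, h.deriv_eq hr.1 (h.anti r t hr.1 hr.2 hz), Complex.norm_exp,
      Real.log_div (h.flow_pos hz hr).ne' (Real.exp_pos _).ne', Real.log_exp, Complex.neg_re,
      sub_neg_eq_add]
  refine (((h.d_logY ht hz hs).add h1).congr e (e s hs)).congr_deriv ?_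
  have h2 := (Complex.normSq_pos.2 (h.flow_ne hz hs)).ne'
  have h3 : ‖zz W g s z‖ ^ 4 = Complex.normSq (zz W g s z) ^ 2 := by
    rw [← Complex.sq_norm]
    ring
  rw [← zz_im (W := W), h3, Complex.sq_norm, Complex.div_re, map_pow]
  simp only [Complex.im_ofNat, Complex.re_ofNat, zero_mul, zero_div, add_zero]
  field_simp
  rw [sq (zz W g s z), Complex.mul_re, Complex.normSq_apply]
  ring

theorem Chain.logY_int (h : Chain W D g) {t : ℝ} (ht : 0 ≤ t) {z : ℂ} (hz : z ∈ D t) {a b : ℝ}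
    (ha : 0 ≤ a) (hab : a ≤ b) (hb : b ≤ t) :
    Real.log (g a z).im - Real.log (g b z).im = ∫ s in a..b, 2 / ‖zz W g s z‖ ^ 2 := by
  exact h.flow_logY ht hz ha hab hb

theorem Chain.flow_c4 (h : Chain W D g) {t : ℝ} (ht : 0 ≤ t) {z : ℂ} (hz : z ∈ D t) :
    ContinuousOn (fun s => 4 * (g s z).im ^ 2 / ‖zz W g s z‖ ^ 4) (Icc 0 t) :=
  (continuousOn_const.mul ((Complex.continuous_im.comp_continuousOn
    fun s hs => (h.ode t ht z hz s hs).continuousWithinAt).pow 2)).div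
    ((h.zz_cont ht hz).norm.pow 4)
    fun _ hs => pow_ne_zero 4 (norm_ne_zero_iff.2 (h.flow_ne hz hs))

theorem Chain.logU_int (h : Chain W D g) {t : ℝ} (ht : 0 ≤ t) {z : ℂ} (hz : z ∈ D t) {a b : ℝ}
    (ha : 0 ≤ a) (hab : a ≤ b) (hb : b ≤ t) :
    Real.log (ups g a z) - Real.log (ups g b z) =
      ∫ s in a..b, 4 * (g s z).im ^ 2 / ‖zz W g s z‖ ^ 4 := by
  rw [flow_sub (f := fun s => -Real.log (ups g s z))
    (fun s hs => (h.d_logU ht hz hs).neg.congr_deriv (by ring)) (h.flow_c4 ht hz) ha hab hb]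
  ring

theorem Chain.Y_anti (h : Chain W D g) {t : ℝ} (ht : 0 ≤ t) {z : ℂ} (hz : z ∈ D t) {a b : ℝ}
    (ha : 0 ≤ a) (hab : a ≤ b) (hb : b ≤ t) : (g b z).im ≤ (g a z).im := by
  exact h.flow_anti ht hz ha hab hb

theorem Chain.ups_anti (h : Chain W D g) {t : ℝ} (ht : 0 ≤ t) {z : ℂ} (hz : z ∈ D t) {a b : ℝ}
    (ha : 0 ≤ a) (hab : a ≤ b) (hb : b ≤ t) : ups g b z ≤ ups g a z := by
  rw [← Real.log_le_log_iff (h.ups_pos (ha.trans hab) (h.anti b t (ha.trans hab) hb hz))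
    (h.ups_pos ha (h.anti a t ha (hab.trans hb) hz)), ← sub_nonneg, h.logU_int ht hz ha hab hb]
  exact intervalIntegral.integral_nonneg hab fun s _ => by positivity

theorem Chain.ups_lt (h : Chain W D g) {t : ℝ} (ht : 0 ≤ t) {z : ℂ} (hz : z ∈ D t) {a b : ℝ}
    (ha : 0 ≤ a) (hab : a < b) (hb : b ≤ t) : ups g b z < ups g a z := by
  rw [← Real.log_lt_log_iff (h.ups_pos (ha.trans hab.le) (h.anti b t (ha.trans hab.le) hb hz))
    (h.ups_pos ha (h.anti a t ha (hab.le.trans hb) hz)), ← sub_pos,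
    h.logU_int ht hz ha hab.le hb]
  refine intervalIntegral.intervalIntegral_pos_of_pos_on
    (((h.flow_c4 ht hz).mono (Icc_subset_Icc ha hb)).intervalIntegrable_of_Icc hab.le)
    (fun s hs => ?_) hab
  have hs' : s ∈ Icc 0 t := ⟨ha.trans hs.1.le, hs.2.le.trans hb⟩
  have h1 := h.flow_pos hz hs'
  have h2 := norm_pos_iff.2 (h.flow_ne hz hs')
  positivity

theorem Chain.ups_cont (h : Chain W D g) {t : ℝ} (ht : 0 ≤ t) {z : ℂ} (hz : z ∈ D t) :
    ContinuousOn (fun s => ups g s z) (Icc 0 t) := by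
  refine ContinuousOn.congr (f := fun s => Real.exp (Real.log (ups g s z)))
    (Real.continuous_exp.comp_continuousOn fun s hs => (h.d_logU ht hz hs).continuousWithinAt)
    fun s hs => (Real.exp_log (h.ups_pos hs.1 (h.anti s t hs.1 hs.2 hz))).symm

end Vale.Agent.P164
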