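import Vale.Agent.P164.Flow

namespace Vale.Agent.P164

open Set Metric
open scoped ComplexConjugate

variable {W : ℝ → ℝ} {D : ℝ → Set ℂ} {g : ℝ → ℂ → ℂ}

theorem f2_mono {f f' : ℝ → ℝ} {t : ℝ} (hf : ∀ s ∈ Icc 0 t, HasDerivWithinAt f (f' s) (Icc 0 t) s)
    (h0 : ∀ s ∈ Icc 0 t, 0 ≤ f' s) : MonotoneOn f (Icc 0 t) :=
  monotoneOn_of_hasDerivWithinAt_nonneg (convex_Icc 0 t) (fun s hs => (hf s hs).continuousWithinAt)
    (fun s hs => (hf s (interior_subset hs)).mono interior_subset)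
    fun s hs => h0 s (interior_subset hs)

/-- truncation of the imaginary part -/
noncomputable def f2T (m : ℝ) (v : ℂ) : ℂ := ⟨v.re, max v.im m⟩

theorem f2_pl {s t m : ℝ} (hW : ContinuousOn W (Icc 0 s)) (hm : 0 < m) (ht : t ∈ Icc 0 s) (x : ℂ) :
    ∃ α : ℝ → ℂ, α t = x ∧ ∀ r ∈ Icc 0 s,
      HasDerivWithinAt α (2 / (f2T m (α r) - W r)) (Icc 0 s) r := by
  have s0 := ht.1.trans ht.2
  have hn : ∀ (r : ℝ) (v : ℂ), m ≤ ‖f2T m v - W r‖ := fun r v => by
    refine le_trans ?_ ((le_abs_self _).trans (Complex.abs_im_le_norm _))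
    simp [f2T]
  have hn0 : ∀ (r : ℝ) (v : ℂ), f2T m v - W r ≠ 0 := fun r v =>
    norm_pos_iff.1 (hm.trans_le (hn r v))
  refine IsPicardLindelof.exists_eq_forall_mem_Icc_hasDerivWithinAt₀
    (f := fun r v => 2 / (f2T m v - W r)) (t₀ := ⟨t, ht⟩) (a := ⟨2 / m * s, by positivity⟩)
    (L := ⟨2 / m, by positivity⟩) (K := ⟨2 / (m * m) * 2, by positivity⟩) ⟨?_, ?_, ?_, ?_⟩
  · refine fun r _ => LipschitzOnWith.of_dist_le_mul fun x _ y _ => ?_
    have k : ‖f2T m y - f2T m x‖ ≤ 2 * ‖y - x‖ := by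
      have k1 := Complex.abs_re_le_norm (y - x)
      have k2 := (abs_max_sub_max_le_abs y.im x.im m).trans (Complex.abs_im_le_norm (y - x))
      refine (Complex.norm_le_abs_re_add_abs_im _).trans ?_
      rw [two_mul]
      exact add_le_add k1 k2
    rw [dist_eq_norm, div_sub_div _ _ (hn0 r x) (hn0 r y), dist_comm, dist_eq_norm,
      show 2 * (f2T m y - W r) - (f2T m x - W r) * 2 = 2 * (f2T m y - f2T m x) by ring, norm_div,
      norm_mul, norm_mul, Complex.norm_two, mul_div_right_comm]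
    refine le_trans ?_ (mul_assoc _ _ _).ge
    exact mul_le_mul (div_le_div_of_nonneg_left zero_le_two (mul_pos hm hm)
      (mul_le_mul (hn r x) (hn r y) hm.le (norm_nonneg _))) k (norm_nonneg _)
      (div_pos two_pos (mul_pos hm hm)).le
  · exact fun x _ => continuousOn_const.div (continuousOn_const.sub
      (Complex.continuous_ofReal.comp_continuousOn hW)) fun r _ => hn0 r x
  · intro r _ x _
    rw [norm_div, Complex.norm_two]
    exact div_le_div_of_nonneg_left zero_le_two hm (hn r x)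
  · refine le_trans ?_ (sub_zero _).ge
    exact mul_le_mul_of_nonneg_left (max_le (sub_le_self _ ht.1) ((sub_zero _).trans_le ht.2))
      (div_pos two_pos hm).le

/-- a point survives for a time comparable to `Y^2` -/
theorem Chain.ext (h : Chain W D g) {t s : ℝ} (ht : 0 ≤ t) {z : ℂ} (hz : z ∈ D t) (hts : t ≤ s)
    (hs : 4 * (s - t) < (g t z).im ^ 2) :
    z ∈ D s ∧ (g t z).im ^ 2 - 4 * (s - t) ≤ (g s z).im ^ 2 := by
  have p := h.im_pos ht hz
  obtain ⟨m, hm, em⟩ : ∃ m : ℝ, 0 < m ∧ m ^ 2 = (g t z).im ^ 2 - 4 * (s - t) :=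
    ⟨√_, Real.sqrt_pos.2 (sub_pos.2 hs), Real.sq_sqrt (sub_pos.2 hs).le⟩
  have mY : m ≤ (g t z).im := le_of_sq_le_sq (by linarith) p.le
  have s0 := ht.trans hts
  obtain ⟨α, a0, hα⟩ := f2_pl (h.cont.mono (Icc_subset_Ici_self (a := s))) hm ⟨ht, hts⟩ (g t z)
  have d1 : ∀ r ∈ Icc 0 s, HasDerivWithinAt (fun r => (α r).im)
      (-2 * max (α r).im m / Complex.normSq (f2T m (α r) - W r)) (Icc 0 s) r := fun r hr => by
    refine (Complex.imCLM.hasFDerivAt.comp_hasDerivWithinAt r (hα r hr)).congr_deriv ?_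
    simp [Complex.div_im, f2T, neg_div]
  have c : Continuous fun u : ℝ => 2 * max u m := by fun_prop
  have dΦ := fun y => (c.integral_hasStrictDerivAt m y).hasDerivAt
  have mp : ∀ y, 0 < max y m := fun y => hm.trans_le (le_max_right _ _)
  have sΦ : StrictMono fun y => ∫ u in m..y, 2 * max u m :=
    strictMono_of_hasDerivAt_pos dΦ fun y => mul_pos two_pos (mp y)
  have m1 := f2_mono (fun r hr => (d1 r hr).neg) fun r _ => by
    rw [neg_mul, neg_div, neg_neg]
    exact div_nonneg (mul_pos two_pos (mp _)).le (Complex.normSq_nonneg _)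
  have m2 := f2_mono (fun r hr => ((dΦ _).comp_hasDerivWithinAt r (d1 r hr)).add
    ((hasDerivWithinAt_id r _).const_mul 4)) fun r _ => by
      have k : max (α r).im m ^ 2 ≤ Complex.normSq (f2T m (α r) - W r) := by
        rw [Complex.normSq_apply, sq]
        simpa [f2T] using mul_self_nonneg _
      have k2 := div_le_one_of_le₀ k (Complex.normSq_nonneg _)
      rw [← mul_div_assoc, show 2 * max (α r).im m * (-2 * max (α r).im m) =
        -4 * max (α r).im m ^ 2 by ring, mul_div_assoc]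
      linarith
  have eY : ∫ u in m..(g t z).im, 2 * max u m = 4 * (s - t) := by
    rw [intervalIntegral.integral_congr (g := fun u => 2 * u) fun u hu => by
      rw [uIcc_of_le mY] at hu
      simp only [max_eq_left hu.1], intervalIntegral.integral_const_mul, integral_id]
    linarith
  have k : ∀ r ∈ Icc 0 s, m ≤ (α r).im := fun r hr => by
    rcases le_total r t with e | e
    · have := m1 hr ⟨ht, hts⟩ e
      simp only [Pi.neg_apply, a0] at this
      linarith
    · have := m2 ⟨ht, hts⟩ hr e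
      simp only [Pi.add_apply, Function.comp, id, a0, eY] at this
      refine sΦ.le_iff_le.1 ?_
      simp only [intervalIntegral.integral_same]
      linarith [hr.2]
  obtain ⟨k1, k2⟩ := h.of_sol s0 (w := α) (fun r hr => (hα r hr).congr_deriv (by
    rw [f2T, max_eq_left (k r hr)])) fun r hr => hm.trans_le (k r hr)
  have e : α 0 = z := (h.bij t ht).injOn (h.anti t s ht hts k1) hz ((k2 t ⟨ht, hts⟩).trans a0)
  rw [e] at k1 k2
  refine ⟨k1, ?_⟩
  rw [← em, k2 s ⟨s0, le_rfl⟩]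
  exact pow_le_pow_left₀ hm.le (k s ⟨s0, le_rfl⟩) 2

theorem Chain.f2_cy (h : Chain W D g) {t : ℝ} (ht : 0 ≤ t) {z : ℂ} (hz : z ∈ D t) :
    ContinuousOn (fun s => (g s z).im) (Icc 0 t) :=
  Complex.continuous_im.comp_continuousOn fun s hs => (h.ode t ht z hz s hs).continuousWithinAt

theorem Chain.Y_int (h : Chain W D g) {t : ℝ} (ht : 0 ≤ t) {z : ℂ} (hz : z ∈ D t) {a b : ℝ}
    (ha : 0 ≤ a) (hab : a ≤ b) (hb : b ≤ t) :
    (g a z).im - (g b z).im = ∫ s in a..b, 2 * (g s z).im / ‖zz W g s z‖ ^ 2 := by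
  rw [flow_sub (f := fun s => -(g s z).im) (fun s hs => ?_) ?_ ha hab hb]
  · ring
  · exact (continuousOn_const.mul (h.f2_cy ht hz)).div ((h.zz_cont ht hz).norm.pow 2)
      fun _ hs => pow_ne_zero 2 (norm_ne_zero_iff.2 (h.flow_ne hz hs))
  have h1 : HasDerivWithinAt (fun s => (g s z).im) (2 / zz W g s z).im (Icc 0 t) s :=
    Complex.imCLM.hasFDerivAt.comp_hasDerivWithinAt s (h.ode t ht z hz s hs)
  refine h1.neg.congr_deriv ?_
  rw [Complex.div_im, Complex.sq_norm, zz_im]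
  simp

/-- `(1 - |φ|^2) / |φ|^2` -/
noncomputable def bigQ (a b : ℂ) : ℝ := 4 * a.im * b.im / ‖b - a‖ ^ 2

/-- `1 - |φ|^2` -/
noncomputable def smq (a b : ℂ) : ℝ := 4 * a.im * b.im / ‖b - conj a‖ ^ 2

/-- disc coordinate of `b` seen from `a` -/
noncomputable def phi (a b : ℂ) : ℂ := (b - a) / (b - conj a)

/-- Poisson kernel -/
noncomputable def pk (a : ℂ) : ℝ := a.im / ‖a‖ ^ 2

theorem smq_nonneg {a b : ℂ} (ha : 0 < a.im) (hb : 0 < b.im) : 0 ≤ smq a b := by
  unfold smq; positivity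

theorem f2_nsq (a b : ℂ) : ‖b - conj a‖ ^ 2 = ‖b - a‖ ^ 2 + 4 * a.im * b.im := by
  simp only [Complex.sq_norm, Complex.normSq_apply, Complex.sub_re, Complex.sub_im,
    Complex.conj_re, Complex.conj_im]
  ring

theorem f2_im {a b : ℂ} (ha : 0 < a.im) (hb : 0 < b.im) : 0 < (b - conj a).im := by
  simpa using add_pos hb ha

theorem f2_ne {a b : ℂ} (ha : 0 < a.im) (hb : 0 < b.im) : b - conj a ≠ 0 := fun e => by
  simpa [e] using f2_im ha hb

theorem smq_eq {a b : ℂ} (ha : 0 < a.im) (hb : 0 < b.im) : smq a b = 1 - ‖phi a b‖ ^ 2 := by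
  have k := pow_ne_zero 2 (norm_ne_zero_iff.2 (f2_ne ha hb))
  rw [smq, phi, norm_div, div_pow, one_sub_div k, f2_nsq, add_sub_cancel_left]

theorem smq_symm (a b : ℂ) : smq a b = smq b a := by
  rw [smq, smq, f2_nsq, f2_nsq, norm_sub_rev, mul_right_comm]

theorem bigQ_eq {a b : ℂ} (ha : 0 < a.im) (hb : 0 < b.im) (hab : a ≠ b) :
    1 + bigQ a b = (‖phi a b‖ ^ 2)⁻¹ := by
  have k := pow_ne_zero 2 (norm_ne_zero_iff.2 (sub_ne_zero.2 hab.symm))
  rw [bigQ, phi, norm_div, div_pow, inv_div, one_add_div k, f2_nsq]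

/-- Cauchy-Schwarz type inequality -/
theorem cs_ineq {a b : ℂ} (ha : 0 ≤ a.im) (hb : 0 ≤ b.im) :
    a.im ^ 2 * ‖b‖ ^ 2 ≤ ‖b - conj a‖ ^ 2 * ‖a‖ ^ 2 := by
  simp only [Complex.sq_norm, Complex.normSq_apply, Complex.sub_re, Complex.sub_im,
    Complex.conj_re, Complex.conj_im]
  have k : 0 ≤ (a.re * b.re - (a.re ^ 2 + a.im ^ 2)) ^ 2 + (a.re * b.im) ^ 2 +
    2 * (a.re ^ 2 + a.im ^ 2) * b.im * a.im := by positivity
  linarith

theorem f2_dn {u : ℝ → ℂ} {c : ℂ} {S : Set ℝ} {s : ℝ} (hu : HasDerivWithinAt u (c * u s) S s) :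
    HasDerivWithinAt (fun s => ‖u s‖ ^ 2) (2 * c.re * ‖u s‖ ^ 2) S s := by
  refine hu.norm_sq.congr_deriv ?_
  rw [Complex.inner, Complex.sq_norm, Complex.normSq_apply]
  simp
  ring

theorem Chain.f2_cn (h : Chain W D g) {t : ℝ} (ht : 0 ≤ t) {z w : ℂ} (hz : z ∈ D t)
    (hw : w ∈ D t) : ContinuousOn (fun s => ‖zz W g s z‖ ^ 2 * ‖zz W g s w‖ ^ 2) (Icc 0 t) :=
  ((h.zz_cont ht hz).norm.pow 2).mul ((h.zz_cont ht hw).norm.pow 2)

theorem Chain.f2_nn (h : Chain W D g) {t : ℝ} {z w : ℂ} (hz : z ∈ D t) (hw : w ∈ D t) {s : ℝ}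
    (hs : s ∈ Icc 0 t) : ‖zz W g s z‖ ^ 2 * ‖zz W g s w‖ ^ 2 ≠ 0 :=
  mul_ne_zero (pow_ne_zero 2 (norm_ne_zero_iff.2 (h.flow_ne hz hs)))
    (pow_ne_zero 2 (norm_ne_zero_iff.2 (h.flow_ne hw hs)))

theorem Chain.logQ_int (h : Chain W D g) {t : ℝ} (ht : 0 ≤ t) {z w : ℂ} (hz : z ∈ D t)
    (hw : w ∈ D t) (hzw : z ≠ w) {a b : ℝ} (ha : 0 ≤ a) (hab : a ≤ b) (hb : b ≤ t) :
    Real.log (bigQ (g a z) (g a w)) - Real.log (bigQ (g b z) (g b w)) =
      ∫ s in a..b, 2 * ‖zz W g s w - conj (zz W g s z)‖ ^ 2 /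
        (‖zz W g s z‖ ^ 2 * ‖zz W g s w‖ ^ 2) := by
  have n : ∀ s ∈ Icc 0 t, g s w - g s z ≠ 0 := fun s hs e => hzw ((h.bij s hs.1).injOn
    (h.anti s t hs.1 hs.2 hz) (h.anti s t hs.1 hs.2 hw) (sub_eq_zero.1 e).symm)
  have e : ∀ s ∈ Icc 0 t, Real.log (bigQ (g s z) (g s w)) = Real.log 4 -
      (Real.log (‖g s w - g s z‖ ^ 2) - Real.log (g s z).im - Real.log (g s w).im) := by
    intro s hs
    have k1 := (h.flow_pos hz hs).ne'
    have k2 := (h.flow_pos hw hs).ne'
    rw [bigQ, Real.log_div (by positivity) (pow_ne_zero 2 (norm_ne_zero_iff.2 (n s hs))),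
      Real.log_mul (by positivity) k2, Real.log_mul four_ne_zero k1]
    ring
  rw [e a ⟨ha, hab.trans hb⟩, e b ⟨ha.trans hab, hb⟩, flow_sub (f := fun s =>
    Real.log (‖g s w - g s z‖ ^ 2) - Real.log (g s z).im - Real.log (g s w).im) (fun s hs => ?_)
    ?_ ha hab hb]
  · ring
  · exact (continuousOn_const.mul (((h.zz_cont ht hw).sub (h.zz_cont ht hz).star).norm.pow 2)).div
      (h.f2_cn ht hz hw) fun _ hs => h.f2_nn hz hw hs
  have k1 := h.flow_ne hz hs
  have k2 := h.flow_ne hw hs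
  have d := f2_dn (c := -2 / (zz W g s z * zz W g s w)) (u := fun s => g s w - g s z)
    (((h.ode t ht w hw s hs).sub (h.ode t ht z hz s hs)).congr_deriv (by
      simp only [zz] at k1 k2 ⊢
      field_simp
      ring))
  have k3 := pow_ne_zero 2 (norm_ne_zero_iff.2 (n s hs))
  refine (((d.log k3).sub (h.d_logY ht hz hs)).sub (h.d_logY ht hw hs)).congr_deriv ?_
  rw [mul_div_cancel_right₀ _ k3]
  generalize zz W g s z = p at k1
  generalize zz W g s w = q at k2
  have l1 := (Complex.normSq_pos.2 k1).ne'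
  have l2 := (Complex.normSq_pos.2 k2).ne'
  rw [Complex.div_re, map_mul, Complex.sq_norm, Complex.sq_norm, Complex.sq_norm]
  field_simp
  simp [Complex.normSq_apply]
  ring

theorem Chain.f2_cp (h : Chain W D g) {t : ℝ} (ht : 0 ≤ t) {z : ℂ} (hz : z ∈ D t) :
    ContinuousOn (fun s => pk (zz W g s z)) (Icc 0 t) :=
  (Complex.continuous_im.comp_continuousOn (h.zz_cont ht hz)).div ((h.zz_cont ht hz).norm.pow 2)
    fun _ hs => pow_ne_zero 2 (norm_ne_zero_iff.2 (h.flow_ne hz hs))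

theorem Chain.f2_dc (h : Chain W D g) {t : ℝ} (ht : 0 ≤ t) {z w : ℂ} (hz : z ∈ D t)
    (hw : w ∈ D t) {s : ℝ} (hs : s ∈ Icc 0 t) : HasDerivWithinAt (fun s => g s w - conj (g s z))
      (-2 / (zz W g s w * conj (zz W g s z)) * (g s w - conj (g s z))) (Icc 0 t) s := by
  refine ((h.ode t ht w hw s hs).sub (h.ode t ht z hz s hs).star).congr_deriv ?_
  have h1 := h.flow_ne hw hs
  have h2 := (map_ne_zero (starRingEnd ℂ)).2 (h.flow_ne hz hs)
  simp only [zz, Complex.star_def, map_div₀, map_sub, Complex.conj_ofReal, map_ofNat] at h1 h2 ⊢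
  field_simp
  ring

theorem Chain.f2_dphi (h : Chain W D g) {t : ℝ} (ht : 0 ≤ t) {z w : ℂ} (hz : z ∈ D t)
    (hw : w ∈ D t) {s : ℝ} (hs : s ∈ Icc 0 t) : HasDerivWithinAt (fun s => phi (g s z) (g s w))
      (4 * Complex.I * (pk (zz W g s z) : ℂ) / zz W g s w * phi (g s z) (g s w)) (Icc 0 t) s := by
  have k := f2_ne (h.flow_pos hz hs) (h.flow_pos hw hs)
  refine (((h.ode t ht w hw s hs).sub (h.ode t ht z hz s hs)).div (h.f2_dc ht hz hw hs)
    k).congr_deriv ?_
  have h1 := h.flow_ne hw hs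
  have h2 := h.flow_ne hz hs
  have h3 := (map_ne_zero (starRingEnd ℂ)).2 h2
  have e : 4 * Complex.I * (pk (zz W g s z) : ℂ) = 2 / conj (zz W g s z) - 2 / zz W g s z := by
    rw [pk, Complex.ofReal_div, Complex.sq_norm, ← Complex.mul_conj, div_sub_div _ _ h3 h2,
      mul_comm (conj _) 2, ← mul_sub, Complex.sub_conj]
    push_cast
    ring
  rw [e, phi]
  generalize conj (zz W g s z) = c at h3
  simp only [zz, Pi.sub_apply] at h1 h2 ⊢
  field_simp
  ring

/-- radial type equation for the disc coordinate -/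
theorem Chain.phi_int (h : Chain W D g) {t : ℝ} (ht : 0 ≤ t) {z w : ℂ} (hz : z ∈ D t)
    (hw : w ∈ D t) {a b : ℝ} (ha : 0 ≤ a) (hab : a ≤ b) (hb : b ≤ t) :
    phi (g a z) (g a w) = phi (g b z) (g b w) *
      Complex.exp (-∫ s in a..b, 4 * Complex.I * (pk (zz W g s z) : ℂ) / zz W g s w) := by
  rw [flow_lin (u := fun s => phi (g s z) (g s w))
    (c := fun s => -(4 * Complex.I * (pk (zz W g s z) : ℂ) / zz W g s w))
    (fun s hs => (h.f2_dphi ht hz hw hs).congr_deriv (by rw [neg_neg]))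
    (((continuousOn_const.mul (Complex.continuous_ofReal.comp_continuousOn (h.f2_cp ht hz))).div
      (h.zz_cont ht hw) fun s hs => h.flow_ne hw hs).neg) ha hab hb, intervalIntegral.integral_neg,
    neg_neg, mul_assoc, ← Complex.exp_add, add_neg_cancel, Complex.exp_zero, mul_one]

/-- the argument of `Z_w - conj Z` moves by at most `π` -/
theorem Chain.arg_int (h : Chain W D g) {t : ℝ} (ht : 0 ≤ t) {z w : ℂ} (hz : z ∈ D t)
    (hw : w ∈ D t) {a b : ℝ} (ha : 0 ≤ a) (hab : a ≤ b) (hb : b ≤ t) :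
    |∫ s in a..b, 2 * ((zz W g s w).im * (zz W g s z).re - (zz W g s w).re * (zz W g s z).im) /
        (‖zz W g s z‖ ^ 2 * ‖zz W g s w‖ ^ 2)| ≤ Real.pi := by
  have n := fun s hs => f2_im (h.flow_pos hz (s := s) hs) (h.flow_pos hw hs)
  have cz := h.zz_cont ht hz
  have cw := h.zz_cont ht hw
  rw [flow_sub (f := fun s => (Complex.log (g s w - conj (g s z))).im) (fun s hs => ?_) ?_
    ha hab hb, Complex.log_im, Complex.log_im, abs_le]
  · have k1 := Complex.arg_nonneg_iff.2 (n a ⟨ha, hab.trans hb⟩).le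
    have k2 := Complex.arg_nonneg_iff.2 (n b ⟨ha.trans hab, hb⟩).le
    constructor <;> linarith [Complex.arg_le_pi (g a w - conj (g a z)),
      Complex.arg_le_pi (g b w - conj (g b z))]
  · exact (continuousOn_const.mul (((Complex.continuous_im.comp_continuousOn cw).mul
      (Complex.continuous_re.comp_continuousOn cz)).sub
      ((Complex.continuous_re.comp_continuousOn cw).mul
      (Complex.continuous_im.comp_continuousOn cz)))).div
      (h.f2_cn ht hz hw) fun _ hs => h.f2_nn hz hw hs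
  refine (Complex.imCLM.hasFDerivAt.comp_hasDerivWithinAt s
    ((h.f2_dc ht hz hw hs).clog_real (Or.inr (n s hs).ne'))).congr_deriv ?_
  rw [mul_div_cancel_right₀ _ (f2_ne (h.flow_pos hz hs) (h.flow_pos hw hs)), Complex.imCLM_apply,
    Complex.div_im, map_mul, Complex.normSq_conj, Complex.sq_norm, Complex.sq_norm]
  simp
  ring

theorem f2_qp {a b : ℂ} (ha : 0 < a.im) (hb : 0 < b.im) : smq a b * pk b ≤ 4 * pk a := by
  have k := mul_le_mul_of_nonneg_left (cs_ineq hb.le ha.le) (mul_pos four_pos ha).le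
  have k1 := norm_pos_iff.2 (f2_ne hb ha)
  have k2 := ha.trans_le (Complex.im_le_norm a)
  have k3 := hb.trans_le (Complex.im_le_norm b)
  rw [smq_symm, smq, pk, pk, div_mul_div_comm, ← mul_div_assoc,
    div_le_div_iff₀ (by positivity) (by positivity)]
  linarith

/-- Hadamard type bound -/
theorem Chain.pk_int (h : Chain W D g) {t : ℝ} (ht : 0 ≤ t) {z w : ℂ} (hz : z ∈ D t)
    (hw : w ∈ D t) {a b : ℝ} (ha : 0 ≤ a) (hab : a ≤ b) (hb : b ≤ t)
    (hl : Real.log (ups g a z) - Real.log (ups g b z) ≤ 2) :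
    ∫ s in a..b, pk (zz W g s z) * pk (zz W g s w) ≤ 5 * smq (g a z) (g a w) := by
  have su := Icc_subset_Icc ha hb
  have hA : a ∈ Icc 0 t := ⟨ha, hab.trans hb⟩
  have hB : b ∈ Icc 0 t := ⟨ha.trans hab, hb⟩
  have pp : ∀ {z}, z ∈ D t → ∀ s ∈ Icc 0 t, 0 ≤ pk (zz W g s z) := fun hz s hs =>
    div_nonneg ((h.flow_pos hz hs).le.trans (zz_im _ _).ge) (sq_nonneg _)
  have d : ∀ s ∈ Icc 0 t, HasDerivWithinAt (fun s => ‖phi (g s z) (g s w)‖ ^ 2)
      (8 * (pk (zz W g s z) * pk (zz W g s w) * ‖phi (g s z) (g s w)‖ ^ 2)) (Icc 0 t) s :=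
    fun s hs => (f2_dn (h.f2_dphi ht hz hw hs)).congr_deriv (by
      rw [Complex.div_re, pk.eq_1 (zz W g s w), Complex.sq_norm (zz W g s w)]
      simp
      ring)
  have c1 := (h.f2_cp ht hz).mul (h.f2_cp ht hw)
  have c2 := c1.mul fun s hs => (d s hs).continuousWithinAt
  have i1 := (c1.mono su).intervalIntegrable_of_Icc (μ := MeasureTheory.volume) hab
  have i2 := (c2.mono su).intervalIntegrable_of_Icc (μ := MeasureTheory.volume) hab
  have i3 := ((h.flow_c4 ht hz).mono su).intervalIntegrable_of_Icc (μ := MeasureTheory.volume) hab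
  have e := flow_sub d (continuousOn_const.mul c2) ha hab hb
  have q := fun s hs => smq_eq (h.flow_pos hz (s := s) hs) (h.flow_pos hw hs)
  have qa := q a hA
  have qb := q b hB
  have q0 := smq_nonneg (h.flow_pos hz hB) (h.flow_pos hw hB)
  have q1 := smq_nonneg (h.flow_pos hz hA) (h.flow_pos hw hA)
  rw [intervalIntegral.integral_const_mul] at e
  rcases le_total (smq (g a z) (g a w)) (1 / 2) with k | k
  · have m := f2_mono d fun s hs =>
      mul_nonneg (by norm_num) (mul_nonneg (mul_nonneg (pp hz s hs) (pp hw s hs)) (sq_nonneg _))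
    have := intervalIntegral.integral_mono_on hab i1 (i2.const_mul 2) fun s hs => by
      have k1 := m hA (su hs) hs.1
      have k2 := mul_nonneg (pp hz s (su hs)) (pp hw s (su hs))
      simp only [Pi.mul_apply] at k1 ⊢
      nlinarith
    rw [intervalIntegral.integral_const_mul] at this
    simp only [Pi.mul_apply] at this
    linarith
  · have := intervalIntegral.integral_mono_on hab i1 (i2.add i3) fun s hs => by
      have k1 := q s (su hs)
      have k2 := mul_le_mul_of_nonneg_left (f2_qp ((h.flow_pos hz (su hs)).trans_eq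
        (zz_im (W := W) _ _).symm) ((h.flow_pos hw (su hs)).trans_eq (zz_im (W := W) _ _).symm))
        (pp hz s (su hs))
      have k3 : smq (zz W g s z) (zz W g s w) = smq (g s z) (g s w) := by simp [smq, zz]
      have k4 : 4 * (g s z).im ^ 2 / ‖zz W g s z‖ ^ 4 = 4 * pk (zz W g s z) ^ 2 := by
        rw [pk, zz_im]
        ring
      simp only [Pi.mul_apply]
      rw [k3, k1] at k2
      linarith
    rw [intervalIntegral.integral_add i2 i3, ← h.logU_int ht hz ha hab hb] at this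
    simp only [Pi.mul_apply] at this
    linarith [sq_nonneg ‖phi (g a z) (g a w)‖]

end Vale.Agent.P164
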