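import Vale.Agent.P164.EU
import Vale.Agent.P164.LDef

namespace Vale.Agent.P164

open Set

theorem gate_exp {x r l : ℝ} (hx : 0 < x) (hr : 0 < r) (h : |l - Real.log x| ≤ 1 / 2)
    (hl : l ≤ Real.log r) : x ≤ 2 * r := by
  rw [← Real.log_le_log_iff hx (by positivity), Real.log_mul two_ne_zero hr.ne']
  linarith [Real.log_two_gt_d9, (abs_le.mp h).1]

theorem gate_del {y δ : ℝ} (hy : 0 < y) (h : δ ≤ y ^ 2 / 4) : 4 * (δ / y ^ 2) ≤ 1 := by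
  rw [← mul_div_assoc, div_le_one (by positivity)]
  linarith

theorem center : ∃ C7 : ℝ, 1 ≤ C7 ∧ ∀ {W D g}, Chain W D g → ∀ t r : ℝ, 0 ≤ t → 0 < r →
    ∀ u ∈ D t, ∀ c ∈ uhp, ‖u - c‖ ≤ 2 * r → ups g t u ≤ 2 * r → u.im ≤ 3 * c.im →
    ∃ s ∈ Icc 0 t, c ∈ D s ∧ ups g s c ≤ C7 * r ∧ (g t u).im / 3 ≤ (g s c).im := by
  obtain ⟨c0, p0, p1, hc⟩ := ball_sub
  refine ⟨7 / c0, (le_div_iff₀ p0).mpr (by linarith),
    fun {W D g} h t r ht hr u hu c hcu h1 h2 h3 => ?_⟩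
  by_contra hn
  push Not at hn
  have hb : ∀ s, 0 ≤ s → c ∈ D s → 7 / c0 * r ≤ ups g s c → Metric.ball c (7 * r) ⊆ D s :=
    fun s hs h4 h5 => (Metric.ball_subset_ball (by
      rw [div_mul_eq_mul_div, div_le_iff₀' p0] at h5
      exact h5)).trans (hc h s hs c h4)
  have hH : ∀ s ∈ Icc 0 t, c ∈ D s → 7 / c0 * r ≤ ups g s c → (g t u).im / 3 ≤ (g s c).im :=
    fun s hs h4 h5 => by
      have h6 := harnack_disc (by positivity) ((h.diff s hs.1).mono (hb s hs.1 h4 h5))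
        ((h.bij s hs.1).mapsTo.mono_left (hb s hs.1 h4 h5)) (v := u) (by linarith)
      linarith [h.Y_anti ht hu hs.1 hs.2 le_rfl]
  have hy : 0 < (g t u).im / 3 := by linarith [h.im_pos ht hu]
  have hU : ∀ s ∈ Icc 0 t, c ∈ D s → (g t u).im / 3 ≤ (g s c).im → 7 / c0 * r < ups g s c :=
    fun s hs h4 h5 => not_le.mp fun h6 => not_le.mpr (hn s hs h4 h6) h5
  have key : ∀ n : ℕ, ∀ b ∈ Icc 0 t, b ≤ n * (((g t u).im / 3) ^ 2 / 8) →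
      c ∈ D b ∧ (g t u).im / 3 ≤ (g b c).im := by
    intro n
    induction n with
    | zero =>
      intro b hb' h4
      rw [Nat.cast_zero, zero_mul] at h4
      obtain rfl : b = 0 := le_antisymm h4 hb'.1
      have h5 : c ∈ D 0 := h.D_zero ▸ hcu
      have h6 := h.Y_anti ht hu le_rfl ht le_rfl
      rw [h.init t ht u hu] at h6
      rw [h.init 0 le_rfl c h5]
      exact ⟨h5, by linarith⟩
    | succ n ih =>
      intro b hb' h4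
      have h5 : 0 < ((g t u).im / 3) ^ 2 := by positivity
      obtain ⟨a, a0, a1, a2, a3⟩ : ∃ a, 0 ≤ a ∧ a ≤ b ∧ b - ((g t u).im / 3) ^ 2 / 8 ≤ a ∧
          a ≤ n * (((g t u).im / 3) ^ 2 / 8) :=
        ⟨max 0 _, le_max_left _ _, max_le hb'.1 (by linarith), le_max_right _ _,
          max_le (by positivity) (by rw [Nat.cast_add_one] at h4; linarith)⟩
      obtain ⟨i1, i2⟩ := ih a ⟨a0, a1.trans hb'.2⟩ a3
      have h6 := (h.ext a0 i1 a1 (by linarith [pow_le_pow_left₀ hy.le i2 2])).1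
      refine ⟨h6, hH b hb' h6 (not_lt.mp fun h7 => ?_)⟩
      obtain ⟨s, hs, h8⟩ := intermediate_value_Icc' a1
        ((h.ups_cont hb'.1 h6).mono (Icc_subset_Icc_left a0))
        ⟨h7.le, (hU a ⟨a0, a1.trans hb'.2⟩ i1 i2).le⟩
      have h9 : s ∈ Icc 0 t := ⟨a0.trans hs.1, hs.2.trans hb'.2⟩
      have h10 := h.anti s b h9.1 hs.2 h6
      exact (hU s h9 h10 (hH s h9 h10 h8.ge)).ne' h8
  obtain ⟨n, h4⟩ := exists_nat_ge (t / (((g t u).im / 3) ^ 2 / 8))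
  obtain ⟨h5, h6⟩ := key n t ⟨ht, le_rfl⟩ ((div_le_iff₀ (by positivity)).mp h4)
  have h7 := h.rad_le ht (z := u) (R := 5 * r) (by positivity)
    ((Metric.ball_subset_ball' (by rw [dist_eq_norm]; linarith)).trans
      (hb t ht h5 (hU t ⟨ht, le_rfl⟩ h5 h6).le))
  linarith

/-- if a point is active below level `r`, nearby points have reached level about `r` -/
theorem gate : ∃ C7 : ℝ, 1 ≤ C7 ∧ ∀ {W D g}, Chain W D g → W 0 = 0 →
    ∀ d0 le T : ℝ, 0 < d0 → le ≤ 0 → 0 < T → ∃ δ0 : ℝ, 0 < δ0 ∧ ∀ δ : ℝ, 0 < δ → δ ≤ δ0 →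
    ∀ n : ℕ, n * δ ≤ T → ∀ (r : ℝ) (u c : ℂ), 0 < r → 1 ≤ u.im → u.im ≤ 2 → 1 ≤ c.im →
      ‖u - c‖ ≤ 2 * r → actv d0 le (frz d0 le δ u (inc W δ) n) →
      (frz d0 le δ u (inc W δ) n).l ≤ Real.log r →
      ∃ n' ≤ n, ymin d0 le / 12 ≤ (fre δ c (inc W δ) n').y ∧
        (fre δ c (inc W δ) n').l ≤ Real.log (C7 * r) := by
  obtain ⟨C, hC, hc⟩ := center
  refine ⟨2 * C, by linarith, fun {W D g} h h0 d0 le T hd hle hT => ?_⟩
  have hy := ymin_pos d0 le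
  obtain ⟨e, e0, e1, e2⟩ : ∃ e : ℝ, 0 < e ∧ e ≤ 1 / 2 ∧ e ≤ ymin d0 le / 12 :=
    ⟨min _ _, lt_min one_half_pos (by positivity), min_le_left _ _, min_le_right _ _⟩
  obtain ⟨δ0, p0, heu⟩ := h.eu h0 hT (show 0 < ymin d0 le / 6 by positivity) e0
  refine ⟨min δ0 (ymin d0 le ^ 2 / 4), by positivity,
    fun δ hδ hδ' n hn r u c hr u1 u2 c1 h1 h2 h3 => ?_⟩
  obtain ⟨d1, d2⟩ := le_min_iff.mp hδ'
  have h4 := FI.ymin_le hd (frz_FI (ξ := inc W δ) hd hδ.le (gate_del hy d2) hle u1 u2 n)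
  rw [(frz_act h2).2 n (Nat.le_succ n)] at h3 h4
  have t0 : (0 : ℝ) ≤ n * δ := by positivity
  obtain ⟨z1, z2⟩ := heu δ hδ d1 u (show 0 < u.im by linarith) n hn (Or.inr (by linarith))
  have z3 : u ∈ D (n * δ) := h.anti _ _ t0 (by linarith) z1
  obtain ⟨-, z4, z5⟩ := z2 n le_rfl _ ⟨le_rfl, by linarith⟩
  obtain ⟨s, hs, s1, s2, s3⟩ := hc h _ r t0 hr u z3 c (show 0 < c.im by linarith) h1
    (gate_exp (h.ups_pos t0 z3) hr (z5.trans e1) h3) (by linarith)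
  have b0 : 0 ≤ s / δ := div_nonneg hs.1 hδ.le
  have b1 : ⌊s / δ⌋₊ ≤ n := Nat.floor_le_of_le ((div_le_iff₀ hδ).mpr hs.2)
  have b2 : ⌊s / δ⌋₊ * δ ≤ s := (le_div_iff₀ hδ).mp (Nat.floor_le b0)
  have b3 : (0 : ℝ) ≤ ⌊s / δ⌋₊ * δ := by positivity
  have b4 : ymin d0 le / 6 ≤ (g s c).im := by linarith [(abs_le.mp z4).2]
  obtain ⟨-, b5, b6⟩ := (heu δ hδ d1 c (show 0 < c.im by linarith) _ (b2.trans (hs.2.trans hn))
    (Or.inl ⟨h.anti _ _ b3 b2 s1, b4.trans (h.Y_anti hs.1 s1 b3 b2 le_rfl)⟩)).2 _ le_rfl s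
      ⟨b2, (div_le_iff₀ hδ).mp (Nat.lt_floor_add_one _).le⟩
  refine ⟨_, b1, by linarith [(abs_le.mp b5).1], ?_⟩
  have b7 := Real.log_le_log (h.ups_pos hs.1 s1) s2
  rw [mul_assoc, Real.log_mul two_ne_zero (by positivity)]
  linarith [Real.log_two_gt_d9, (abs_le.mp b6).2]

/-- a point that reached the last level is close to the boundary of some domain -/
theorem near_bdry {W D g} (h : Chain W D g) (h0 : W 0 = 0) {d0 le T : ℝ} (hd : 0 < d0)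
    (hle : le ≤ -3) (hT : 0 < T) : ∃ δ0 : ℝ, 0 < δ0 ∧ ∀ δ : ℝ, 0 < δ → δ ≤ δ0 →
    ∀ N : ℕ, N * δ ≤ T → ∀ u : ℂ, 1 ≤ u.im → u.im ≤ 2 → (frz d0 le δ u (inc W δ) N).l ≤ le →
      ∃ t ∈ Icc 0 T, ∃ w ∈ closure (D t), w ∉ D t ∧ ‖u - w‖ ≤ 5 * Real.exp le := by
  have hy := ymin_pos d0 le
  obtain ⟨δ0, p0, heu⟩ := h.eu h0 hT hy one_half_pos
  refine ⟨min δ0 (ymin d0 le ^ 2 / 4), by positivity, fun δ hδ hδ' N hN u u1 u2 h3 => ?_⟩
  obtain ⟨d1, d2⟩ := le_min_iff.mp hδ'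
  have h4 := FI.ymin_le hd (frz_FI (ξ := inc W δ) hd hδ.le (gate_del hy d2)
    (show le ≤ 0 by linarith) u1 u2 N)
  obtain ⟨n, hn, e⟩ := frz_eq (d0 := d0) (le := le) (δ := δ) (u := u) (ξ := inc W δ) N
  rw [e] at h3 h4
  have t0 : (0 : ℝ) ≤ n * δ := by positivity
  have t1 : n * δ ≤ T := (mul_le_mul_of_nonneg_right (Nat.cast_le.mpr hn) hδ.le).trans hN
  obtain ⟨z1, z2⟩ := heu δ hδ d1 u (show 0 < u.im by linarith) n t1 (Or.inr h4)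
  have z3 : u ∈ D (n * δ) := h.anti _ _ t0 (by linarith) z1
  obtain ⟨-, -, z5⟩ := z2 n le_rfl _ ⟨le_rfl, by linarith⟩
  have hr := Real.exp_pos le
  have z6 := gate_exp (h.ups_pos t0 z3) hr z5 (h3.trans (Real.log_exp le).ge)
  refine ⟨_, ⟨t0, t1⟩, ?_⟩
  by_contra hc
  push Not at hc
  have z7 := h.rad_le t0 (z := u) (R := 5 * Real.exp le) (by positivity)
    ((convex_ball u _).isPreconnected.subset_of_closure_inter_subset (h.op _ t0)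
      ⟨u, Metric.mem_ball_self (by positivity), z3⟩ fun w hw => by_contra fun h5 =>
        lt_asymm (hc w hw.1 h5) (mem_ball_iff_norm'.mp hw.2))
  linarith

end Vale.Agent.P164
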