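import Vale.Agent.P164.Univ2

namespace Vale.Agent.P164

open Set

theorem green1_pt {a A K η : ℝ} (ha : 0 < a) (hA : 0 < A) (h1 : a ≤ K * A) (h2 : A ≤ K * a)
    (hη : 0 < η) (hK : η * K ≤ 1) :
    a ^ η ≤ A ^ η * (1 + η ^ 2 * K ^ 2 + η * (Real.log a - Real.log A)) := by
  have k1 : Real.log a - Real.log A ≤ K := by
    rw [← Real.log_div ha.ne' hA.ne']
    have := Real.log_le_sub_one_of_pos (div_pos ha hA)
    have := (div_le_iff₀ hA).2 h1
    linarith
  have k2 : Real.log A - Real.log a ≤ K := by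
    rw [← Real.log_div hA.ne' ha.ne']
    have := Real.log_le_sub_one_of_pos (div_pos hA ha)
    have := (div_le_iff₀ ha).2 h2
    linarith
  have k3 : |η * (Real.log a - Real.log A)| ≤ η * K := by
    rw [abs_mul, abs_of_pos hη]
    exact mul_le_mul_of_nonneg_left (abs_le.2 ⟨by linarith, k1⟩) hη.le
  have k4 := (abs_le.1 (Real.abs_exp_sub_one_sub_id_le (k3.trans hK))).2
  have k5 : (η * (Real.log a - Real.log A)) ^ 2 ≤ (η * K) ^ 2 := by
    rw [← sq_abs]
    exact pow_le_pow_left₀ (abs_nonneg _) k3 2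
  have e : a ^ η = A ^ η * Real.exp (η * (Real.log a - Real.log A)) := by
    rw [Real.rpow_def_of_pos ha, Real.rpow_def_of_pos hA, ← Real.exp_add]
    congr 1
    ring
  rw [e]
  refine mul_le_mul_of_nonneg_left ?_ (Real.rpow_pos_of_pos hA η).le
  nlinarith

theorem green1_log {x : ℝ} (h : |x| ≤ 1 / 2) : Real.log (1 + x) ≤ x - x ^ 2 / 8 := by
  obtain ⟨h1, h2⟩ := abs_le.1 h
  have hu : 0 < 1 + x / 2 - x ^ 2 / 16 := by nlinarith
  have h3 : 1 + x ≤ (1 + x / 2 - x ^ 2 / 16) ^ 2 := by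
    nlinarith [mul_nonneg (sq_nonneg x) (show 0 ≤ 1 - x by linarith), sq_nonneg (x ^ 2), sq_nonneg x]
  have h4 := Real.log_le_log (by linarith) h3
  have h5 := Real.log_le_sub_one_of_pos hu
  rw [Real.log_pow] at h4
  push_cast at h4
  linarith

theorem green1_avg (a b : ℝ) {z : ℂ} (hz : 0 < z.im) :
    Real.circleAverage (fun w => a + b * ((w.im - z.im) / z.im - ((w.im - z.im) / z.im) ^ 2 / 8))
      z (z.im / 2) = a - b / 64 := by
  have e : ∀ θ : ℝ, ((circleMap z (z.im / 2) θ).im - z.im) / z.im = Real.sin θ / 2 := fun θ => by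
    rw [circleMap, Complex.add_im, Complex.im_ofReal_mul, Complex.exp_ofReal_mul_I_im]
    field_simp
    ring
  have e2 : ∀ θ : ℝ, a + b * (Real.sin θ / 2 - (Real.sin θ / 2) ^ 2 / 8) =
      a + b / 2 * Real.sin θ - b / 32 * Real.sin θ ^ 2 := fun θ => by ring
  simp only [Real.circleAverage, e, e2]
  rw [intervalIntegral.integral_sub (Continuous.intervalIntegrable (by fun_prop) _ _)
      (Continuous.intervalIntegrable (by fun_prop) _ _),
    intervalIntegral.integral_add (Continuous.intervalIntegrable (by fun_prop) _ _)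
      (Continuous.intervalIntegrable (by fun_prop) _ _),
    intervalIntegral.integral_const_mul, intervalIntegral.integral_const_mul, integral_sin,
    integral_sin_sq]
  have := Real.pi_pos
  simp only [intervalIntegral.integral_const, Real.sin_zero, Real.cos_zero, Real.sin_two_pi,
    Real.cos_two_pi, smul_eq_mul]
  field_simp
  ring

/-- a small power of the conformal radius is strictly superharmonic in the hyperbolic sense -/
theorem ups_avg : ∃ η c : ℝ, 0 < η ∧ η ≤ 1 ∧ 0 < c ∧ c < 1 ∧ ∀ f : ℂ → ℂ, Uv f → ∀ z ∈ uhp,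
    Real.circleAverage (fun w => (w.im * ‖deriv f w‖) ^ η) z (z.im / 2) ≤
      (1 - c) * (z.im * ‖deriv f z‖) ^ η := by
  obtain ⟨C, hC, h⟩ := koebe1 2 one_le_two
  obtain ⟨η, hη⟩ : ∃ η : ℝ, η = 1 / (128 * (2 * C) ^ 2) := ⟨_, rfl⟩
  have hη0 : 0 < η := by rw [hη]; positivity
  have hη1 : η * (2 * C) ^ 2 = 1 / 128 := by rw [hη]; field_simp
  have hη2 : η * (2 * C) ≤ 1 := by nlinarith [mul_pos hη0 (show 0 < 2 * C by linarith)]
  have hη3 : η ≤ 1 := by nlinarith
  refine ⟨η, η / 128, hη0, hη3, by positivity, by linarith, fun f hf z hz => ?_⟩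
  have hy : 0 < z.im := hz
  have hr : |z.im / 2| = z.im / 2 := abs_of_pos (half_pos hy)
  have hb : ∀ w ∈ Metric.closedBall z |z.im / 2|, ‖w - z‖ ≤ z.im / 2 ∧ |w.im - z.im| ≤ z.im / 2 :=
    fun w hw => by
      rw [hr, mem_closedBall_iff_norm] at hw
      exact ⟨hw, (Complex.sub_im w z ▸ Complex.abs_im_le_norm (w - z)).trans hw⟩
  have hu : Metric.closedBall z |z.im / 2| ⊆ uhp := fun w hw => by
    have := (abs_le.1 (hb w hw).2).1
    change 0 < w.im
    linarith
  have han : AnalyticOnNhd ℂ (deriv f) (Metric.closedBall z |z.im / 2|) :=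
    (hf.1.analyticOnNhd isOpen_uhp).deriv.mono hu
  have hne : ∀ w ∈ Metric.closedBall z |z.im / 2|, deriv f w ≠ 0 := fun w hw => hf.deriv_ne (hu hw)
  have hs := @Metric.sphere_subset_closedBall _ _ z |z.im / 2|
  have hc : ContinuousOn (fun w => ‖deriv f w‖) (Metric.sphere z |z.im / 2|) :=
    (han.continuousOn.mono hs).norm
  have hp : 0 < ‖deriv f z‖ := norm_pos_iff.2 (hf.deriv_ne hz)
  have hA : 0 < z.im * ‖deriv f z‖ := mul_pos hy hp
  set B := (z.im * ‖deriv f z‖) ^ η with hB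
  have hB0 : 0 < B := Real.rpow_pos_of_pos hA η
  have i1 : CircleIntegrable (fun w : ℂ => B * (1 + η / 128 - η * Real.log ‖deriv f z‖) +
      B * η * ((w.im - z.im) / z.im - ((w.im - z.im) / z.im) ^ 2 / 8)) z (z.im / 2) :=
    ContinuousOn.circleIntegrable' (by fun_prop)
  have i2 : CircleIntegrable (fun w : ℂ => (B * η) • Real.log ‖deriv f w‖) z (z.im / 2) :=
    ContinuousOn.circleIntegrable'
      ((hc.log fun w hw => norm_ne_zero_iff.2 (hne w (hs hw))).const_smul (B * η))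
  have i0 : CircleIntegrable (fun w : ℂ => (w.im * ‖deriv f w‖) ^ η) z (z.im / 2) :=
    ContinuousOn.circleIntegrable'
      ((Complex.continuous_im.continuousOn.mul hc).rpow_const fun _ _ => Or.inr hη0.le)
  refine (Real.circleAverage_mono i0 (i1.add i2) fun w hw => ?_).trans (le_of_eq ?_)
  · obtain ⟨b1, b2⟩ := hb w (hs hw)
    obtain ⟨b3, b4⟩ := abs_le.1 b2
    obtain ⟨c1, c2, -⟩ := h f hf z hz w (by linarith) (by linarith)
    have hw0 : 0 < w.im := by linarith
    have hq : 0 < ‖deriv f w‖ := norm_pos_iff.2 (hne w (hs hw))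
    have k1 : w.im * ‖deriv f w‖ ≤ 2 * C * (z.im * ‖deriv f z‖) :=
      (mul_le_mul (show w.im ≤ 2 * z.im by linarith) c1 hq.le (by linarith)).trans_eq (by ring)
    have k2 : z.im * ‖deriv f z‖ ≤ 2 * C * (w.im * ‖deriv f w‖) :=
      (mul_le_mul (show z.im ≤ 2 * w.im by linarith) c2 hp.le (by linarith)).trans_eq (by ring)
    have k3 := green1_pt (mul_pos hw0 hq) hA k1 k2 hη0 hη2
    have k4 : |(w.im - z.im) / z.im| ≤ 1 / 2 := by
      rw [abs_div, abs_of_pos hy, div_le_iff₀ hy]; linarith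
    have k5 := green1_log k4
    have k6 : 1 + (w.im - z.im) / z.im = w.im / z.im := by field_simp; ring
    rw [k6, Real.log_div hw0.ne' hy.ne'] at k5
    rw [Real.log_mul hw0.ne' hq.ne', Real.log_mul hy.ne' hp.ne', ← hB] at k3
    have k7 : η ^ 2 * (2 * C) ^ 2 = η / 128 := by rw [pow_two η, mul_assoc, hη1]; ring
    rw [k7] at k3
    have k8 := mul_le_mul_of_nonneg_left k5 (mul_pos hB0 hη0).le
    simp only [Pi.add_apply, smul_eq_mul]
    linarith
  · rw [Real.circleAverage_add i1 i2, green1_avg _ _ hy, Real.circleAverage_fun_smul,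
      han.circleAverage_log_norm_of_ne_zero hne, smul_eq_mul]
    ring

end Vale.Agent.P164
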