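import Vale.Agent.P164.Green1
import Vale.Agent.P164.Flow2
import Vale.Agent.P164.Grid

namespace Vale.Agent.P164

open Set

open Metric Real
open scoped ComplexConjugate

theorem gr_sub {z : ℂ} (hz : z ∈ uhp) {u : ℂ} (hu : u ∈ closedBall z |z.im / 2|) :
    ‖u - z‖ ≤ z.im / 2 ∧ z.im / 2 ≤ u.im ∧ u.im ≤ 3 / 2 * z.im := by
  have h0 : 0 < z.im := hz
  rw [mem_closedBall_iff_norm, abs_of_pos (by positivity)] at hu
  have h1 := (Complex.abs_im_le_norm (u - z)).trans hu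
  rw [Complex.sub_im, abs_le] at h1
  exact ⟨hu, by linarith [h1.1], by linarith [h1.2]⟩

theorem gr_mem {z : ℂ} (hz : z ∈ uhp) {u : ℂ} (hu : u ∈ closedBall z |z.im / 2|) : u ∈ uhp := by
  have h0 : 0 < z.im := hz
  have := (gr_sub hz hu).2.1
  show 0 < u.im
  linarith

theorem gr_int {ψ : ℂ → ℝ} (h : ContinuousOn ψ uhp) {z : ℂ} (hz : z ∈ uhp) :
    CircleIntegrable ψ z (z.im / 2) :=
  ContinuousOn.circleIntegrable' (h.mono fun _ hu => gr_mem hz (sphere_subset_closedBall hu))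

theorem gr_mul (a : ℝ) (U : ℂ → ℝ) (z : ℂ) (r : ℝ) :
    circleAverage (fun u => a * U u) z r = a * circleAverage U z r :=
  circleAverage_fun_smul (a := a) (f := U)

theorem gr_iter {ψ U V : ℂ → ℝ} (cψ : ContinuousOn ψ uhp) (cU : ContinuousOn U uhp)
    (cV : ContinuousOn V uhp) {c b M : ℝ} (hc : 0 < c) (hc1 : c < 1) (hb : 0 ≤ b) (hM : 0 ≤ M)
    (hψ : ∀ z ∈ uhp, ψ z ≤ circleAverage ψ z (z.im / 2) + b * U z)
    (hU : ∀ z ∈ uhp, circleAverage U z (z.im / 2) ≤ (1 - c) * U z)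
    (hV : ∀ z ∈ uhp, circleAverage V z (z.im / 2) ≤ (1 - c) * V z)
    (h0 : ∀ z ∈ uhp, ψ z ≤ M * V z) (hU0 : ∀ z ∈ uhp, 0 ≤ U z) :
    ∀ z ∈ uhp, ψ z ≤ b / c * U z := by
  have key : ∀ n : ℕ, ∀ z ∈ uhp, ψ z ≤ b / c * U z + M * (1 - c) ^ n * V z := by
    intro n
    induction n with
    | zero =>
      intro z hz
      have := mul_nonneg (div_nonneg hb hc.le) (hU0 z hz)
      have := h0 z hz
      simp only [pow_zero, mul_one]
      linarith
    | succ n ih =>
      intro z hz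
      have i1 := gr_int (continuousOn_const (c := b / c) |>.mul cU) hz
      have i2 := gr_int (continuousOn_const (c := M * (1 - c) ^ n) |>.mul cV) hz
      have h1 := circleAverage_mono (gr_int cψ hz) (i1.add i2)
        fun u hu => ih u (gr_mem hz (sphere_subset_closedBall hu))
      have e1 := gr_mul (b / c) U z (z.im / 2)
      have e2 := gr_mul (M * (1 - c) ^ n) V z (z.im / 2)
      have e3 := circleAverage_add i1 i2
      have h2 := mul_le_mul_of_nonneg_left (hU z hz) (div_nonneg hb hc.le)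
      have h3 := mul_le_mul_of_nonneg_left (hV z hz)
        (mul_nonneg hM (pow_nonneg (sub_pos.2 hc1).le n))
      have h4 := hψ z hz
      have e4 : b / c * ((1 - c) * U z) + b * U z = b / c * U z := by
        field_simp
        ring
      have e5 : M * (1 - c) ^ n * ((1 - c) * V z) = M * (1 - c) ^ (n + 1) * V z := by ring
      have e6 := h1.trans_eq (e3.trans (congrArg₂ (· + ·) e1 e2))
      linarith
  intro z hz
  have t1 : Filter.Tendsto (fun n : ℕ => b / c * U z + M * (1 - c) ^ n * V z) Filter.atTop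
      (nhds (b / c * U z + M * 0 * V z)) :=
    (((tendsto_pow_atTop_nhds_zero_of_lt_one (sub_pos.2 hc1).le (by linarith)).const_mul
      M).mul_const _).const_add _
  simpa using ge_of_tendsto' t1 fun n => key n z hz

/-- truncated Green function -/
noncomputable def grG (w z : ℂ) : ℝ := -Real.log (max (1 / 2) ‖phi w z‖)

theorem gr_phi_diff {w : ℂ} (hw : w ∈ uhp) : DifferentiableOn ℂ (phi w) uhp := fun z hz =>
  (((differentiableAt_id.sub_const w).div (differentiableAt_id.sub_const (conj w))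
    (f2_ne hw hz)).differentiableWithinAt : DifferentiableWithinAt ℂ
      (fun b => (b - w) / (b - conj w)) uhp z)

theorem grG_cont {w : ℂ} (hw : w ∈ uhp) : ContinuousOn (grG w) uhp :=
  ((continuousOn_const.sup (gr_phi_diff hw).continuousOn.norm).log fun z _ =>
    (lt_max_of_lt_left (by norm_num : (0 : ℝ) < 1 / 2)).ne').neg

theorem gr_phi_le {w z : ℂ} (hw : w ∈ uhp) (hz : z ∈ uhp) : ‖phi w z‖ ≤ 1 := by
  have h1 := smq_eq hw hz
  have h2 := smq_nonneg hw hz
  nlinarith [norm_nonneg (phi w z)]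

theorem grG_nonneg {w z : ℂ} (hw : w ∈ uhp) (hz : z ∈ uhp) : 0 ≤ grG w z :=
  neg_nonneg.2 (Real.log_nonpos (le_max_of_le_left (by norm_num))
    (max_le (by norm_num) (gr_phi_le hw hz)))

theorem grG_le_one (w z : ℂ) : grG w z ≤ 1 := by
  have h1 := Real.log_le_log (by norm_num : (0 : ℝ) < 1 / 2) (le_max_left (1 / 2) ‖phi w z‖)
  have h2 := Real.log_two_lt_d9
  rw [one_div, Real.log_inv] at h1
  rw [grG, one_div]
  linarith

theorem smq_le_grG {w z : ℂ} (hw : w ∈ uhp) (hz : z ∈ uhp) : smq z w ≤ 2 * grG w z := by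
  rw [smq_symm, smq_eq hw hz, grG]
  rcases le_total (1 / 2) ‖phi w z‖ with h | h
  · have h1 := Real.log_le_sub_one_of_pos (x := ‖phi w z‖ ^ 2) (by positivity)
    rw [Real.log_pow] at h1
    rw [max_eq_right h]
    push_cast at h1
    linarith
  · have h2 := Real.log_two_gt_d9
    rw [max_eq_left h, one_div, Real.log_inv]
    nlinarith [sq_nonneg ‖phi w z‖]

theorem grG_le {w z : ℂ} (hw : w ∈ uhp) (hz : z ∈ uhp) {η : ℝ} (h0 : 0 < η) (h1 : η ≤ 1) :
    grG w z ≤ (8 / w.im) ^ η * z.im ^ η := by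
  have a0 : 0 < w.im := hw
  have b0 : 0 < z.im := hz
  rw [← Real.mul_rpow (by positivity) b0.le]
  rcases le_total 1 (8 / w.im * z.im) with h | h
  · exact (grG_le_one w z).trans (Real.one_le_rpow h h0.le)
  refine le_trans ?_ (Real.self_le_rpow_of_le_one (by positivity) h h1)
  have m0 : (0 : ℝ) < max (1 / 2) ‖phi w z‖ := lt_max_of_lt_left (by norm_num)
  have h2 := Real.one_sub_inv_le_log_of_pos m0
  have h3 : (max (1 / 2) ‖phi w z‖)⁻¹ - 1 ≤ 2 * smq w z := by
    have m1 := le_max_left (1 / 2) ‖phi w z‖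
    have m2 := le_max_right (1 / 2) ‖phi w z‖
    have m3 := gr_phi_le hw hz
    have m4 := smq_nonneg hw hz
    rw [smq_eq hw hz] at m4 ⊢
    rw [sub_le_iff_le_add, inv_le_iff_one_le_mul₀ m0]
    nlinarith [norm_nonneg (phi w z), mul_nonneg m4 (sub_nonneg.2 m1),
      mul_nonneg (norm_nonneg (phi w z)) (sub_nonneg.2 m3)]
  have h4 : smq w z ≤ 4 / w.im * z.im := by
    have e1 := Complex.abs_im_le_norm (z - conj w)
    have e2 : (z - conj w).im = z.im + w.im := by simp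
    rw [e2, abs_of_pos (by positivity)] at e1
    have e3 : w.im ^ 2 ≤ ‖z - conj w‖ ^ 2 := pow_le_pow_left₀ a0.le (by linarith) 2
    calc smq w z ≤ 4 * w.im * z.im / w.im ^ 2 :=
          div_le_div_of_nonneg_left (by positivity) (by positivity) e3
      _ = _ := by field_simp
  have e5 : 8 / w.im * z.im = 2 * (4 / w.im * z.im) := by ring
  rw [grG, e5]
  linarith

theorem grG_mean {w z : ℂ} (hw : w ∈ uhp) (hz : z ∈ uhp)
    (h : ∀ u ∈ closedBall z |z.im / 2|, 1 / 2 ≤ ‖phi w u‖) :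
    circleAverage (grG w) z (z.im / 2) = grG w z := by
  have h1 := AnalyticOnNhd.circleAverage_log_norm_of_ne_zero (g := phi w) (c := z) (R := z.im / 2)
    (((gr_phi_diff hw).analyticOnNhd isOpen_uhp).mono fun u hu => gr_mem hz hu)
    (fun u hu e => by have := h u hu; rw [e, norm_zero] at this; linarith)
  have h2 : circleAverage (grG w) z (z.im / 2) =
      circleAverage (fun u => (-1 : ℝ) • Real.log ‖phi w u‖) z (z.im / 2) :=
    circleAverage_congr_sphere fun u hu => by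
      rw [grG, max_eq_right (h u (sphere_subset_closedBall hu))]
      simp
  rw [h2, circleAverage_fun_smul, h1, grG, max_eq_right (h z (mem_closedBall_self (abs_nonneg _)))]
  simp

theorem gr_near {w z u : ℂ} (hw : w ∈ uhp) (hz : z ∈ uhp) (hu : u ∈ closedBall z |z.im / 2|)
    (h : ‖phi w u‖ < 1 / 2) : ‖w - z‖ ≤ 10 * z.im ∧ z.im / 10 ≤ w.im := by
  have a0 : 0 < w.im := hw
  have y0 : 0 < z.im := hz
  obtain ⟨h1, h2, h3⟩ := gr_sub hz hu
  have n0 : 0 < ‖u - conj w‖ := norm_pos_iff.2 (f2_ne hw (gr_mem hz hu))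
  rw [phi, norm_div, div_lt_iff₀ n0] at h
  have h4 := f2_nsq w u
  have h5 : 3 * ‖u - w‖ ^ 2 ≤ 4 * w.im * u.im := by nlinarith [norm_nonneg (u - w)]
  have h6 := Complex.abs_im_le_norm (u - w)
  rw [Complex.sub_im] at h6
  have h7 : (u.im - w.im) ^ 2 ≤ ‖u - w‖ ^ 2 := by
    rw [← sq_abs]
    exact pow_le_pow_left₀ (abs_nonneg _) h6 2
  have h8 : w.im ≤ 3 * u.im := by nlinarith
  have h9 : u.im ≤ 3 * w.im := by nlinarith
  have h10 : ‖u - w‖ ≤ 2 * u.im := by nlinarith [norm_nonneg (u - w)]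
  refine ⟨?_, by linarith⟩
  have h11 := norm_sub_le_norm_sub_add_norm_sub w u z
  rw [norm_sub_rev w u] at h11
  linarith

theorem gr_count : ∃ B : ℝ, 0 < B ∧ ∀ f : ℂ → ℂ, Uv f → ∀ s l η : ℝ, 0 < s → s ≤ l → 0 < η →
    η ≤ 1 → ∀ z ∈ uhp, ∀ N : Finset ℂ, (∀ w ∈ N, w ∈ uhp ∧ IsLat s (f w) ∧
      l / 4 ≤ w.im * ‖deriv f w‖ ∧ w.im * ‖deriv f w‖ ≤ 2 * l) →
      (∀ w ∈ N, ‖w - z‖ ≤ 10 * z.im ∧ z.im / 10 ≤ w.im) →
      s ^ 2 * N.card ≤ B * (l ^ 2 / l ^ η) * (z.im * ‖deriv f z‖) ^ η := by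
  obtain ⟨K, hK, hk⟩ := koebe1 10 (by norm_num)
  refine ⟨(400 * K ^ 2 + 1) ^ 2 * (44 * K), by positivity, ?_⟩
  intro f hf s l η hs hsl h0 h1 z hz N hA hN
  have y0 : 0 < z.im := hz
  have l0 : 0 < l := hs.trans_le hsl
  rcases N.eq_empty_or_nonempty with rfl | ⟨w0, hw0⟩
  · simp only [Finset.card_empty, Nat.cast_zero, mul_zero]
    positivity
  have d0 := norm_nonneg (deriv f z)
  have hup : z.im * ‖deriv f z‖ ≤ 20 * K * l := by
    obtain ⟨a1, -, -, a2⟩ := hA w0 hw0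
    obtain ⟨-, b2, -⟩ := hk f hf z hz w0 (hN w0 hw0).1 (hN w0 hw0).2
    have a0 : 0 < w0.im := a1
    calc z.im * ‖deriv f z‖ ≤ (10 * w0.im) * (K * ‖deriv f w0‖) :=
          mul_le_mul (by linarith [(hN w0 hw0).2]) b2 d0 (by positivity)
      _ = 10 * K * (w0.im * ‖deriv f w0‖) := by ring
      _ ≤ 10 * K * (2 * l) := by gcongr
      _ = _ := by ring
  have hlo : l ≤ 44 * K * (z.im * ‖deriv f z‖) := by
    obtain ⟨-, -, a2, -⟩ := hA w0 hw0
    obtain ⟨b1, -, -⟩ := hk f hf z hz w0 (hN w0 hw0).1 (hN w0 hw0).2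
    have c1 := (Complex.abs_im_le_norm (w0 - z)).trans (hN w0 hw0).1
    rw [Complex.sub_im, abs_le] at c1
    have c2 : w0.im * ‖deriv f w0‖ ≤ (11 * z.im) * (K * ‖deriv f z‖) :=
      mul_le_mul (by linarith [c1.2]) b1 (norm_nonneg _) (by positivity)
    linarith
  have hd : ∀ w ∈ N, ‖f w - f z‖ ≤ 200 * K ^ 2 * l := fun w hw => by
    obtain ⟨-, -, b3⟩ := hk f hf z hz w (hN w hw).1 (hN w hw).2
    calc ‖f w - f z‖ ≤ K * ‖w - z‖ * ‖deriv f z‖ := b3
      _ ≤ K * (10 * z.im) * ‖deriv f z‖ := by gcongr; exact (hN w hw).1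
      _ = 10 * K * (z.im * ‖deriv f z‖) := by ring
      _ ≤ 10 * K * (20 * K * l) := by gcongr
      _ = _ := by ring
  classical
  have hc := card_le_box hs (r := 400 * K ^ 2 * l) (by positivity) (N.image f)
    (fun v hv => by
      obtain ⟨w, hw, rfl⟩ := Finset.mem_image.1 hv
      exact (hA w hw).2.1)
    (fun v hv v' hv' => by
      obtain ⟨w, hw, rfl⟩ := Finset.mem_image.1 hv
      obtain ⟨w', hw', rfl⟩ := Finset.mem_image.1 hv'
      have e1 := norm_sub_le_norm_sub_add_norm_sub (f w) (f z) (f w')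
      rw [norm_sub_rev (f z)] at e1
      have e2 : ‖f w - f w'‖ ≤ 400 * K ^ 2 * l := by linarith [hd w hw, hd w' hw']
      exact ⟨(Complex.abs_re_le_norm (f w - f w')).trans e2,
        (Complex.abs_im_le_norm (f w - f w')).trans e2⟩)
  rw [Finset.card_image_of_injOn fun a ha b hb e => hf.2 (hA a ha).1 (hA b hb).1 e] at hc
  have h2 : (400 * K ^ 2 * l + s) ^ 2 ≤ (400 * K ^ 2 + 1) ^ 2 * l ^ 2 := by
    rw [← mul_pow]
    exact pow_le_pow_left₀ (by positivity) (by linarith) 2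
  have h3 : l ^ η ≤ 44 * K * (z.im * ‖deriv f z‖) ^ η := by
    refine (Real.rpow_le_rpow l0.le hlo h0.le).trans ?_
    rw [Real.mul_rpow (by positivity) (by positivity)]
    exact mul_le_mul_of_nonneg_right (Real.rpow_le_self_of_one_le (by linarith) h1) (by positivity)
  have h4 : 0 < l ^ η := Real.rpow_pos_of_pos l0 η
  calc s ^ 2 * N.card ≤ (400 * K ^ 2 + 1) ^ 2 * l ^ 2 := by linarith
    _ = (400 * K ^ 2 + 1) ^ 2 * (l ^ 2 / l ^ η) * l ^ η := by field_simp
    _ ≤ (400 * K ^ 2 + 1) ^ 2 * (l ^ 2 / l ^ η) * (44 * K * (z.im * ‖deriv f z‖) ^ η) := by gcongr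
    _ = _ := by ring

/-- Green potential of the lattice points with conformal radius about `l` -/
theorem green : ∃ C : ℝ, 0 < C ∧ ∀ f : ℂ → ℂ, Uv f → ∀ s l : ℝ, 0 < s → s ≤ l →
    ∀ A : Finset ℂ, (∀ w ∈ A, w ∈ uhp ∧ IsLat s (f w) ∧ l / 4 ≤ w.im * ‖deriv f w‖ ∧
      w.im * ‖deriv f w‖ ≤ 2 * l) → ∀ z ∈ uhp, z.im * ‖deriv f z‖ ≤ 2 * l →
      s ^ 2 * ∑ w ∈ A, smq z w ≤ C * l ^ 2 := by
  obtain ⟨η, c, h0, h1, hc, hc1, hav⟩ := ups_avg
  obtain ⟨B, hB, hcount⟩ := gr_count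
  refine ⟨4 * (B / c), by positivity, fun f hf s l hs hsl A hA z hz hzl => ?_⟩
  have l0 : 0 < l := hs.trans_le hsl
  have hl : 0 < l ^ η := Real.rpow_pos_of_pos l0 η
  have cU : ∀ g : ℂ → ℂ, Uv g → ContinuousOn (fun w => (w.im * ‖deriv g w‖) ^ η) uhp :=
    fun g hg => (Complex.continuous_im.continuousOn.mul
      (hg.1.deriv isOpen_uhp).continuousOn.norm).rpow_const fun _ _ => Or.inr h0.le
  have uid : Uv id := ⟨differentiableOn_id, injOn_id _⟩
  have cG : ContinuousOn (fun z => ∑ w ∈ A, grG w z) uhp :=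
    continuousOn_finsetSum _ fun w hw => grG_cont (hA w hw).1
  have key := gr_iter (ψ := fun z => s ^ 2 * ∑ w ∈ A, grG w z) (continuousOn_const.mul cG)
    (cU f hf) (cU id uid) hc hc1 (b := B * (l ^ 2 / l ^ η))
    (M := s ^ 2 * ∑ w ∈ A, (8 / w.im) ^ η) (by positivity)
    (mul_nonneg (sq_nonneg _) (Finset.sum_nonneg fun w hw =>
      Real.rpow_nonneg (div_nonneg (by norm_num) (le_of_lt (hA w hw).1)) _))
    (fun z hz => ?_) (hav f hf) (hav id uid) (fun z hz => ?_)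
    (fun z hz => Real.rpow_nonneg (mul_nonneg (le_of_lt hz) (norm_nonneg _)) _) z hz
  · have h2 : ∑ w ∈ A, smq z w ≤ 2 * ∑ w ∈ A, grG w z := by
      rw [Finset.mul_sum]
      exact Finset.sum_le_sum fun w hw => smq_le_grG (hA w hw).1 hz
    have h3 : (z.im * ‖deriv f z‖) ^ η ≤ 2 * l ^ η := by
      refine (Real.rpow_le_rpow (mul_nonneg (le_of_lt hz) (norm_nonneg _)) hzl h0.le).trans ?_
      rw [Real.mul_rpow (by norm_num) l0.le]
      exact mul_le_mul_of_nonneg_right (Real.rpow_le_self_of_one_le (by norm_num) h1) hl.le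
    calc s ^ 2 * ∑ w ∈ A, smq z w ≤ s ^ 2 * (2 * ∑ w ∈ A, grG w z) := by gcongr
      _ = 2 * (s ^ 2 * ∑ w ∈ A, grG w z) := by ring
      _ ≤ 2 * (B * (l ^ 2 / l ^ η) / c * (2 * l ^ η)) := by
          refine mul_le_mul_of_nonneg_left (key.trans ?_) (by norm_num)
          gcongr
      _ = _ := by
          field_simp
          ring
  · classical
    have e1 : circleAverage (fun z => s ^ 2 * ∑ w ∈ A, grG w z) z (z.im / 2) =
        s ^ 2 * ∑ w ∈ A, circleAverage (grG w) z (z.im / 2) := by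
      rw [gr_mul, circleAverage_fun_sum fun w hw => gr_int (grG_cont (hA w hw).1) hz]
    have e2 := hcount f hf s l η hs hsl h0 h1 z hz
      (A.filter fun w => ‖w - z‖ ≤ 10 * z.im ∧ z.im / 10 ≤ w.im)
      (fun w hw => hA w (Finset.mem_filter.1 hw).1) fun w hw => (Finset.mem_filter.1 hw).2
    have e3 : ∑ w ∈ A, grG w z ≤ ∑ w ∈ A, (circleAverage (grG w) z (z.im / 2) +
        if ‖w - z‖ ≤ 10 * z.im ∧ z.im / 10 ≤ w.im then 1 else 0) := by
      refine Finset.sum_le_sum fun w hw => ?_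
      split_ifs with h
      · have := circleAverage_nonneg_of_nonneg (c := z) (R := z.im / 2) (f := grG w)
          fun u hu => grG_nonneg (hA w hw).1 (gr_mem hz (sphere_subset_closedBall hu))
        linarith [grG_le_one w z]
      · rw [grG_mean (hA w hw).1 hz fun u hu => not_lt.1 fun h' => h (gr_near (hA w hw).1 hz hu h'),
          add_zero]
    rw [Finset.sum_add_distrib, Finset.sum_boole] at e3
    have e4 := mul_le_mul_of_nonneg_left e3 (sq_nonneg s)
    rw [e1]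
    linarith
  · simp only [deriv_id, norm_one, mul_one]
    rw [mul_assoc, Finset.sum_mul]
    exact mul_le_mul_of_nonneg_left
      (Finset.sum_le_sum fun w hw => grG_le (hA w hw).1 hz h0 h1) (sq_nonneg _)

end Vale.Agent.P164
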