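import Vale.Agent.P164.Flow2

namespace Vale.Agent.P164

open Set
open scoped ComplexConjugate

/-- the quadratic form of the Szego kernel of the right half-plane -/
noncomputable def carQ {ι : Type} (A : Finset ι) (a v : ι → ℂ) : ℂ :=
  ∑ i ∈ A, ∑ l ∈ A, v i * conj (v l) / (a i + conj (a l))

theorem car_ne {a b : ℂ} (ha : 0 < a.re) (hb : 0 < b.re) : a + conj b ≠ 0 := fun e => by
  have := congrArg Complex.re e
  simp only [Complex.add_re, Complex.conj_re, Complex.zero_re] at this
  linarith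

theorem car_split {ι : Type} (A : Finset ι) (a v : ι → ℂ) (ha : ∀ i ∈ A, 0 < (a i).re) {c : ℂ}
    (hc : 0 < c.re) : (carQ A a v).re = 2 * c.re * ‖∑ i ∈ A, v i / (a i + conj c)‖ ^ 2 +
      (carQ A a fun i => v i * ((a i - c) / (a i + conj c))).re := by
  have e : carQ A a v = (c + conj c) * ((∑ i ∈ A, v i / (a i + conj c)) *
      conj (∑ i ∈ A, v i / (a i + conj c))) +
      carQ A a fun i => v i * ((a i - c) / (a i + conj c)) := by
    rw [map_sum, Finset.sum_mul_sum, Finset.mul_sum, carQ, carQ, ← Finset.sum_add_distrib]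
    refine Finset.sum_congr rfl fun i hi => ?_
    rw [Finset.mul_sum, ← Finset.sum_add_distrib]
    refine Finset.sum_congr rfl fun l hl => ?_
    have h1 := car_ne (ha i hi) (ha l hl)
    have h2 := car_ne (ha i hi) hc
    have h3 := car_ne hc (ha l hl)
    rw [add_comm c] at h3
    simp only [map_mul, map_div₀, map_add, map_sub, Complex.conj_conj]
    field_simp
    ring
  rw [e, Complex.mul_conj, Complex.add_conj, ← Complex.ofReal_mul, Complex.add_re,
    Complex.ofReal_re, Complex.sq_norm]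

theorem car_psd {ι : Type} (A : Finset ι) (a : ι → ℂ) (ha : ∀ i ∈ A, 0 < (a i).re) (v : ι → ℂ) :
    0 ≤ (carQ A a v).re := by
  classical
  induction A using Finset.induction_on generalizing v with
  | empty => simp [carQ]
  | insert j A hj ih =>
    have hc := ha j (Finset.mem_insert_self j A)
    rw [car_split _ a v ha hc]
    refine add_nonneg (by positivity) ?_
    have e := ih (fun i hi => ha i (Finset.mem_insert_of_mem hi))
      fun i => v i * ((a i - a j) / (a i + conj (a j)))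
    simpa only [carQ, Finset.sum_insert hj, sub_self, zero_div, mul_zero, map_zero, zero_mul,
      Finset.sum_const_zero, zero_add] using e

theorem car_main {ι : Type} (B : Finset ι) (z : ι → ℂ) (hz : ∀ i ∈ B, 0 < (z i).im) {M : ℝ}
    (hM0 : 0 ≤ M) (hM : ∀ i ∈ B, ∑ l ∈ B, smq (z i) (z l) ≤ M) {R : ℝ} (hR : 0 < R)
    (hB : ∀ i ∈ B, ‖z i‖ ≤ R) : ∑ i ∈ B, (z i).im ≤ M * R := by
  have ha : ∀ i ∈ B, 0 < (-Complex.I * z i).re := fun i hi => by simpa using hz i hi
  have h1 := car_split B (fun i => -Complex.I * z i) (fun i => (z i).im) ha (c := R) (by simpa)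
  have h2 := car_psd B (fun i => -Complex.I * z i) ha
    fun i => (z i).im * ((-Complex.I * z i - R) / (-Complex.I * z i + conj (R : ℂ)))
  have h3 : (carQ B (fun i => -Complex.I * z i) fun i => (z i).im).re =
      ∑ i ∈ B, ∑ l ∈ B, ((z i).im * smq (z i) (z l) + (z l).im * smq (z l) (z i)) / 4 := by
    simp only [carQ, Complex.re_sum]
    refine Finset.sum_congr rfl fun i _ => Finset.sum_congr rfl fun l _ => ?_
    rw [smq_symm (z l), Complex.conj_ofReal, ← Complex.ofReal_mul, div_eq_mul_inv,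
      Complex.re_ofReal_mul, Complex.inv_re, smq, Complex.sq_norm]
    have e : Complex.normSq (-Complex.I * z i + conj (-Complex.I * z l)) =
        Complex.normSq (z l - conj (z i)) := by
      simp [Complex.normSq_apply]
      ring
    rw [e]
    simp
    ring
  have h4 : ∑ i ∈ B, ∑ l ∈ B, ((z i).im * smq (z i) (z l) + (z l).im * smq (z l) (z i)) / 4 ≤
      M * (∑ i ∈ B, (z i).im) / 2 := by
    have k : ∑ i ∈ B, ∑ l ∈ B, (z i).im * smq (z i) (z l) ≤ M * ∑ i ∈ B, (z i).im := by
      rw [Finset.mul_sum]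
      refine Finset.sum_le_sum fun i hi => ?_
      rw [← Finset.mul_sum, mul_comm]
      exact mul_le_mul_of_nonneg_right (hM i hi) (hz i hi).le
    simp only [← Finset.sum_div, Finset.sum_add_distrib]
    rw [Finset.sum_comm (f := fun i l => (z l).im * smq (z l) (z i))]
    linarith
  have h5 : (∑ i ∈ B, (z i).im) / (2 * R) ≤
      ‖∑ i ∈ B, ((z i).im : ℂ) / (-Complex.I * z i + conj (R : ℂ))‖ := by
    refine le_trans ?_ (Complex.re_le_norm _)
    rw [Complex.re_sum, Finset.sum_div]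
    refine Finset.sum_le_sum fun i hi => ?_
    have y0 := hz i hi
    have e : (z i).re ^ 2 + (z i).im ^ 2 ≤ R ^ 2 := by
      have := pow_le_pow_left₀ (norm_nonneg _) (hB i hi) 2
      rwa [Complex.sq_norm, Complex.normSq_apply, ← sq, ← sq] at this
    rw [div_eq_mul_inv ((z i).im : ℂ), Complex.re_ofReal_mul, Complex.inv_re, div_eq_mul_inv]
    refine mul_le_mul_of_nonneg_left ?_ y0.le
    rw [inv_eq_one_div, div_le_div_iff₀ (by positivity)
      (Complex.normSq_pos.2 (car_ne (ha i hi) (by simpa)))]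
    simp [Complex.normSq_apply]
    nlinarith
  have S0 : 0 ≤ ∑ i ∈ B, (z i).im := Finset.sum_nonneg fun i hi => (hz i hi).le
  have h6 := mul_le_mul_of_nonneg_left (pow_le_pow_left₀ (by positivity) h5 2)
    (by positivity : 0 ≤ 2 * R)
  rw [Complex.ofReal_re] at h1
  generalize ∑ i ∈ B, (z i).im = S at *
  have h7 : 2 * R * (S / (2 * R)) ^ 2 ≤ M * S / 2 := by linarith
  have h8 : 2 * R * (S / (2 * R)) ^ 2 = S * S / (2 * R) := by field_simp
  rw [h8, div_le_iff₀ (by positivity)] at h7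
  rcases S0.eq_or_lt with h | h
  · rw [← h]
    positivity
  · exact le_of_mul_le_mul_right (by linarith) h

theorem car_inv_im (a : ℂ) : (-a⁻¹).im = pk a := by
  rw [Complex.neg_im, Complex.inv_im, pk, Complex.sq_norm]
  ring

theorem car_inv {a b : ℂ} (ha : 0 < a.im) (hb : 0 < b.im) : smq (-a⁻¹) (-b⁻¹) = smq a b := by
  have a0 : a ≠ 0 := fun e => by simp [e] at ha
  have b0 : b ≠ 0 := fun e => by simp [e] at hb
  have c0 : conj a ≠ 0 := (map_ne_zero _).2 a0
  have e : -b⁻¹ - conj (-a⁻¹) = (b - conj a) / (conj a * b) := by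
    rw [map_neg, map_inv₀]
    field_simp
    ring
  have n1 := norm_ne_zero_iff.2 a0
  have n2 := norm_ne_zero_iff.2 b0
  have n3 := norm_ne_zero_iff.2 (f2_ne ha hb)
  rw [smq, smq, e, car_inv_im, car_inv_im, pk, pk, norm_div, norm_mul, Complex.norm_conj]
  field_simp

open Classical in
theorem carl1 {ι : Type} (A : Finset ι) (z : ι → ℂ) (hz : ∀ i ∈ A, z i ∈ uhp) {M : ℝ}
    (hM0 : 0 ≤ M) (hM : ∀ i ∈ A, ∑ l ∈ A, smq (z i) (z l) ≤ M) {R : ℝ} (hR : 0 < R) :
    (∑ i ∈ A, if ‖z i‖ ≤ R then (z i).im else 0) ≤ 16 * M * R := by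
  rw [← Finset.sum_filter]
  have hs := Finset.filter_subset (fun i => ‖z i‖ ≤ R) A
  refine (car_main _ z (fun i hi => hz i (hs hi)) hM0 (fun i hi => le_trans
    (Finset.sum_le_sum_of_subset_of_nonneg hs fun l hl _ => smq_nonneg (hz i (hs hi)) (hz l hl))
    (hM i (hs hi))) hR fun i hi => (Finset.mem_filter.1 hi).2).trans ?_
  linarith [mul_nonneg hM0 hR.le]

open Classical in
theorem carl2 {ι : Type} (A : Finset ι) (z : ι → ℂ) (hz : ∀ i ∈ A, z i ∈ uhp) {M : ℝ}
    (hM0 : 0 ≤ M) (hM : ∀ i ∈ A, ∑ l ∈ A, smq (z i) (z l) ≤ M) {R : ℝ} (hR : 0 < R) :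
    (∑ i ∈ A, if R ≤ ‖z i‖ then pk (z i) else 0) ≤ 64 * M / R := by
  have n0 : ∀ i ∈ A, 0 < ‖z i‖ := fun i hi => norm_pos_iff.2 fun e => by
    have : 0 < (z i).im := hz i hi
    simp [e] at this
  have e := carl1 A (fun i => -(z i)⁻¹) (fun i hi => ?_) hM0 (fun i hi => ?_) (inv_pos.2 hR)
  · refine le_trans (Finset.sum_congr rfl fun i hi => ?_).le (e.trans ?_)
    · simp only [norm_neg, norm_inv, car_inv_im, inv_le_inv₀ (n0 i hi) hR]
    · rw [div_eq_mul_inv]
      linarith [mul_nonneg hM0 (inv_pos.2 hR).le]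
  · show 0 < (-(z i)⁻¹).im
    rw [car_inv_im]
    exact div_pos (hz i hi) (pow_pos (n0 i hi) 2)
  · exact (Finset.sum_congr rfl fun l hl => car_inv (hz i hi) (hz l hl)).trans_le (hM i hi)

end Vale.Agent.P164
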