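import Vale.Agent.P164.Green2
import Vale.Agent.P164.EU
import Vale.Agent.P164.LDef

namespace Vale.Agent.P164

open Set

section
variable {W : ℝ → ℝ} {D : ℝ → Set ℂ} {g : ℝ → ℂ → ℂ} {tm : ℕ → ℝ} {la c : ℝ}

/-- what is known at a step in the level window -/
structure QvOk (W : ℝ → ℝ) (D : ℝ → Set ℂ) (g : ℝ → ℂ → ℂ) (tm : ℕ → ℝ) (la c b : ℝ) (u : ℂ)
    (n : ℕ) : Prop where
  mem : u ∈ D (tm (n + 1))
  bd : ∀ t ∈ Icc (tm n) (tm (n + 1)), |b| ≤ c * pk (zz W g t u)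
  lo : ∀ t ∈ Icc (tm n) (tm (n + 1)), la - Real.log 2 - 1 / 2 ≤ Real.log (ups g t u)
  hi : ∀ t ∈ Icc (tm n) (tm (n + 1)), Real.log (ups g t u) ≤ la + 1 / 2

theorem qv_pk (h : Chain W D g) {t : ℝ} {u : ℂ} (hu : u ∈ D t) {r : ℝ} (hr : r ∈ Icc 0 t) :
    0 ≤ pk (zz W g r u) :=
  div_nonneg (by rw [zz_im]; exact (h.flow_pos hu hr).le) (sq_nonneg _)

theorem qv_intble (h : Chain W D g) {t : ℝ} {u v : ℂ} (hu : u ∈ D t) (hv : v ∈ D t) {a b : ℝ}
    (ha : 0 ≤ a) (hab : a ≤ b) (hb : b ≤ t) :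
    IntervalIntegrable (fun r => pk (zz W g r u) * pk (zz W g r v)) MeasureTheory.volume a b := by
  have ht : 0 ≤ t := ha.trans (hab.trans hb)
  refine ContinuousOn.intervalIntegrable_of_Icc hab ?_
  exact ((h.f2_cp ht hu).mul (h.f2_cp ht hv)).mono (Icc_subset_Icc ha hb)

theorem qv_step (h : Chain W D g) (hm : Monotone tm) (h0 : ∀ n, 0 ≤ tm n) {b b' : ℝ} {u v : ℂ}
    {n : ℕ} (hu : QvOk W D g tm la c b u n) (hv : QvOk W D g tm la c b' v n) :
    (tm (n + 1) - tm n) * (b * b') ≤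
      c ^ 2 * ∫ r in tm n..tm (n + 1), pk (zz W g r u) * pk (zz W g r v) := by
  have hle := hm n.le_succ
  rw [← intervalIntegral.integral_const_mul, ← smul_eq_mul, ← intervalIntegral.integral_const]
  refine intervalIntegral.integral_mono_on hle intervalIntegrable_const
    ((qv_intble h hu.mem hv.mem (h0 n) hle le_rfl).const_mul _) fun r hr => ?_
  have h1 := mul_le_mul (hu.bd r hr) (hv.bd r hr) (abs_nonneg _) ((abs_nonneg _).trans (hu.bd r hr))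
  rw [← abs_mul] at h1
  linarith [le_abs_self (b * b')]

theorem qv_pair (h : Chain W D g) (hm : Monotone tm) (h0 : ∀ n, 0 ≤ tm n) {b b' : ℕ → ℝ} {u v : ℂ}
    {F : Finset ℕ} (hF : F.Nonempty) (hu : ∀ n ∈ F, QvOk W D g tm la c (b n) u n)
    (hv : ∀ n ∈ F, QvOk W D g tm la c (b' n) v n) {a : ℕ} (ha : ∀ n ∈ F, a ≤ n)
    (hua : QvOk W D g tm la c (b a) u a) :
    ∑ n ∈ F, (tm (n + 1) - tm n) * (b n * b' n) ≤ c ^ 2 * (5 * smq (g (tm a) u) (g (tm a) v)) := by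
  have hM := F.max'_mem hF
  set M := F.max' hF with hMd
  have uM := (hu M hM).mem
  have vM := (hv M hM).mem
  have aM : a ≤ M + 1 := (ha M hM).trans M.le_succ
  refine (Finset.sum_le_sum fun n hn => qv_step h hm h0 (hu n hn) (hv n hn)).trans ?_
  rw [← Finset.mul_sum]
  refine mul_le_mul_of_nonneg_left ?_ (sq_nonneg c)
  have hsub : F ⊆ Finset.Ico a (M + 1) := fun n hn =>
    Finset.mem_Ico.2 ⟨ha n hn, Nat.lt_succ_of_le (F.le_max' n hn)⟩
  refine (Finset.sum_le_sum_of_subset_of_nonneg hsub fun n hn _ => ?_).trans ?_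
  · have hn' : tm (n + 1) ≤ tm (M + 1) := hm (Finset.mem_Ico.1 hn).2
    exact intervalIntegral.integral_nonneg (hm n.le_succ) fun r hr =>
      mul_nonneg (qv_pk h uM ⟨(h0 n).trans hr.1, hr.2.trans hn'⟩)
        (qv_pk h vM ⟨(h0 n).trans hr.1, hr.2.trans hn'⟩)
  rw [intervalIntegral.sum_integral_adjacent_intervals_Ico aM fun k hk =>
    qv_intble h uM vM (h0 k) (hm k.le_succ) (hm hk.2)]
  refine h.pk_int (h0 _) uM vM (h0 a) (hm aM) le_rfl ?_
  have h1 := hua.hi _ ⟨le_rfl, hm a.le_succ⟩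
  have h2 := (hu M hM).lo _ ⟨hm M.le_succ, le_rfl⟩
  linarith [Real.log_two_lt_d9]

theorem qv_hi (h : Chain W D g) {t : ℝ} (ht : 0 ≤ t) {u : ℂ} (hu : u ∈ D t)
    (h1 : Real.log (ups g t u) ≤ la + 1 / 2) : ups g t u ≤ 2 * Real.exp la := by
  rw [Real.log_le_iff_le_exp (h.ups_pos ht hu)] at h1
  refine h1.trans ?_
  rw [← Real.exp_log two_pos, ← Real.exp_add, Real.exp_log two_pos]
  exact Real.exp_le_exp.2 (by linarith [Real.log_two_gt_d9])

theorem qv_lo (h : Chain W D g) {t : ℝ} (ht : 0 ≤ t) {u : ℂ} (hu : u ∈ D t)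
    (h1 : la - Real.log 2 - 1 / 2 ≤ Real.log (ups g t u)) : Real.exp la / 4 ≤ ups g t u := by
  rw [Real.le_log_iff_exp_le (h.ups_pos ht hu)] at h1
  refine le_trans ?_ h1
  have e : Real.exp la / 4 = Real.exp (la - Real.log 2 - Real.log 2) := by
    rw [Real.exp_sub, Real.exp_sub, Real.exp_log two_pos]; ring
  rw [e]
  exact Real.exp_le_exp.2 (by linarith [Real.log_two_gt_d9])

open Classical in
theorem qv_abs (h : Chain W D g) (hm : Monotone tm) (h0 : ∀ n, 0 ≤ tm n) {C s : ℝ} (hC : 0 < C)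
    (hG : ∀ f : ℂ → ℂ, Uv f → ∀ A : Finset ℂ, (∀ w ∈ A, w ∈ uhp ∧ IsLat s (f w) ∧
      Real.exp la / 4 ≤ w.im * ‖deriv f w‖ ∧ w.im * ‖deriv f w‖ ≤ 2 * Real.exp la) → ∀ z ∈ uhp,
      z.im * ‖deriv f z‖ ≤ 2 * Real.exp la → s ^ 2 * ∑ w ∈ A, smq z w ≤ C * Real.exp la ^ 2)
    (Q : Finset ℂ) (hQ : ∀ u ∈ Q, IsLat s u) (N : ℕ) (L : ℂ → ℕ → Prop) (b : ℂ → ℕ → ℝ)
    (hL : ∀ u ∈ Q, ∀ n < N, L u n → QvOk W D g tm la c (b u n) u n) :
    s ^ 2 * ∑ n ∈ Finset.range N, (tm (n + 1) - tm n) * (∑ u ∈ Q, if L u n then b u n else 0) ^ 2 ≤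
      10 * c ^ 2 * C * Q.card * Real.exp la ^ 2 := by
  set a : ℂ → ℕ := fun u => sInf {n | L u n} with ha
  have a1 : ∀ u n, L u n → a u ≤ n ∧ L u (a u) := fun u n hn =>
    ⟨Nat.sInf_le hn, Nat.sInf_mem (s := {n | L u n}) ⟨n, hn⟩⟩
  set P : ℂ → ℂ → Prop := fun u v => a v ≤ a u ∧ ∃ n < N, L u n ∧ L v n with hP
  set S : ℂ → ℂ → ℝ := fun u v => if P u v then smq (g (tm (a u)) u) (g (tm (a u)) v) else 0 with hS
  have mem : ∀ u ∈ Q, ∀ n < N, L u n → ∀ k ≤ n, u ∈ D (tm k) := fun u hu n hn hl k hk =>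
    h.anti _ _ (h0 k) (hm (hk.trans n.le_succ)) (hL u hu n hn hl).mem
  have S0 : ∀ u ∈ Q, ∀ v ∈ Q, 0 ≤ S u v := by
    intro u hu v hv
    simp only [hS]
    split_ifs with hp
    · obtain ⟨-, n, hn, l1, l2⟩ := hp
      exact smq_nonneg (h.im_pos (h0 _) (mem u hu n hn l1 _ (a1 u n l1).1))
        (h.im_pos (h0 _) (mem v hv n hn l2 _ (a1 u n l1).1))
    · exact le_rfl
  have one : ∀ u ∈ Q, ∀ v ∈ Q, a v ≤ a u → ∑ n ∈ Finset.range N with L u n ∧ L v n,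
      (tm (n + 1) - tm n) * (b u n * b v n) ≤ c ^ 2 * (5 * S u v) := by
    intro u hu v hv huv
    rcases ((Finset.range N).filter fun n => L u n ∧ L v n).eq_empty_or_nonempty with he | hne
    · rw [he, Finset.sum_empty]
      have := S0 u hu v hv
      positivity
    obtain ⟨n, hn⟩ := id hne
    rw [Finset.mem_filter, Finset.mem_range] at hn
    have hp : P u v := ⟨huv, n, hn⟩
    simp only [hS, if_pos hp]
    refine qv_pair h hm h0 hne (fun k hk => ?_) (fun k hk => ?_) (fun k hk => ?_)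
      (hL u hu _ ((a1 u n hn.2.1).1.trans_lt hn.1) (a1 u n hn.2.1).2)
    all_goals rw [Finset.mem_filter, Finset.mem_range] at hk
    exacts [hL u hu k hk.1 hk.2.1, hL v hv k hk.1 hk.2.2, (a1 u k hk.2.1).1]
  have two : ∀ u ∈ Q, ∀ v ∈ Q, ∑ n ∈ Finset.range N with L u n ∧ L v n,
      (tm (n + 1) - tm n) * (b u n * b v n) ≤ c ^ 2 * 5 * (S u v + S v u) := by
    intro u hu v hv
    have s1 := mul_nonneg (sq_nonneg c) (S0 u hu v hv)
    have s2 := mul_nonneg (sq_nonneg c) (S0 v hv u hu)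
    rcases le_total (a v) (a u) with h' | h'
    · linarith [one u hu v hv h']
    · have := one v hv u hu h'
      simp only [and_comm (a := L v _), mul_comm (b v _)] at this
      linarith
  have three : ∀ u ∈ Q, s ^ 2 * ∑ v ∈ Q, S u v ≤ C * Real.exp la ^ 2 := by
    intro u hu
    simp only [hS]
    rw [← Finset.sum_filter]
    rcases (Q.filter fun v => P u v).eq_empty_or_nonempty with he | ⟨v0, hv0⟩
    · rw [he, Finset.sum_empty, mul_zero]
      positivity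
    obtain ⟨-, n, hn, l1, -⟩ := (Finset.mem_filter.1 hv0).2
    have t0 := h0 (a u)
    have uD := mem u hu n hn l1 _ (a1 u n l1).1
    have vD : ∀ v ∈ Q.filter fun v => P u v, v ∈ D (tm (a u)) := fun v hv => by
      obtain ⟨hv, -, k, hk, k1, k2⟩ := Finset.mem_filter.1 hv
      exact mem v hv k hk k2 _ (a1 u k k1).1
    rw [← Finset.sum_image (g := g (tm (a u))) (f := fun w => smq (g (tm (a u)) u) w)
      fun v hv w hw e => (h.bij _ t0).injOn (vD v hv) (vD w hw) e]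
    refine hG _ (h.iv_uv t0) _ (fun w hw => ?_) _ (h.im_pos t0 uD) ?_
    · obtain ⟨v, hv, rfl⟩ := Finset.mem_image.1 hw
      have hD := vD v hv
      obtain ⟨hv, hvu, k, hk, k1, k2⟩ := Finset.mem_filter.1 hv
      rw [h.iv_g t0 hD, ← h.ups_eq t0 hD]
      have kD := mem v hv k hk k2 k le_rfl
      refine ⟨h.im_pos t0 hD, hQ v hv, ?_, ?_⟩
      · exact (qv_lo h (h0 k) kD ((hL v hv k hk k2).lo _ ⟨le_rfl, hm k.le_succ⟩)).trans
          (h.ups_anti (h0 k) kD t0 (hm (a1 u k k1).1) le_rfl)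
      · exact (h.ups_anti t0 hD (h0 _) (hm hvu) le_rfl).trans
          (qv_hi h (h0 _) (mem v hv k hk k2 _ (a1 v k k2).1)
            ((hL v hv _ ((a1 v k k2).1.trans_lt hk) (a1 v k k2).2).hi _
              ⟨le_rfl, hm (Nat.le_succ _)⟩))
    · rw [← h.ups_eq t0 uD]
      exact qv_hi h t0 uD ((hL u hu _ ((a1 u n l1).1.trans_lt hn) (a1 u n l1).2).hi _
        ⟨le_rfl, hm (Nat.le_succ _)⟩)
  have e : ∑ n ∈ Finset.range N, (tm (n + 1) - tm n) * (∑ u ∈ Q, if L u n then b u n else 0) ^ 2 =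
      ∑ u ∈ Q, ∑ v ∈ Q, ∑ n ∈ Finset.range N with L u n ∧ L v n,
        (tm (n + 1) - tm n) * (b u n * b v n) := by
    simp only [Finset.sum_filter, sq, Finset.sum_mul_sum]
    simp only [Finset.mul_sum]
    rw [Finset.sum_comm]
    refine Finset.sum_congr rfl fun u _ => ?_
    rw [Finset.sum_comm]
    refine Finset.sum_congr rfl fun v _ => Finset.sum_congr rfl fun n _ => ?_
    by_cases h1 : L u n <;> by_cases h2 : L v n <;> simp [h1, h2]
  rw [e]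
  have f1 := Finset.sum_le_sum fun u hu => Finset.sum_le_sum fun v hv => two u hu v hv
  have f2 : ∑ u ∈ Q, ∑ v ∈ Q, c ^ 2 * 5 * (S u v + S v u) =
      10 * c ^ 2 * ∑ u ∈ Q, ∑ v ∈ Q, S u v := by
    simp only [← Finset.mul_sum, Finset.sum_add_distrib]
    rw [Finset.sum_comm (f := fun u v => S v u)]
    ring
  have f3 := Finset.sum_le_card_nsmul _ _ _ three
  rw [← Finset.mul_sum, nsmul_eq_mul] at f3
  calc _ ≤ s ^ 2 * (10 * c ^ 2 * ∑ u ∈ Q, ∑ v ∈ Q, S u v) :=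
        mul_le_mul_of_nonneg_left (f1.trans f2.le) (sq_nonneg s)
    _ = 10 * c ^ 2 * (s ^ 2 * ∑ u ∈ Q, ∑ v ∈ Q, S u v) := by ring
    _ ≤ 10 * c ^ 2 * (Q.card * (C * Real.exp la ^ 2)) :=
        mul_le_mul_of_nonneg_left f3 (by positivity)
    _ = _ := by ring

end

theorem qv_cmp {p : St} (hy : 0 < p.y) {z : ℂ} {e : ℝ} (he : e ≤ p.y / 10)
    (h1 : |p.x - z.re| ≤ e) (h2 : |p.y - z.im| ≤ e) : p.y / rho2 p ≤ 3 * pk z := by
  obtain ⟨a1, a2⟩ := abs_le.1 h1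
  obtain ⟨b1, b2⟩ := abs_le.1 h2
  have z0 : 0 < z.im := by linarith
  have n0 : 0 < ‖z‖ ^ 2 := pow_pos (z0.trans_le ((le_abs_self _).trans z.abs_im_le_norm)) 2
  have r0 := rho2_pos hy
  have r1 := sq_y_le p
  have e2 : e ^ 2 ≤ p.y ^ 2 / 100 := by nlinarith
  have n1 : ‖z‖ ^ 2 ≤ 5 / 2 * rho2 p := by
    rw [Complex.sq_norm, Complex.normSq_apply]
    have c1 : (p.x - z.re) ^ 2 ≤ e ^ 2 := sq_le_sq' a1 a2
    have c2 : (p.y - z.im) ^ 2 ≤ e ^ 2 := sq_le_sq' b1 b2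
    unfold rho2 at r1 ⊢
    nlinarith [sq_nonneg (2 * p.x - z.re), sq_nonneg (2 * p.y - z.im)]
  rw [pk, ← mul_div_assoc, div_le_div_iff₀ r0 n0]
  nlinarith

theorem qv_mart {κ : ℝ} (hκ : 0 < κ) (hκ4 : κ ≤ 4) {p : St} (hy : 0 < p.y) {la : ℝ}
    (hl : la - Real.log 2 < p.l) : |(8 / κ - 1) * mart κ p * p.x / rho2 p| ≤
      (8 / κ - 1) * (2 * Real.exp ((κ / 8 - 1) * la)) * (p.y / rho2 p) := by
  have al : 1 ≤ 8 / κ - 1 := by
    rw [le_sub_iff_add_le, le_div_iff₀ hκ]; linarith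
  have r0 := rho2_pos hy
  have m1 : Real.exp ((κ / 8 - 1) * p.l) ≤ 2 * Real.exp ((κ / 8 - 1) * la) := by
    rw [← Real.exp_log two_pos, ← Real.exp_add]
    refine Real.exp_le_exp.2 ?_
    nlinarith [Real.log_pos one_lt_two]
  have m2 : ss p ^ ((8 / κ - 1) / 2) ≤ √(ss p) := by
    rw [Real.sqrt_eq_rpow]
    exact Real.rpow_le_rpow_of_exponent_ge (ss_pos p) (ss_le_one p) (by linarith)
  have m3 : √(ss p) * |p.x| ≤ p.y := by
    rw [← Real.sqrt_sq_eq_abs, ← Real.sqrt_mul (ss_pos p).le, Real.sqrt_le_left hy.le, ss_eq hy,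
      div_mul_eq_mul_div, div_le_iff₀ r0]
    unfold rho2
    nlinarith [sq_nonneg (p.y ^ 2)]
  have m4 : mart κ p * |p.x| ≤ 2 * Real.exp ((κ / 8 - 1) * la) * p.y := by
    rw [mart, fam_eq, mul_assoc]
    exact mul_le_mul m1 ((mul_le_mul_of_nonneg_right m2 (abs_nonneg _)).trans m3)
      (mul_nonneg (Real.rpow_nonneg (ss_pos p).le _) (abs_nonneg _)) (by positivity)
  rw [abs_div, abs_mul, abs_mul, abs_of_pos r0, abs_of_pos (mart_pos κ p),
    abs_of_pos (by linarith : 0 < 8 / κ - 1), ← mul_div_assoc, mul_assoc, mul_assoc (8 / κ - 1)]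
  exact div_le_div_of_nonneg_right (mul_le_mul_of_nonneg_left m4 (by linarith)) r0.le

/-- deterministic bound for the quadratic variation, `κ ≤ 4` -/
theorem qv_le {κ : ℝ} (hκ : 0 < κ) (hκ4 : κ ≤ 4) : ∃ C9 : ℝ, 0 < C9 ∧ ∀ {W D g}, Chain W D g →
    W 0 = 0 → ∀ d0 le T : ℝ, 0 < d0 → le ≤ 0 → 0 < T → ∃ δ0 : ℝ, 0 < δ0 ∧ ∀ δ : ℝ, 0 < δ → δ ≤ δ0 →
    ∀ N : ℕ, N * δ ≤ T → ∀ (s la : ℝ) (Q : Finset ℂ), 0 < s → s ≤ Real.exp la →
      (∀ u ∈ Q, IsLat s u ∧ 1 ≤ u.im ∧ u.im ≤ 2) →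
      s ^ 2 * qv κ d0 le δ la (la - Real.log 2) Q (inc W δ) N ≤
        C9 * Q.card * Real.exp (κ / 4 * la) := by
  obtain ⟨C, hC, hG⟩ := green
  have al : 1 ≤ 8 / κ - 1 := by
    rw [le_sub_iff_add_le, le_div_iff₀ hκ]; linarith
  have al0 : 0 < 8 / κ - 1 := by linarith
  refine ⟨360 * (8 / κ - 1) ^ 2 * C, by positivity, ?_⟩
  intro W D g h hW d0 le T hd hle hT
  have y0 := ymin_pos d0 le
  obtain ⟨δ1, hδ1, hE⟩ := h.eu hW hT y0 (e := min (ymin d0 le / 10) (1 / 2)) (by positivity)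
  refine ⟨min δ1 (ymin d0 le ^ 2 / 4), by positivity, fun δ hδ hδ0 N hN s la Q hs hsl hQ => ?_⟩
  have d1 : δ ≤ δ1 := hδ0.trans (min_le_left _ _)
  have d2 : 4 * (δ / ymin d0 le ^ 2) ≤ 1 := by
    have := hδ0.trans (min_le_right _ _)
    rw [← mul_div_assoc, div_le_one (by positivity)]
    linarith
  have key := qv_abs (tm := fun n => n * δ) (la := la)
    (c := 6 * (8 / κ - 1) * Real.exp ((κ / 8 - 1) * la)) h
    (fun i j hij => mul_le_mul_of_nonneg_right (Nat.cast_le.2 hij) hδ.le) (fun n => by positivity)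
    hC (fun f hf => hG f hf s _ hs hsl) Q (fun u hu => (hQ u hu).1) N
    (fun u n => lev d0 le la (la - Real.log 2) (frz d0 le δ u (inc W δ) n))
    (fun u n => (8 / κ - 1) * mart κ (frz d0 le δ u (inc W δ) n) * (frz d0 le δ u (inc W δ) n).x /
      rho2 (frz d0 le δ u (inc W δ) n)) (by
      intro u hu n hn hl
      obtain ⟨-, u1, u2⟩ := hQ u hu
      have hI := frz_FI (ξ := inc W δ) hd hδ.le d2 hle u1 u2 n
      have hy := FI.ymin_le hd hI
      have e := (frz_act hl.1).2 n n.le_succ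
      have hn' : (n : ℝ) * δ ≤ T :=
        (mul_le_mul_of_nonneg_right (Nat.cast_le.2 hn.le) hδ.le).trans hN
      obtain ⟨m1, m2⟩ := hE δ hδ d1 u (show 0 < u.im by linarith) n hn' (Or.inr (e ▸ hy))
      have m3 := m2 n le_rfl
      rw [← e] at m3
      obtain ⟨-, l1, l2⟩ := hl
      have c1 := min_le_left (ymin d0 le / 10) (1 / 2)
      have c2 := min_le_right (ymin d0 le / 10) (1 / 2)
      refine ⟨by simpa only [Nat.cast_succ] using m1, fun t ht => ?_, fun t ht => ?_,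
        fun t ht => ?_⟩
      all_goals
        simp only [Nat.cast_succ] at ht
        obtain ⟨k1, k2, k3⟩ := m3 t ht
      · refine (qv_mart hκ hκ4 hI.1 l1).trans ?_
        have := qv_cmp hI.1 (c1.trans (by linarith)) k1 (by rw [zz_im]; exact k2)
        calc _ ≤ (8 / κ - 1) * (2 * Real.exp ((κ / 8 - 1) * la)) * (3 * pk (zz W g t u)) :=
              mul_le_mul_of_nonneg_left this (by positivity)
          _ = _ := by ring
      · linarith [(abs_le.1 k3).2]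
      · linarith [(abs_le.1 k3).1])
  have e1 : ∀ n : ℕ, ((n + 1 : ℕ) : ℝ) * δ - n * δ = δ := fun n => by push_cast; ring
  simp only [e1] at key
  refine key.trans (le_of_eq ?_)
  have e2 : Real.exp (κ / 4 * la) = Real.exp ((κ / 8 - 1) * la) ^ 2 * Real.exp la ^ 2 := by
    rw [← mul_pow, ← Real.exp_add, ← Real.exp_nat_mul]
    congr 1
    push_cast
    ring
  rw [e2]
  ring

end Vale.Agent.P164
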