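import Vale.Agent.P164.KDef
import Vale.Agent.P164.KCarl
import Vale.Agent.P164.QV

namespace Vale.Agent.P164

open Set

theorem kcar_low {p : St} (hy : 0 < p.y) {z : ℂ} {e r : ℝ} (he : e ≤ p.y / 10)
    (h1 : |p.x - z.re| ≤ e) (h2 : |p.y - z.im| ≤ e) (hr : r ≤ 4 * rho2 p) : √r / 4 ≤ ‖z‖ := by
  obtain ⟨a1, a2⟩ := abs_le.1 h1
  obtain ⟨b1, b2⟩ := abs_le.1 h2
  have e2 : e ^ 2 ≤ p.y ^ 2 / 100 := by nlinarith
  have c1 : (p.x - z.re) ^ 2 ≤ e ^ 2 := sq_le_sq' a1 a2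
  have c2 : (p.y - z.im) ^ 2 ≤ e ^ 2 := sq_le_sq' b1 b2
  have n1 : rho2 p ≤ 4 * ‖z‖ ^ 2 := by
    rw [Complex.sq_norm, Complex.normSq_apply]
    unfold rho2
    nlinarith [sq_nonneg (p.x - 2 * z.re), sq_nonneg (p.y - 2 * z.im), sq_nonneg z.re,
      sq_nonneg z.im, sq_nonneg p.y]
  rw [div_le_iff₀ (by norm_num), Real.sqrt_le_left (by positivity)]
  linarith

theorem kcar_smq (W : ℝ → ℝ) (g : ℝ → ℂ → ℂ) (t : ℝ) (u v : ℂ) :
    smq (zz W g t u) (zz W g t v) = smq (g t u) (g t v) := by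
  simp only [smq, zz, map_sub, Complex.conj_ofReal, Complex.sub_im, Complex.ofReal_im, sub_zero,
    sub_sub_sub_cancel_right]

open Classical in
theorem kcar_abs {W : ℝ → ℝ} {D : ℝ → Set ℂ} {g : ℝ → ℂ → ℂ} (h : Chain W D g) {t : ℝ}
    (ht : 0 ≤ t) {C s la d0 le e : ℝ} (hC : 0 < C) (hs : 0 < s) (he : e ≤ 1 / 2)
    (hG : ∀ f : ℂ → ℂ, Uv f → ∀ A : Finset ℂ, (∀ w ∈ A, w ∈ uhp ∧ IsLat s (f w) ∧
      Real.exp la / 4 ≤ w.im * ‖deriv f w‖ ∧ w.im * ‖deriv f w‖ ≤ 2 * Real.exp la) → ∀ z ∈ uhp,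
      z.im * ‖deriv f z‖ ≤ 2 * Real.exp la → s ^ 2 * ∑ w ∈ A, smq z w ≤ C * Real.exp la ^ 2)
    (Q : Finset ℂ) (hQ : ∀ u ∈ Q, IsLat s u) (P : ℂ → St)
    (hP : ∀ u ∈ Q, lv d0 le la (P u) → u ∈ D t ∧ 0 < (P u).y ∧ e ≤ (P u).y / 10 ∧
      |(P u).x - (zz W g t u).re| ≤ e ∧ |(P u).y - (g t u).im| ≤ e ∧
      |(P u).l - Real.log (ups g t u)| ≤ e) :
    Car d0 le la (768 * C * Real.exp la ^ 2 / s ^ 2) Q P := by
  intro v hv hlv
  set A := Q.filter fun u => lv d0 le la (P u) with hA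
  have hD : ∀ u ∈ A, u ∈ D t := fun u hu =>
    (hP u (Finset.mem_filter.1 hu).1 (Finset.mem_filter.1 hu).2).1
  have hU : ∀ u ∈ A, Real.exp la / 4 ≤ ups g t u ∧ ups g t u ≤ 2 * Real.exp la := by
    intro u hu
    obtain ⟨hu1, hu2⟩ := Finset.mem_filter.1 hu
    have k3 := abs_le.1 (hP u hu1 hu2).2.2.2.2.2
    obtain ⟨-, l1, l2⟩ := hu2
    exact ⟨qv_lo h ht (hD u hu) (by linarith [k3.2]), qv_hi h ht (hD u hu) (by linarith [k3.1])⟩
  have hM : ∀ i ∈ A, ∑ l ∈ A, smq (zz W g t i) (zz W g t l) ≤ C * Real.exp la ^ 2 / s ^ 2 := by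
    intro i hi
    simp only [kcar_smq]
    rw [le_div_iff₀' (by positivity), ← Finset.sum_image (g := g t) (f := fun w => smq (g t i) w)
      fun v hv w hw e => (h.bij _ ht).injOn (hD v hv) (hD w hw) e]
    refine hG _ (h.iv_uv ht) _ (fun w hw => ?_) _ (h.im_pos ht (hD i hi)) ?_
    · obtain ⟨u, hu, rfl⟩ := Finset.mem_image.1 hw
      rw [h.iv_g ht (hD u hu), ← h.ups_eq ht (hD u hu)]
      exact ⟨h.im_pos ht (hD u hu), hQ u (Finset.mem_filter.1 hu).1, hU u hu⟩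
    · rw [← h.ups_eq ht (hD i hi)]
      exact (hU i hi).2
  have r0 : 0 < √(rho2 (P v)) := Real.sqrt_pos.2 (rho2_pos (hP v hv hlv).2.1)
  have hz : ∀ i ∈ A, zz W g t i ∈ uhp := fun i hi => by
    show 0 < (zz W g t i).im
    rw [zz_im]
    exact h.im_pos ht (hD i hi)
  have key := carl2 A (zz W g t) hz (by positivity) hM (R := √(rho2 (P v)) / 4) (by positivity)
  calc _ ≤ ∑ u ∈ Q, if lv d0 le la (P u) then
        3 * (if √(rho2 (P v)) / 4 ≤ ‖zz W g t u‖ then pk (zz W g t u) else 0) else 0 := by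
        refine Finset.sum_le_sum fun u hu => ?_
        by_cases h1 : lv d0 le la (P u)
        · obtain ⟨k0, k1, k2, k3, k4, -⟩ := hP u hu h1
          rw [← zz_im (W := W)] at k4
          rw [if_pos h1]
          by_cases h2 : rho2 (P v) ≤ 4 * rho2 (P u)
          · rw [if_pos ⟨h1, h2⟩, if_pos (kcar_low k1 k2 k3 k4 h2)]
            exact qv_cmp k1 k2 k3 k4
          · rw [if_neg fun hh => h2 hh.2]
            split_ifs
            · exact mul_nonneg zero_le_three (qv_pk h k0 ⟨ht, le_rfl⟩)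
            · exact (mul_zero _).ge
        · rw [if_neg h1, if_neg fun hh => h1 hh.1]
    _ = 3 * ∑ u ∈ A, if √(rho2 (P v)) / 4 ≤ ‖zz W g t u‖ then pk (zz W g t u) else 0 := by
        rw [← Finset.sum_filter, Finset.mul_sum]
    _ ≤ 3 * (64 * (C * Real.exp la ^ 2 / s ^ 2) / (√(rho2 (P v)) / 4)) :=
        mul_le_mul_of_nonneg_left key zero_le_three
    _ = _ := by
        field_simp
        norm_num

/-- small increments and Carleson packing along the Euler scheme of a Loewner chain -/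
theorem car_ok : ∃ C9 : ℝ, 0 < C9 ∧ ∀ {W D g}, Chain W D g → W 0 = 0 →
    ∀ d0 le T : ℝ, 0 < d0 → le ≤ 0 → 0 < T → ∃ δ0 : ℝ, 0 < δ0 ∧ ∀ δ : ℝ, 0 < δ → δ ≤ δ0 →
    ∀ n : ℕ, n * δ ≤ T → |inc W δ n| ≤ min 1 (ymin d0 le) ∧
      ∀ (s la : ℝ) (Q : Finset ℂ), 0 < s → s ≤ Real.exp la →
        (∀ u ∈ Q, IsLat s u ∧ 1 ≤ u.im ∧ u.im ≤ 2) →
        Car d0 le la (C9 * Real.exp la ^ 2 / s ^ 2) Q fun u => frz d0 le δ u (inc W δ) n := by
  obtain ⟨C, hC, hG⟩ := green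
  refine ⟨768 * C, by positivity, ?_⟩
  intro W D g h hW d0 le T hd hle hT
  have y0 := ymin_pos d0 le
  obtain ⟨δ1, hδ1, hE⟩ := h.eu hW hT y0 (e := min (ymin d0 le / 10) (1 / 2)) (by positivity)
  obtain ⟨β, hβ, hU⟩ := Metric.uniformContinuousOn_iff.1
    ((isCompact_Icc (a := (0 : ℝ)) (b := T + 1)).uniformContinuousOn_of_continuous
      (h.cont.mono fun x hx => hx.1)) (min 1 (ymin d0 le)) (by positivity)
  refine ⟨min (min δ1 (ymin d0 le ^ 2 / 4)) (min 1 (β / 2)), by positivity,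
    fun δ hδ hδ0 n hn => ⟨?_, fun s la Q hs hsl hQ => ?_⟩⟩
  · have d3 : δ ≤ 1 := hδ0.trans ((min_le_right _ _).trans (min_le_left _ _))
    have d4 : δ ≤ β / 2 := hδ0.trans ((min_le_right _ _).trans (min_le_right _ _))
    have n0 : 0 ≤ (n : ℝ) * δ := by positivity
    have := hU ((n + 1) * δ) ⟨by positivity, by linarith⟩ (n * δ) ⟨n0, by linarith⟩ (by
      rw [Real.dist_eq, show ((n : ℝ) + 1) * δ - n * δ = δ by ring, abs_of_pos hδ]
      linarith)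
    rw [Real.dist_eq] at this
    exact this.le
  have d1 : δ ≤ δ1 := hδ0.trans ((min_le_left _ _).trans (min_le_left _ _))
  have d2 : 4 * (δ / ymin d0 le ^ 2) ≤ 1 := by
    have := hδ0.trans ((min_le_left _ _).trans (min_le_right _ _))
    rw [← mul_div_assoc, div_le_one (by positivity)]
    linarith
  have n0 : 0 ≤ (n : ℝ) * δ := by positivity
  have n1 : (n : ℝ) * δ ≤ (n + 1) * δ := by linarith
  refine kcar_abs h n0 hC hs (min_le_right (ymin d0 le / 10) (1 / 2))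
    (fun f hf => hG f hf s _ hs hsl) Q (fun u hu => (hQ u hu).1) _ fun u hu hl => ?_
  obtain ⟨-, u1, u2⟩ := hQ u hu
  have hI := frz_FI (ξ := inc W δ) hd hδ.le d2 hle u1 u2 n
  have hy := FI.ymin_le hd hI
  have e := (frz_act hl.1).2 n n.le_succ
  obtain ⟨m1, m2⟩ := hE δ hδ d1 u (show 0 < u.im by linarith) n hn (Or.inr (e ▸ hy))
  have m3 := m2 n le_rfl _ ⟨le_rfl, n1⟩
  rw [← e] at m3
  exact ⟨h.anti _ _ n0 n1 m1, hI.1, (min_le_left _ _).trans (by linarith), m3⟩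

end Vale.Agent.P164
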