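import Vale.Agent.P164.KJet
import Vale.Agent.P164.QV

namespace Vale.Agent.P164

open Set

theorem kqv_mt {κ x0 e0 C0 : ℝ} {χ χ1 χ2 : ℝ → ℝ} (hκ4 : 4 < κ) (hκ8 : κ < 8)
    (hχ : Chi x0 e0 C0 χ χ1 χ2) {p : St} (hy : 0 < p.y) {la : ℝ} (lam : ℝ)
    (hl : la - Real.log 2 < p.l) :
    |mt κ χ lam p * cc χ1 (8 / κ - 1) lam p * p.x / rho2 p| ≤
      2 * Real.exp ((κ / 8 - 1) * la + C0 + (2 - 8 / κ) * lam) * (p.y / rho2 p) := by
  have hκ : 0 < κ := by linarith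
  have c0 : 0 ≤ 8 / κ - 1 := by
    rw [sub_nonneg, le_div_iff₀ hκ]; linarith
  have c1 : 8 / κ - 1 ≤ 1 := by
    rw [sub_le_iff_le_add, div_le_iff₀ hκ]; linarith
  have r0 := rho2_pos hy
  have m0 := famc_le (a := κ / 8 - 1) (lam := lam) hχ c0 c1 p
  have m1 : Real.exp ((κ / 8 - 1) * p.l + C0 + (1 - (8 / κ - 1)) * lam) ≤
      2 * Real.exp ((κ / 8 - 1) * la + C0 + (2 - 8 / κ) * lam) := by
    have e : ∀ x, 2 * Real.exp x = Real.exp (Real.log 2 + x) := fun x => by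
      rw [Real.exp_add, Real.exp_log two_pos]
    rw [e]
    refine Real.exp_le_exp.2 ?_
    nlinarith [Real.log_pos one_lt_two]
  obtain ⟨m2, m2'⟩ := cc_mem (lam := lam) hχ c1 p
  have m3 : sn p * |p.x| ≤ p.y := by
    have h1 : |p.x| ≤ √(rho2 p) := Real.abs_le_sqrt (by unfold rho2; nlinarith [sq_nonneg p.y])
    rw [sn_eq hy, div_mul_eq_mul_div, div_le_iff₀ (Real.sqrt_pos.2 r0)]
    exact mul_le_mul_of_nonneg_left h1 hy.le
  have m5 : 0 < mt κ χ lam p := famc_pos _ _ _ _ _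
  have m4 : mt κ χ lam p * cc χ1 (8 / κ - 1) lam p * |p.x| ≤
      2 * Real.exp ((κ / 8 - 1) * la + C0 + (2 - 8 / κ) * lam) * p.y :=
    calc _ ≤ mt κ χ lam p * |p.x| :=
          mul_le_mul_of_nonneg_right (mul_le_of_le_one_right m5.le m2') (abs_nonneg _)
      _ ≤ 2 * Real.exp ((κ / 8 - 1) * la + C0 + (2 - 8 / κ) * lam) * sn p * |p.x| :=
          mul_le_mul_of_nonneg_right (m0.trans (mul_le_mul_of_nonneg_right m1 (sn_pos p).le))
            (abs_nonneg _)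
      _ ≤ _ := by
          rw [mul_assoc]
          exact mul_le_mul_of_nonneg_left m3 (by positivity)
  rw [abs_div, abs_mul, abs_mul, abs_of_pos r0, abs_of_pos m5, abs_of_nonneg (c0.trans m2),
    ← mul_div_assoc]
  exact div_le_div_of_nonneg_right m4 r0.le

/-- deterministic bound for the quadratic variation of the modified mass -/
theorem qt_le {κ x0 e0 C0 : ℝ} {χ χ1 χ2 : ℝ → ℝ} (hκ4 : 4 < κ) (hκ8 : κ < 8)
    (hχ : Chi x0 e0 C0 χ χ1 χ2) : ∃ C9 : ℝ, 0 < C9 ∧ ∀ {W D g}, Chain W D g →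
    W 0 = 0 → ∀ d0 le T : ℝ, 0 < d0 → le ≤ 0 → 0 < T → ∃ δ0 : ℝ, 0 < δ0 ∧ ∀ δ : ℝ, 0 < δ → δ ≤ δ0 →
    ∀ N : ℕ, N * δ ≤ T → ∀ (s la lam : ℝ) (Q : Finset ℂ), 0 < s → s ≤ Real.exp la →
      (∀ u ∈ Q, IsLat s u ∧ 1 ≤ u.im ∧ u.im ≤ 2) →
      s ^ 2 * qt κ χ χ1 d0 le δ la lam Q (inc W δ) N ≤
        C9 * Q.card * Real.exp (κ / 4 * la + 2 * (2 - 8 / κ) * lam) := by
  obtain ⟨C, hC, hG⟩ := green
  refine ⟨360 * Real.exp C0 ^ 2 * C, by positivity, ?_⟩
  intro W D g h hW d0 le T hd hle hT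
  have y0 := ymin_pos d0 le
  obtain ⟨δ1, hδ1, hE⟩ := h.eu hW hT y0 (e := min (ymin d0 le / 10) (1 / 2)) (by positivity)
  refine ⟨min δ1 (ymin d0 le ^ 2 / 4), by positivity,
    fun δ hδ hδ0 N hN s la lam Q hs hsl hQ => ?_⟩
  have d1 : δ ≤ δ1 := hδ0.trans (min_le_left _ _)
  have d2 : 4 * (δ / ymin d0 le ^ 2) ≤ 1 := by
    have := hδ0.trans (min_le_right _ _)
    rw [← mul_div_assoc, div_le_one (by positivity)]
    linarith
  have key := qv_abs (tm := fun n => n * δ) (la := la)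
    (c := 6 * Real.exp ((κ / 8 - 1) * la + C0 + (2 - 8 / κ) * lam)) h
    (fun i j hij => mul_le_mul_of_nonneg_right (Nat.cast_le.2 hij) hδ.le) (fun n => by positivity)
    hC (fun f hf => hG f hf s _ hs hsl) Q (fun u hu => (hQ u hu).1) N
    (fun u n => lv d0 le la (frz d0 le δ u (inc W δ) n))
    (fun u n => mt κ χ lam (frz d0 le δ u (inc W δ) n) *
      cc χ1 (8 / κ - 1) lam (frz d0 le δ u (inc W δ) n) * (frz d0 le δ u (inc W δ) n).x /
      rho2 (frz d0 le δ u (inc W δ) n)) (by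
      intro u hu n hn hl
      obtain ⟨-, u1, u2⟩ := hQ u hu
      have hI := frz_FI (ξ := inc W δ) hd hδ.le d2 hle u1 u2 n
      have hy := FI.ymin_le hd hI
      have e := (frz_act hl.1).2 n n.le_succ
      have hn' : (n : ℝ) * δ ≤ T :=
        (mul_le_mul_of_nonneg_right (Nat.cast_le.2 hn.le) hδ.le).trans hN
      obtain ⟨m1, m2⟩ := hE δ hδ d1 u (show 0 < u.im by linarith) n hn' (Or.inr (e ▸ hy))
      have m3 := m2 n le_rfl
      rw [← e] at m3
      obtain ⟨-, l1, l2⟩ := hl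
      have c1 := min_le_left (ymin d0 le / 10) (1 / 2)
      have c2 := min_le_right (ymin d0 le / 10) (1 / 2)
      refine ⟨by simpa only [Nat.cast_succ] using m1, fun t ht => ?_, fun t ht => ?_,
        fun t ht => ?_⟩
      all_goals
        simp only [Nat.cast_succ] at ht
        obtain ⟨k1, k2, k3⟩ := m3 t ht
      · refine (kqv_mt hκ4 hκ8 hχ hI.1 lam l1).trans ?_
        have := qv_cmp hI.1 (c1.trans (by linarith)) k1 (by rw [zz_im]; exact k2)
        calc _ ≤ 2 * Real.exp ((κ / 8 - 1) * la + C0 + (2 - 8 / κ) * lam) *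
              (3 * pk (zz W g t u)) := mul_le_mul_of_nonneg_left this (by positivity)
          _ = _ := by ring
      · linarith [(abs_le.1 k3).2]
      · linarith [(abs_le.1 k3).1])
  have e1 : ∀ n : ℕ, ((n + 1 : ℕ) : ℝ) * δ - n * δ = δ := fun n => by push_cast; ring
  simp only [e1] at key
  refine key.trans (le_of_eq ?_)
  have e2 : Real.exp ((κ / 8 - 1) * la + C0 + (2 - 8 / κ) * lam) ^ 2 * Real.exp la ^ 2 =
      Real.exp C0 ^ 2 * Real.exp (κ / 4 * la + 2 * (2 - 8 / κ) * lam) := by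
    rw [← mul_pow, ← Real.exp_add, ← Real.exp_nat_mul, ← Real.exp_nat_mul, ← Real.exp_add]
    congr 1
    push_cast
    ring
  linear_combination 360 * C * Q.card * e2

end Vale.Agent.P164
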