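import Vale.Agent.P164.LProb
import Vale.Agent.P164.Tail
import Vale.Agent.P164.QV
import Vale.Agent.P164.Gate
import Vale.Agent.P164.LCell
import Vale.Agent.P164.Gauge
import Vale.Agent.P164.LStageAux

namespace Vale.Agent.P164

open Set MeasureTheory

/-- lattice of stage `i` -/
noncomputable def lg (i : ℕ) : Finset ℂ := lat ((1 / 4) ^ i) 0 1 1 2

/-- weights of stage `i` with mesh `η ^ 2` -/
noncomputable def lw (κ d0 : ℝ) (i : ℕ) (η : ℝ) (ξ : ℕ → ℝ) (u : ℂ) : ℝ :=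
  ((1 / 4) ^ i) ^ 2 *
    mh κ d0 (Real.log ((1 / 4) ^ i)) (η ^ 2) ξ ⌊(4 / d0 ^ 4 + 1) / η ^ 2⌋₊ u

/-- counted weights -/
noncomputable def lx (κ d0 K : ℝ) (j0 i : ℕ) (η : ℝ) (ξ : ℕ → ℝ) (u : ℂ) : ℝ :=
  cw (lg i) (lw κ d0 i η ξ) (fun j => K * gau κ ((1 / 2) ^ j)) j0 i u

section aux

open Filter
open scoped Topology

theorem ls_pack {α β : Type} [MeasurableSpace β] {l : Filter α} {P : α → (β → ℝ) → Prop} {B : ℝ}
    (hB : 0 ≤ B) (h : ∀ᶠ η in l, ∃ Y : β → ℝ, (Measurable Y ∧ ∀ ξ, Y ξ ≤ B) ∧ P η Y) :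
    ∃ Y : α → β → ℝ, (∀ η, Measurable (Y η) ∧ ∀ ξ, Y η ξ ≤ B) ∧ ∀ᶠ η in l, P η (Y η) := by
  classical
  refine ⟨fun η => if h : ∃ Y : β → ℝ, (Measurable Y ∧ ∀ ξ, Y ξ ≤ B) ∧ P η Y then h.choose
    else fun _ => 0, fun η => ?_, h.mono fun η h => ?_⟩
  · beta_reduce
    split_ifs with h
    · exact h.choose_spec.1
    · exact ⟨measurable_const, fun _ => hB⟩
  · beta_reduce
    rw [dif_pos h]
    exact h.choose_spec.2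

theorem ls_sq {δ : ℝ} (h : 0 < δ) : ∀ᶠ η in 𝓝[>] (0 : ℝ), 0 < η ^ 2 ∧ η ^ 2 ≤ δ := by
  filter_upwards [Ioc_mem_nhdsGT h, Ioc_mem_nhdsGT one_pos] with η a b
  exact ⟨pow_pos a.1 2, by nlinarith [a.1, a.2, b.2]⟩

theorem ls_mem {i : ℕ} {u : ℂ} :
    u ∈ lg i ↔ IsLat ((1 / 4) ^ i) u ∧ 0 ≤ u.re ∧ u.re ≤ 1 ∧ 1 ≤ u.im ∧ u.im ≤ 2 :=
  mem_lat (by positivity)

theorem ls_card {i : ℕ} (hi : 1 ≤ i) : 1 / 16 ≤ ((lg i).card : ℝ) * ((1 / 4) ^ i) ^ 2 := by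
  have h1 : (1 / 4 : ℝ) ^ i ≤ (1 / 4) ^ 1 := pow_le_pow_of_le_one (by norm_num) (by norm_num) hi
  obtain ⟨S, h2, h3⟩ := card_ge_disc (s := (1 / 4) ^ i) (ρ := 1 / 2) (by positivity) (by linarith)
    ⟨1 / 2, 3 / 2⟩
  have h4 : S ⊆ lg i := fun z hz => by
    have a1 := abs_le.1 ((Complex.abs_re_le_norm _).trans (h2 z hz).2.le)
    have a2 := abs_le.1 ((Complex.abs_im_le_norm _).trans (h2 z hz).2.le)
    simp only [Complex.sub_re, Complex.sub_im] at a1 a2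
    exact ls_mem.2 ⟨(h2 z hz).1, by linarith, by linarith, by linarith, by linarith⟩
  have h5 : (S.card : ℝ) ≤ (lg i).card := Nat.cast_le.2 (Finset.card_le_card h4)
  linarith [mul_le_mul_of_nonneg_right h5 (sq_nonneg ((1 / 4 : ℝ) ^ i))]

theorem ls_sr {i j : ℕ} (h : j ≤ i) : (1 / 4 : ℝ) ^ i ≤ ((1 / 2) ^ j) ^ 2 := by
  rw [← pow_mul, mul_comm, pow_mul]
  exact (pow_le_pow_of_le_one (by norm_num) (by norm_num) h).trans_eq (by norm_num)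

theorem ls_Q {i j : ℕ} (h : j ≤ i) {e : ℤ × ℤ} (he : e ∈ (lg i).image (cidx ((1 / 2) ^ j) 0)) :
    LsQ ((1 / 4) ^ i) ((1 / 2) ^ j) ((lg i).filter fun v => cidx ((1 / 2) ^ j) 0 v = e) := by
  obtain ⟨u, hu, rfl⟩ := Finset.mem_image.1 he
  refine ⟨by positivity, (ls_sr h).trans (pow_le_of_le_one (by positivity)
    (pow_le_one₀ (by norm_num) (by norm_num)) two_ne_zero), ⟨u, Finset.mem_filter.2 ⟨hu, rfl⟩⟩,
    fun v hv => ?_, fun v hv w hw => cidx_close (by positivity)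
      ((Finset.mem_filter.1 hv).2.trans (Finset.mem_filter.1 hw).2.symm)⟩
  have h1 := ls_mem.1 (Finset.mem_filter.1 hv).1
  exact ⟨h1.1, h1.2.2.2⟩

theorem ls_loss {C : ℝ} (hC : 0 ≤ C) {j0 i : ℕ} (hj : 1 ≤ j0) {f : ℕ → ℤ × ℤ → ℝ}
    (hf : ∀ j ∈ Finset.Icc j0 i, ∀ e ∈ (lg i).image (cidx ((1 / 2) ^ j) 0),
      f j e ≤ C * ((1 / 2) ^ j) ^ 2 * (Real.log ((1 / 2) ^ j) ^ 2)⁻¹) :
    ∑ j ∈ Finset.Icc j0 i, ∑ e ∈ (lg i).image (cidx ((1 / 2) ^ j) 0), f j e ≤ 32 * C / j0 := by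
  obtain ⟨k, rfl⟩ : ∃ k, j0 = k + 1 := ⟨j0 - 1, by omega⟩
  have h1 := mul_le_mul_of_nonneg_left (sum_Ioo_inv_sq_le (α := ℝ) k (i + 1))
    (show 0 ≤ 16 * C by positivity)
  have e : Finset.Ioo k (i + 1) = Finset.Icc (k + 1) i := by
    ext j
    simp only [Finset.mem_Ioo, Finset.mem_Icc]
    omega
  rw [e, Finset.mul_sum] at h1
  refine le_trans (Finset.sum_le_sum fun j hj => ?_) (h1.trans_eq (by push_cast; ring))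
  have a1 := Finset.sum_le_card_nsmul _ _ _ (hf j hj)
  have a2 := card_cells (G := lg i) (fun u hu => (ls_mem.1 hu).2) j
  have a3 : (4 : ℝ) ^ j * ((1 / 2) ^ j) ^ 2 = 1 := by
    rw [← pow_mul, mul_comm j, pow_mul, ← mul_pow]
    norm_num
  have a4 : (0 : ℝ) < j := Nat.cast_pos.2 (lt_of_lt_of_le k.succ_pos (Finset.mem_Icc.1 hj).1)
  have a5 : (Real.log ((1 / 2) ^ j) ^ 2)⁻¹ ≤ 4 * ((j : ℝ) ^ 2)⁻¹ := by
    rw [Real.log_pow, one_div, Real.log_inv, mul_pow, neg_sq, mul_inv, mul_comm]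
    refine mul_le_mul_of_nonneg_right ?_ (by positivity)
    rw [inv_le_comm₀ (by positivity) (by norm_num)]
    nlinarith [Real.log_two_gt_d9]
  rw [nsmul_eq_mul] at a1
  have a6 := mul_le_mul_of_nonneg_right a2
    (show 0 ≤ C * ((1 / 2) ^ j) ^ 2 * (Real.log ((1 / 2) ^ j) ^ 2)⁻¹ by positivity)
  have a7 : 4 * 4 ^ j * (C * ((1 / 2) ^ j) ^ 2 * (Real.log ((1 / 2) ^ j) ^ 2)⁻¹) =
      4 * C * (Real.log ((1 / 2) ^ j) ^ 2)⁻¹ * (4 ^ j * ((1 / 2) ^ j) ^ 2) := by ring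
  rw [a7, a3] at a6
  linarith [mul_le_mul_of_nonneg_left a5 hC]

theorem ls_j0 {C7 C c : ℝ} (hc : 0 < c) : ∃ j0 : ℕ, ∀ j ≥ j0, (5 ≤ j ∧ 32 * C / j ≤ c / 32) ∧
    (1 / 2 : ℝ) ^ j ≤ Real.exp (-Real.exp 1) ∧ C7 * (1 / 2) ^ j ≤ 1 := by
  have h1 := tendsto_pow_atTop_nhds_zero_of_lt_one (r := (1 / 2 : ℝ)) (by norm_num) (by norm_num)
  have h2 := h1.const_mul C7
  rw [mul_zero] at h2
  exact eventually_atTop.1 (((eventually_ge_atTop 5).and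
    ((tendsto_const_div_atTop_nhds_zero_nat (32 * C)).eventually_le_const (by positivity))).and
    ((h1.eventually_le_const (Real.exp_pos _)).and (h2.eventually_le_const one_pos)))

end aux

/-- the conclusion of the stage lemma -/
def LSt (κ : ℝ) : Prop := ∃ (d0 K c1 : ℝ) (j0 : ℕ), 0 < d0 ∧ 0 < K ∧
    0 < c1 ∧ 5 ≤ j0 ∧ ∀ i, j0 ≤ i → ∃ (B : ℝ) (Y : ℝ → (ℕ → ℝ) → ℝ),
      (∀ η, Measurable (Y η) ∧ ∀ ξ, Y η ξ ≤ B) ∧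
      (∃ η0 : ℝ, 0 < η0 ∧ ∀ η, 0 < η → η ≤ η0 →
        Integrable (Y η) (GG κ η) ∧ c1 ≤ ∫ ξ, Y η ξ ∂GG κ η) ∧
      ∀ {W D g}, Chain W D g → W 0 = 0 → ∃ η1 : ℝ, 0 < η1 ∧ ∀ η, 0 < η → η ≤ η1 →
        Y η (inc W (η ^ 2)) ≤ ∑ u ∈ lg i, lx κ d0 K j0 i η (inc W (η ^ 2)) u

theorem lstage_gen {κ K C C7 : ℝ} (hκ : 0 < κ) (hκ8 : κ < 8) (hK : 0 < K) (hC : 0 ≤ C)
    (G : ℝ → ℝ → ℝ → ℝ → (ℕ → ℝ) → Prop)
    (hcell : ∀ (d0 T s r : ℝ) (Q : Finset ℂ), 0 < d0 → LsQ s r Q → s ≤ r ^ 2 →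
      r ≤ Real.exp (-Real.exp 1) → C7 * r ≤ 1 → ∀ᶠ η in nhdsWithin (0 : ℝ) (Ioi 0), ∀ N : ℕ,
      N * η ^ 2 ≤ T → ∃ b : (ℕ → ℝ) → ℝ, Measurable b ∧ (∀ ξ, 0 ≤ b ξ) ∧ Integrable b (GG κ η) ∧
        ∫ ξ, b ξ ∂GG κ η ≤ C * r ^ 2 * (Real.log r ^ 2)⁻¹ ∧
        ∀ ξ, G d0 (Real.log s) T (η ^ 2) ξ →
          K * gau κ r ≤ ∑ u ∈ Q, s ^ 2 * mh κ d0 (Real.log s) (η ^ 2) ξ N u →
          ∑ u ∈ Q, s ^ 2 * mh κ d0 (Real.log s) (η ^ 2) ξ N u ≤ b ξ)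
    (hG : ∀ {W D g}, Chain W D g → W 0 = 0 → ∀ d0 le T : ℝ, 0 < d0 → le ≤ 0 → 0 < T →
      ∃ δ0 : ℝ, 0 < δ0 ∧ ∀ δ : ℝ, 0 < δ → δ ≤ δ0 → G d0 le T δ (inc W δ)) : LSt κ := by
  obtain ⟨d0, c, hd, -, hc, h1⟩ := lp1 hκ hκ8
  obtain ⟨j0, hj0⟩ := ls_j0 (C7 := C7) (C := C) hc
  have j5 := (hj0 j0 le_rfl).1
  refine ⟨d0, K, c / 32, j0, hd, hK, by positivity, j5.1, fun i hi => ?_⟩
  have hle : Real.log ((1 / 4) ^ i) ≤ 0 :=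
    Real.log_nonpos (by positivity) (pow_le_one₀ (by norm_num) (by norm_num))
  have hT : 0 < 4 / d0 ^ 4 + 1 := by positivity
  have hy := ymin_pos d0 (Real.log ((1 / 4) ^ i))
  obtain ⟨M, hM⟩ := fam_bd hy (Real.log ((1 / 4) ^ i) - 1) (κ / 8 - 1) (c := 8 / κ - 1) (by
    rw [sub_nonneg, le_div_iff₀ hκ]
    linarith)
  have k1 := (Filter.eventually_all_finset (Finset.Icc j0 i)).2 fun j hj =>
    (Filter.eventually_all_finset ((lg i).image (cidx ((1 / 2) ^ j) 0))).2 fun e he =>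
      hcell d0 (4 / d0 ^ 4 + 1) _ _ _ hd (ls_Q (Finset.mem_Icc.1 hj).2 he)
        (ls_sr (Finset.mem_Icc.1 hj).2) (hj0 j (Finset.mem_Icc.1 hj).1).2.1
        (hj0 j (Finset.mem_Icc.1 hj).1).2.2
  obtain ⟨Y, y1, y2⟩ := ls_pack (l := nhdsWithin 0 (Ioi 0))
    (B := ∑ _u ∈ lg i, ((1 / 4) ^ i) ^ 2 * |M|)
    (P := fun η Y => (Integrable Y (GG κ η) ∧ c / 32 ≤ ∫ ξ, Y ξ ∂GG κ η) ∧
      ∀ ξ, G d0 (Real.log ((1 / 4) ^ i)) (4 / d0 ^ 4 + 1) (η ^ 2) ξ →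
        Y ξ ≤ ∑ u ∈ lg i, lx κ d0 K j0 i η ξ u)
    (Finset.sum_nonneg fun _ _ => by positivity) (by
    filter_upwards [k1, ls_ev.1 (h1 _ (4 / d0 ^ 4 + 1) hle), Ioc_mem_nhdsGT (half_pos hy),
      ls_sq one_pos] with η a1 a2 a3 a4
    have n1 : (⌊(4 / d0 ^ 4 + 1) / η ^ 2⌋₊ : ℝ) * η ^ 2 ≤ 4 / d0 ^ 4 + 1 :=
      (le_div_iff₀ a4.1).1 (Nat.floor_le (div_pos hT a4.1).le)
    have n2 : 4 / d0 ^ 4 ≤ (⌊(4 / d0 ^ 4 + 1) / η ^ 2⌋₊ : ℝ) * η ^ 2 := by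
      have := (div_lt_iff₀ a4.1).1 (Nat.lt_floor_add_one ((4 / d0 ^ 4 + 1) / η ^ 2))
      linarith [a4.2]
    choose! b b1 b2 b3 b4 b5 using fun j hj e he => a1 j hj e he _ n1
    have hδ1 : 4 * (η ^ 2 / ymin d0 (Real.log ((1 / 4) ^ i)) ^ 2) ≤ 1 := by
      rw [← mul_div_assoc, div_le_one (by positivity)]
      nlinarith [a3.1, a3.2]
    have c1 := fun u (hu : u ∈ lg i) => a2 _ n2 n1 u
      (abs_le.2 ⟨by linarith [(ls_mem.1 hu).2.1], (ls_mem.1 hu).2.2.1⟩)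
      (ls_mem.1 hu).2.2.2.1 (ls_mem.1 hu).2.2.2.2
    have i1 : ∀ u ∈ lg i, Integrable (fun ξ => lw κ d0 i η ξ u) (GG κ η) := fun u hu =>
      (c1 u hu).1.const_mul _
    have i2 : ∀ j ∈ Finset.Icc j0 i, Integrable
        (fun ξ => ∑ e ∈ (lg i).image (cidx ((1 / 2) ^ j) 0), b j e ξ) (GG κ η) := fun j hj =>
      integrable_finsetSum _ (b3 j hj)
    refine ⟨fun ξ => ∑ u ∈ lg i, lw κ d0 i η ξ u - ∑ j ∈ Finset.Icc j0 i,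
      ∑ e ∈ (lg i).image (cidx ((1 / 2) ^ j) 0), b j e ξ,
      ⟨(Finset.measurable_sum _ fun u _ => (measurable_mh _ _ _ _ _ _).const_mul _).sub
        (Finset.measurable_sum _ fun j hj => Finset.measurable_sum _ (b1 j hj)), fun ξ => ?_⟩,
      ⟨(integrable_finsetSum _ i1).sub (integrable_finsetSum _ i2), ?_⟩, fun ξ hG => ?_⟩
    · refine (sub_le_self _ (Finset.sum_nonneg fun j hj => Finset.sum_nonneg fun e he =>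
        b2 j hj e he ξ)).trans (Finset.sum_le_sum fun u hu => ?_)
      refine mul_le_mul_of_nonneg_left ?_ (sq_nonneg _)
      rw [mh]
      split_ifs
      · exact (hM _ (FI.reg hd (frz_FI hd (sq_nonneg η) hδ1 hle (ls_mem.1 hu).2.2.2.1
          (ls_mem.1 hu).2.2.2.2 _))).1.trans (le_abs_self M)
      · exact abs_nonneg M
    · rw [integral_sub (integrable_finsetSum _ i1) (integrable_finsetSum _ i2),
        integral_finsetSum _ i1, integral_finsetSum _ i2,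
        Finset.sum_congr rfl fun j hj => integral_finsetSum _ (b3 j hj)]
      have d1 := ls_loss hC (le_trans (by norm_num) j5.1) b4
      have d2 := Finset.card_nsmul_le_sum (lg i) (fun u => ∫ ξ, lw κ d0 i η ξ u ∂GG κ η)
        (((1 / 4) ^ i) ^ 2 * c) fun u hu => by
          simp only [lw, integral_const_mul]
          exact mul_le_mul_of_nonneg_left (c1 u hu).2 (sq_nonneg _)
      have d3 := mul_le_mul_of_nonneg_right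
        (ls_card (i := i) (le_trans (le_trans (by norm_num) j5.1) hi)) hc.le
      rw [nsmul_eq_mul] at d2
      linarith [j5.2]
    · exact cw_loss (fun u => mul_nonneg (sq_nonneg _) (mh_nonneg _)) (fun j e => b j e ξ)
        fun j hj u hu => ⟨b2 j hj _ (Finset.mem_image_of_mem _ hu) ξ,
          b5 j hj _ (Finset.mem_image_of_mem _ hu) ξ hG⟩)
  refine ⟨_, Y, y1, ls_ev.2 (y2.mono fun η h => h.1), fun h h0 => ls_ev.2 ?_⟩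
  obtain ⟨δ7, p7, q7⟩ := hG h h0 d0 _ _ hd hle hT
  filter_upwards [y2, ls_sq p7] with η a1 a2
  exact a1.2 _ (q7 _ a2.1 a2.2)

theorem lstage {κ : ℝ} (hκ : 0 < κ) (hκ4 : κ ≤ 4) : LSt κ := by
  have hκ8 : κ < 8 := by linarith
  obtain ⟨C9, hC9, h9⟩ := qv_le hκ hκ4
  obtain ⟨C7, hC7, h7⟩ := gate
  obtain ⟨K, C, hK, hC, hcell⟩ := ls_cell hκ hκ8 hC7 hC9
  refine lstage_gen hκ hκ8 hK hC (LsG κ C7 C9) hcell fun h h0 d0 le T hd hle hT => ?_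
  obtain ⟨δ7, p7, q7⟩ := h7 h h0 d0 _ _ hd hle hT
  obtain ⟨δ9, p9, q9⟩ := h9 h h0 d0 _ _ hd hle hT
  exact ⟨min δ7 δ9, lt_min p7 p9, fun δ a1 a2 =>
    ⟨q7 _ a1 (a2.trans (min_le_left _ _)), q9 _ a1 (a2.trans (min_le_right _ _))⟩⟩

end Vale.Agent.P164
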