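import Vale.Agent.P164.KCell
import Vale.Agent.P164.KCar
import Vale.Agent.P164.KQV
import Vale.Agent.P164.LStage

namespace Vale.Agent.P164

theorem lstage8 {κ : ℝ} (hκ : 0 < κ) (hκ8 : κ < 8) : LSt κ := by
  rcases le_or_gt κ 4 with hκ4 | hκ4
  · exact lstage hκ hκ4
  obtain ⟨C0, χ, χ1, χ2, hχ⟩ := chi_ex le_rfl one_pos
  obtain ⟨C9, hC9, h9⟩ := qt_le hκ4 hκ8 hχ
  obtain ⟨C6, hC6, h6⟩ := car_ok
  obtain ⟨C7, hC7, h7⟩ := gate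
  obtain ⟨K, C, hK, hC, hcell⟩ := ks_cell hκ4 hκ8 hχ hC7 (add_pos hC9 hC6)
  refine lstage_gen hκ hκ8 hK hC (KsG κ χ χ1 C7 (C9 + C6)) hcell
    fun h h0 d0 le T hd hle hT => ?_
  obtain ⟨δ7, p7, q7⟩ := h7 h h0 d0 _ _ hd hle hT
  obtain ⟨δ9, p9, q9⟩ := h9 h h0 d0 _ _ hd hle hT
  obtain ⟨δ6, p6, q6⟩ := h6 h h0 d0 _ _ hd hle hT
  refine ⟨min δ7 (min δ9 δ6), by positivity, fun δ a1 a2 => ?_⟩
  simp only [le_min_iff] at a2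
  refine ⟨q7 _ a1 a2.1, fun n hn => ⟨(q6 _ a1 a2.2.2 n hn).1, fun s la Q b1 b2 b3 v hv b4 =>
    ((q6 _ a1 a2.2.2 n hn).2 s la Q b1 b2 b3 v hv b4).trans ?_⟩, fun N hN s la lam Q b1 b2 b3 =>
    (q9 _ a1 a2.2.1 N hN s la lam Q b1 b2 b3).trans ?_⟩
  · gcongr
    linarith
  · gcongr
    linarith

end Vale.Agent.P164
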