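import Vale.Agent.P164.Flow

namespace Vale.Agent.P164

open Set

variable {W : ℝ → ℝ} {D : ℝ → Set ℂ} {g : ℝ → ℂ → ℂ}

theorem trans_aff {a b : ℝ} (ha : 0 < a) {w : ℂ} (hw : w ∈ uhp) : (a : ℂ) * w + b ∈ uhp := by
  have h : 0 < w.im := hw
  change 0 < ((a : ℂ) * w + b).im
  simp only [Complex.add_im, Complex.im_ofReal_mul, Complex.ofReal_im, add_zero]
  positivity

theorem trans_aff' {a b : ℝ} (ha : 0 < a) {w : ℂ} (hw : w ∈ uhp) : (w - b) / (a : ℂ) ∈ uhp := by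
  have h : 0 < w.im := hw
  change 0 < ((w - b) / (a : ℂ)).im
  simp only [Complex.div_ofReal_im, Complex.sub_im, Complex.ofReal_im, sub_zero]
  positivity

/-- mapping out the hull at time `s0` and rescaling -/
theorem Chain.shift (h : Chain W D g) {s0 a : ℝ} (hs : 0 ≤ s0) (ha : 0 < a) :
    Chain (fun t => (W (s0 + a ^ 2 * t) - W s0) / a)
      (fun t => {w | w ∈ uhp ∧ iv D g s0 (a * w + W s0) ∈ D (s0 + a ^ 2 * t)})
      (fun t w => (g (s0 + a ^ 2 * t) (iv D g s0 (a * w + W s0)) - W s0) / a) := by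
  have ha' : (a : ℂ) ≠ 0 := by exact_mod_cast ha.ne'
  have h0 : ∀ t, 0 ≤ t → s0 ≤ s0 + a ^ 2 * t := fun t ht => le_add_of_nonneg_right (by positivity)
  have h1 : ∀ t, 0 ≤ t → 0 ≤ s0 + a ^ 2 * t := fun t ht => hs.trans (h0 t ht)
  have h2 : ∀ s t, s ≤ t → s0 + a ^ 2 * s ≤ s0 + a ^ 2 * t := fun s t hst => by gcongr
  have hd : DifferentiableOn ℂ (fun w : ℂ => iv D g s0 (a * w + W s0)) uhp :=
    (h.iv_uv hs).1.comp (by fun_prop) fun w hw => trans_aff ha hw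
  refine ⟨?_, fun t ht => ?_, fun t _ w hw => hw.1,
    fun s t hs' hst w hw => ⟨hw.1, h.anti _ _ (h1 s hs') (h2 s t hst) hw.2⟩, fun t ht => ?_,
    fun t ht => ⟨fun w hw => ?_, fun w hw w' hw' e => ?_, fun v hv => ?_⟩, fun t _ z hz => ?_,
    fun t ht z hz s hst => ?_⟩
  · exact ((h.cont.comp (by fun_prop) fun t ht => h1 t ht).sub continuousOn_const).div_const a
  · exact hd.continuousOn.isOpen_inter_preimage isOpen_uhp (h.op _ (h1 t ht))
  · exact (((h.diff _ (h1 t ht)).comp (hd.mono fun w hw => hw.1) fun w hw => hw.2).sub_const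
      _).div_const _
  · exact trans_aff' ha ((h.bij _ (h1 t ht)).mapsTo hw.2)
  · have e1 := sub_left_injective ((div_left_inj' ha').1 e)
    have e2 := (h.iv_uv hs).2 (trans_aff ha hw.1) (trans_aff ha hw'.1)
      ((h.bij _ (h1 t ht)).injOn hw.2 hw'.2 e1)
    exact mul_left_cancel₀ ha' (add_right_cancel e2)
  · obtain ⟨ζ, hζ, e⟩ := (h.bij _ (h1 t ht)).surjOn (trans_aff (b := W s0) ha hv)
    have hζ0 := h.anti _ _ hs (h0 t ht) hζ
    have e1 : iv D g s0 (a * ((g s0 ζ - W s0) / a) + W s0) = ζ := by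
      rw [mul_div_cancel₀ _ ha', sub_add_cancel, h.iv_g hs hζ0]
    refine ⟨(g s0 ζ - W s0) / a, ⟨trans_aff' ha ((h.bij _ hs).mapsTo hζ0), by rwa [e1]⟩, ?_⟩
    simp only [e1, e]
    field_simp
    ring
  · simp only [mul_zero, add_zero, (h.iv_mem hs (trans_aff ha hz.1)).2]
    field_simp
    ring
  · have hm : s0 + a ^ 2 * s ∈ Icc 0 (s0 + a ^ 2 * t) := ⟨h1 s hst.1, h2 s t hst.2⟩
    have hn := h.flow_ne hz.2 hm
    have d1 : HasDerivWithinAt (fun r : ℝ => s0 + a ^ 2 * r) (a ^ 2) (Icc 0 t) s := by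
      simpa using (((hasDerivAt_id s).const_mul (a ^ 2)).const_add s0).hasDerivWithinAt
    have hM : MapsTo (fun r : ℝ => s0 + a ^ 2 * r) (Icc 0 t) (Icc 0 (s0 + a ^ 2 * t)) :=
      fun r hr => ⟨h1 r hr.1, h2 r t hr.2⟩
    have d2 := (h.ode _ (h1 t ht) _ hz.2 _ hm).scomp s d1 hM
    refine ((d2.sub_const (W s0 : ℂ)).div_const (a : ℂ)).congr_deriv ?_
    unfold zz at hn
    rw [Complex.real_smul]
    push_cast
    rw [← sub_div, sub_sub_sub_cancel_right]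
    field_simp

end Vale.Agent.P164
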