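import Vale.Agent.P164.LCore
import Vale.Agent.P164.Trans
import Vale.Agent.P164.Curve

namespace Vale.Agent.P164

open Set MeasureTheory ProbabilityTheory
open scoped NNReal ENNReal

theorem Chain.lb_congr {W W' : ℝ → ℝ} {D : ℝ → Set ℂ} {g : ℝ → ℂ → ℂ} (h : Chain W D g)
    (e : ∀ t, 0 ≤ t → W' t = W t) : Chain W' D g :=
  ⟨h.cont.congr fun t ht => e t ht, h.op, h.sub, h.anti, h.diff, h.bij, h.init,
    fun t ht z hz s hs => by rw [e s hs.1]; exact h.ode t ht z hz s hs⟩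

theorem lb_box : IsCompact boxp := by
  have e : boxp = Icc (-1 : ℝ) 2 ×ℂ Icc (1 / 2 : ℝ) 3 := by
    ext z
    simp only [boxp, mem_ofPred_eq, Complex.mem_reProdIm, mem_Icc, and_assoc]
  rw [e]
  exact isCompact_Icc.reProdIm isCompact_Icc

theorem lb_det {κ : ℝ} (hκ : 0 < κ) (hκ8 : κ < 8) {W : ℝ → ℝ} {γ : ℝ → ℂ} {g : ℝ → ℂ → ℂ}
    (hγ : ContinuousOn γ (Ici 0)) (h : Chain W (dom γ) g) {s0 a T : ℝ} (hs : 0 ≤ s0) (ha : 0 < a)
    (H : ∀ K : Set ℂ, IsCompact K → (∀ t ∈ Icc (0 : ℝ) T, ∀ w ∈ boxp,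
      w ∈ closure {w | w ∈ uhp ∧ iv (dom γ) g s0 (a * w + W s0) ∈ dom γ (s0 + a ^ 2 * t)} →
      w ∉ {w | w ∈ uhp ∧ iv (dom γ) g s0 (a * w + W s0) ∈ dom γ (s0 + a ^ 2 * t)} → w ∈ K) →
      0 < hm (gau κ) K) : 0 < hm (gau κ) (γ '' Icc s0 (s0 + a ^ 2 * T)) := by
  have hac : (a : ℂ) ≠ 0 := Complex.ofReal_ne_zero.2 ha.ne'
  set F : ℂ → ℂ := fun w => iv (dom γ) g s0 (a * w + W s0) with hF
  have bu : ∀ w ∈ boxp, w ∈ uhp := fun w hw => lt_of_lt_of_le one_half_pos hw.2.2.1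
  have au : ∀ w ∈ uhp, (a : ℂ) * w + W s0 ∈ uhp := fun w hw => by
    have : 0 < a * w.im := mul_pos ha hw
    simpa [uhp] using this
  have Fm := fun w hw => h.iv_mem hs (au w hw)
  have Fc : ∀ w ∈ uhp, ContinuousAt F w := fun w hw =>
    ContinuousAt.comp (f := fun w : ℂ => (a : ℂ) * w + W s0)
      ((h.iv_uv hs).1.continuousOn.continuousAt (isOpen_uhp.mem_nhds (au w hw))) (by fun_prop)
  have Fb : ContinuousOn F boxp := fun w hw => (Fc w (bu w hw)).continuousWithinAt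
  have cl : IsClosed (γ '' Icc s0 (s0 + a ^ 2 * T)) :=
    (isCompact_Icc.image_of_continuousOn (hγ.mono fun r hr => hs.trans hr.1)).isClosed
  have hK := H (boxp ∩ F ⁻¹' (γ '' Icc s0 (s0 + a ^ 2 * T)))
    (lb_box.of_isClosed_subset (Fb.preimage_isClosed_of_isClosed lb_box.isClosed cl)
      inter_subset_left) fun t ht w hw h1 h2 => by
      have m := (Fm w (bu w hw)).1
      have m2 := mem_closure_image (Fc w (bu w hw)) h1
      obtain ⟨r, hr, e⟩ := frontier_dom hγ (t := s0 + a ^ 2 * t) (w := F w) m.1.1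
        (closure_mono (by rintro _ ⟨x, hx, rfl⟩; exact hx.2) m2)
        fun h3 => h2 ⟨bu w hw, h3⟩
      refine ⟨hw, r, ⟨not_lt.1 fun h4 => m.1.2 ⟨r, ⟨hr.1, h4.le⟩, e⟩, hr.2.trans ?_⟩, e⟩
      have := mul_le_mul_of_nonneg_left ht.2 (sq_nonneg a)
      linarith
  have hd : DifferentiableOn ℂ (fun z => (g s0 z - W s0) / a) (dom γ s0) :=
    ((h.diff s0 hs).sub_const _).div_const _
  obtain ⟨L, hL⟩ := LocallyLipschitzOn.exists_lipschitzOnWith_of_compact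
    (f := fun z => (g s0 z - W s0) / a) (lb_box.image_of_continuousOn Fb) (by
      rintro _ ⟨w, hw, rfl⟩
      obtain ⟨K, t, h1, h2⟩ := ((hd.contDiffOn (n := 1) (h.op s0 hs)).contDiffAt
        ((h.op s0 hs).mem_nhds (Fm w (bu w hw)).1)).exists_lipschitzOnWith
      exact ⟨K, t, mem_nhdsWithin_of_mem_nhds h1, h2⟩)
  have hL1 : (0 : ℝ) < L + 1 := by positivity
  have h5 := hm_image_le (E := F '' boxp ∩ γ '' Icc s0 (s0 + a ^ 2 * T)) (gau_gauge hκ hκ8)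
    (f := fun z => (g s0 z - W s0) / a) hL1 (by positivity) (fun x hx y hy => by
      have := hL.norm_sub_le hx.1 hy.1
      nlinarith [norm_nonneg (x - y)]) (gau_scale hκ hκ8 hL1)
  refine pos_iff_ne_zero.2 fun h0 => hK.ne' (le_antisymm ?_ zero_le)
  refine (hm_mono ?_).trans (h5.trans ((mul_le_mul_right (hm_mono inter_subset_right) _).trans ?_))
  · rintro w ⟨hw, h6⟩
    refine ⟨F w, ⟨mem_image_of_mem _ hw, h6⟩, ?_⟩
    simp only [hF, (Fm w (bu w hw)).2, add_sub_cancel_right, mul_div_cancel_left₀ _ hac]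
  · rw [h0, mul_zero]

theorem lb_drv (κ : ℝ) (b : ℝ≥0 → ℝ) (s c : ℝ≥0) {t : ℝ} (ht : 0 ≤ t) :
    drv κ (fun t => (√c)⁻¹ * (b (s + c * t) - b s)) t =
      (drv κ b (s + √c ^ 2 * t) - drv κ b s) / √c := by
  have e : ((s : ℝ) + √c ^ 2 * t).toNNReal = s + c * t.toNNReal := by
    rw [Real.sq_sqrt c.coe_nonneg, Real.toNNReal_add s.coe_nonneg (mul_nonneg c.coe_nonneg ht),
      Real.toNNReal_mul c.coe_nonneg, Real.toNNReal_coe, Real.toNNReal_coe]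
  rw [drv, drv, drv, e, Real.toNNReal_coe]
  ring

theorem lb_seg {κ : ℝ} (hκ : 0 < κ) (hκ8 : κ < 8) (hs : LSt κ)
    {Ω : Type} [MeasurableSpace Ω] {P : Measure Ω}
    {B : ℝ≥0 → Ω → ℝ} {γ : Ω → ℝ → ℂ} (hB : IsBrownianReal B P)
    (hγ : ∀ᵐ ω ∂P, Generates (drv κ fun t => B t ω) (γ ω)) {u : ℕ → ℝ≥0} (hu : StrictMono u) :
    ∀ᵐ ω ∂P, ∃ i, 0 < hm (gau κ) (γ ω '' Icc (u i) (u (i + 1))) := by
  obtain ⟨T0, p, E, hT, hp, hE, h1, h2⟩ := lbcore hκ hκ8 hs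
  set c : ℕ → ℝ≥0 := fun i => (u (i + 1) - u i) / T0 with hc
  have c0 : ∀ i, 0 < c i := fun i => div_pos (tsub_pos_of_lt (hu i.lt_succ_self)) hT
  have c1 : ∀ i, u (i + 1) - u i = c i * T0 := fun i => (div_mul_cancel₀ _ hT.ne').symm
  have cs : ∀ i, 0 < √(c i : ℝ) := fun i => Real.sqrt_pos.2 (c0 i)
  have hc' : ∀ᵐ ω ∂P, ContinuousOn (γ ω) (Ici 0) ∧
      ∃ g, Chain (drv κ fun t => B t ω) (dom (γ ω)) g := by
    filter_upwards [hγ, hB.cont] with ω a1 a2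
    exact ⟨a1.1, a1.chain (continuous_const.mul (a2.comp continuous_real_toNNReal)).continuousOn⟩
  have em : ∀ i ω, (fun t => (√(c i : ℝ))⁻¹ *
      (B (u i + min (c i * t) (u (i + 1) - u i)) ω - B (u i) ω)) =
      fun t => (√(c i : ℝ))⁻¹ * (B (u i + c i * min t T0) ω - B (u i) ω) := fun i ω => by
    funext t
    rw [c1, mul_min]
  have h3 := trials hB hp hu.monotone
    (E := fun i => (fun (b : ℝ≥0 → ℝ) (t : ℝ≥0) => (√(c i : ℝ))⁻¹ * b (c i * t)) ⁻¹' E)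
    (fun i => (measurable_pi_lambda _ fun t => (measurable_pi_apply _).const_mul _) hE) fun i => by
      simp only [mem_preimage, em]
      refine h1 ((hB.shift (u i)).smul (c0 i).ne') (hc'.mono fun ω ⟨_, g, hg⟩ => ⟨_, _,
        (hg.shift (u i).2 (cs i)).lb_congr fun t ht => lb_drv κ (fun t => B t ω) _ _ ht⟩)
  filter_upwards [h3, hc'] with ω ⟨i, hi⟩ ⟨a1, g, hg⟩
  simp only [mem_preimage, em] at hi
  refine ⟨i, ?_⟩
  have e : (u (i + 1) : ℝ) = u i + √(c i : ℝ) ^ 2 * T0 := by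
    rw [Real.sq_sqrt (c i).coe_nonneg, ← NNReal.coe_mul, ← c1,
      NNReal.coe_sub (hu.monotone i.le_succ)]
    ring
  rw [e]
  exact lb_det hκ hκ8 a1 hg (u i).2 (cs i)
    (h2 (fun t => (√(c i : ℝ))⁻¹ * (B (u i + c i * t) ω - B (u i) ω)) hi (by simp) _ _
      ((hg.shift (u i).2 (cs i)).lb_congr fun t ht => lb_drv κ (fun t => B t ω) _ _ ht))

/-- positivity of the gauge measure of every segment -/
theorem lower {κ : ℝ} (hκ : 0 < κ) (hκ8 : κ < 8) (hs : LSt κ)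
    {Ω : Type} [MeasurableSpace Ω] {P : Measure Ω}
    {B : ℝ≥0 → Ω → ℝ} {γ : Ω → ℝ → ℂ} (hB : IsBrownianReal B P)
    (hγ : ∀ᵐ ω ∂P, Generates (drv κ fun t => B t ω) (γ ω)) :
    ∀ᵐ ω ∂P, ∀ s t : ℝ, 0 < s → s < t → 0 < hm (gau κ) (γ ω '' Icc s t) := by
  have key : ∀ s t : ℚ, ∀ᵐ ω ∂P, (0 : ℝ) < s → (s : ℝ) < t →
      0 < hm (gau κ) (γ ω '' Icc (s : ℝ) t) := fun s t => by
    by_cases h : (0 : ℝ) < s ∧ (s : ℝ) < t
    · have b : ∀ i : ℕ, (s : ℝ) ≤ t - (t - s) * (1 / 2) ^ i ∧ t - (t - s) * (1 / 2) ^ i ≤ (t : ℝ) :=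
        fun i => by
          have h1 : (1 / 2 : ℝ) ^ i ≤ 1 := pow_le_one₀ (by norm_num) (by norm_num)
          have h2 : (0 : ℝ) < (1 / 2) ^ i := by positivity
          constructor <;> nlinarith [h.2]
      have hu : StrictMono fun i : ℕ => (⟨t - (t - s) * (1 / 2) ^ i, h.1.le.trans (b i).1⟩ : ℝ≥0) :=
        strictMono_nat_of_lt_succ fun i => by
          have h2 : (0 : ℝ) < (t - s) * (1 / 2) ^ i := mul_pos (sub_pos.2 h.2) (by positivity)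
          change (t : ℝ) - (t - s) * (1 / 2) ^ i < t - (t - s) * (1 / 2) ^ (i + 1)
          rw [pow_succ]
          linarith
      filter_upwards [lb_seg hκ hκ8 hs hB hγ hu] with ω ⟨i, hi⟩ _ _
      exact hi.trans_le (hm_mono (image_mono (Icc_subset_Icc (b i).1 (b (i + 1)).2)))
    · exact Filter.Eventually.of_forall fun ω h1 h2 => absurd ⟨h1, h2⟩ h
  filter_upwards [ae_all_iff.2 fun s => ae_all_iff.2 (key s)] with ω h s t hs hst
  obtain ⟨q, q1, q2⟩ := exists_rat_btwn hst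
  obtain ⟨r, r1, r2⟩ := exists_rat_btwn q2
  exact (h q r (hs.trans q1) r1).trans_le (hm_mono (image_mono (Icc_subset_Icc q1.le r2.le)))

end Vale.Agent.P164
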