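import Vale.Agent.P164.LStage
import Vale.Agent.P164.Haus

namespace Vale.Agent.P164

open Set MeasureTheory ProbabilityTheory
open scoped NNReal ENNReal

/-- a compact box in the upper half-plane -/
def boxp : Set ℂ := {z | -1 ≤ z.re ∧ z.re ≤ 2 ∧ 1 / 2 ≤ z.im ∧ z.im ≤ 3}

open Filter Topology

/-- total counted mass -/
noncomputable def lc_X (κ d0 K : ℝ) (j0 i : ℕ) (η : ℝ) (ξ : ℕ → ℝ) : ℝ :=
  ∑ u ∈ lg i, lx κ d0 K j0 i η ξ u

theorem lc_meas (κ d0 K : ℝ) (j0 i : ℕ) (η : ℝ) : Measurable (lc_X κ d0 K j0 i η) :=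
  Finset.measurable_sum _ fun u _ => measurable_cw (w := fun ξ => lw κ d0 i η ξ)
    (fun u => (measurable_mh _ _ _ _ _ u).const_mul _) u

theorem lc_lw {κ d0 : ℝ} {i : ℕ} (η : ℝ) (ξ : ℕ → ℝ) (u : ℂ) : 0 ≤ lw κ d0 i η ξ u :=
  mul_nonneg (sq_nonneg _) (mh_nonneg _)

theorem lc_nonneg {κ d0 K : ℝ} {j0 i : ℕ} (η : ℝ) (ξ : ℕ → ℝ) (u : ℂ) :
    0 ≤ lx κ d0 K j0 i η ξ u := cw_nonneg (lc_lw η ξ) u

theorem lc_mem {i : ℕ} {u : ℂ} (hu : u ∈ lg i) : 0 ≤ u.re ∧ u.re ≤ 1 ∧ 1 ≤ u.im ∧ u.im ≤ 2 :=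
  ((mem_lat (by positivity)).1 hu).2

theorem lc_gau {κ r : ℝ} (hκ : 0 < κ) (hκ8 : κ < 8) (hr : 0 ≤ r) : 0 ≤ gau κ r :=
  haus_nonneg (gau_gauge hκ hκ8) hr

theorem lc_le {κ d0 K : ℝ} (hκ : 0 < κ) (hκ8 : κ < 8) (hK : 0 < K) {j0 i : ℕ} (hi : j0 ≤ i) (η : ℝ)
    (ξ : ℕ → ℝ) : lc_X κ d0 K j0 i η ξ ≤ 4 * 4 ^ j0 * (K * gau κ ((1 / 2) ^ j0)) :=
  cw_total (thr := fun j => K * gau κ ((1 / 2) ^ j)) (lc_lw η ξ) (fun _ hu => lc_mem hu) hi
    (mul_nonneg hK.le (lc_gau hκ hκ8 (by positivity)))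

theorem lc_floor {T η : ℝ} (hT : 0 ≤ T) (hη : 0 < η) : (⌊T / η ^ 2⌋₊ : ℝ) * η ^ 2 ≤ T :=
  (le_div_iff₀ (by positivity)).1 (Nat.floor_le (by positivity))

theorem lc_stop {κ d0 K : ℝ} (hd : 0 < d0) {j0 : ℕ} (i : ℕ) {η : ℝ} (hη : 0 < η) (b : ℝ≥0 → ℝ) :
    lc_X κ d0 K j0 i η (inc (drv κ fun t => b (min t (4 / d0 ^ 4 + 1).toNNReal)) (η ^ 2)) =
      lc_X κ d0 K j0 i η (inc (drv κ b) (η ^ 2)) := by
  have e : lw κ d0 i η (inc (drv κ fun t => b (min t (4 / d0 ^ 4 + 1).toNNReal)) (η ^ 2)) =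
      lw κ d0 i η (inc (drv κ b) (η ^ 2)) := by
    funext u
    unfold lw
    rw [mh_congr]
    intro n hn
    have h1 : ((n : ℝ) + 1) * η ^ 2 ≤ 4 / d0 ^ 4 + 1 := by
      refine le_trans (mul_le_mul_of_nonneg_right ?_ (sq_nonneg η))
        (lc_floor (by positivity) hη)
      exact_mod_cast hn
    have h2 : (n : ℝ) * η ^ 2 ≤ 4 / d0 ^ 4 + 1 :=
      le_trans (mul_le_mul_of_nonneg_right (by linarith) (sq_nonneg η)) h1
    unfold inc drv
    beta_reduce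
    rw [min_eq_left (Real.toNNReal_le_toNNReal h1), min_eq_left (Real.toNNReal_le_toNNReal h2)]
  unfold lc_X lx
  rw [e]

theorem lc_zero (κ : ℝ) {b : ℝ≥0 → ℝ} (h : b 0 = 0) : drv κ b 0 = 0 := by
  rw [drv, Real.toNNReal_zero, h, mul_zero]

theorem lc_ev {e : ℝ} (he : 0 < e) : ∀ᶠ j : ℕ in atTop, (1 / (j + 1) : ℝ) ≤ e :=
  tendsto_one_div_add_atTop_nhds_zero_nat.eventually (ge_mem_nhds he)

theorem lc_log {i : ℕ} (hi : 5 ≤ i) : Real.log ((1 / 4) ^ i) ≤ -3 := by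
  have h1 : Real.log (1 / 4) ≤ -(3 / 4) := by
    linarith [Real.log_le_sub_one_of_pos (show (0 : ℝ) < 1 / 4 by norm_num)]
  have h2 : (5 : ℝ) ≤ i := by exact_mod_cast hi
  rw [Real.log_pow]
  nlinarith

theorem lc_ne {κ d0 K : ℝ} {j0 i : ℕ} {η : ℝ} {ξ : ℕ → ℝ} {u : ℂ}
    (h : lx κ d0 K j0 i η ξ u ≠ 0) :
    (frz d0 (Real.log ((1 / 4) ^ i)) (η ^ 2) u ξ ⌊(4 / d0 ^ 4 + 1) / η ^ 2⌋₊).l ≤
      Real.log ((1 / 4) ^ i) := by
  by_contra h1
  refine h ?_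
  have h2 : lw κ d0 i η ξ u = 0 := by rw [lw, mh, if_neg h1, mul_zero]
  rw [lx, cw, h2, ite_self]

theorem lc_dbl {κ r : ℝ} (hκ : 0 < κ) (hκ8 : κ < 8) (hr : 0 < r) : gau κ (2 * r) ≤ 4 * gau κ r := by
  unfold gau
  obtain ⟨c, hc⟩ : ∃ c, c = Real.exp (-Real.exp 1) := ⟨_, rfl⟩
  have hc0 : 0 < c := hc ▸ Real.exp_pos _
  have h1 : 0 < min r c := lt_min hr hc0
  have h2 : min r c ≤ min (2 * r) c := min_le_min_right _ (by linarith)
  have h3 : min (2 * r) c ≤ 2 * min r c := by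
    rw [mul_min_of_nonneg _ _ zero_le_two]
    exact min_le_min_left _ (by linarith)
  obtain ⟨h4, h5⟩ := gau_one (h1.trans_le h2) ((min_le_right _ _).trans hc.le)
  rw [← hc, ← mul_assoc]
  generalize min r c = x at h1 h2 h3
  generalize min (2 * r) c = y at h2 h3 h4 h5
  have h6 : Real.log (Real.log (1 / y)) ≤ Real.log (Real.log (1 / x)) :=
    Real.log_le_log ((Real.exp_pos 1).trans_le h4) (Real.log_le_log
      (one_div_pos.2 (h1.trans_le h2)) (one_div_le_one_div_of_le h1 h2))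
  have h7 : (2 : ℝ) ^ (1 + κ / 8) ≤ 4 := by
    refine (Real.rpow_le_rpow_of_exponent_le one_le_two (show _ ≤ (2 : ℝ) by linarith)).trans ?_
    norm_num
  refine mul_le_mul ?_ (Real.rpow_le_rpow (by linarith) h6 (by linarith))
    (Real.rpow_nonneg (by linarith) _) (by positivity)
  refine (Real.rpow_le_rpow (h1.trans_le h2).le h3 (by linarith)).trans ?_
  rw [Real.mul_rpow zero_le_two h1.le]
  exact mul_le_mul_of_nonneg_right h7 (by positivity)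

open Classical in
theorem lc_ball {κ d0 K : ℝ} (hκ : 0 < κ) (hκ8 : κ < 8) (hK : 0 < K) {j0 i : ℕ} (η : ℝ)
    (ξ : ℕ → ℝ) (x : ℂ) {r : ℝ} (h1 : (1 / 2) ^ i ≤ r) (h2 : r ≤ (1 / 2) ^ j0) :
    ∑ u ∈ lg i with ‖u - x‖ ≤ r, lx κ d0 K j0 i η ξ u ≤ 36 * K * gau κ r := by
  have hr : 0 < r := lt_of_lt_of_le (by positivity) h1
  obtain ⟨j, a1, a2⟩ := exists_nat_pow_near_of_lt_one hr
    (h2.trans (pow_le_one₀ (by norm_num) (by norm_num))) (y := 1 / 2) (by norm_num) (by norm_num)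
  have b1 : j0 < j + 1 := (pow_lt_pow_iff_right_of_lt_one₀ (by norm_num) (by norm_num)).1
    (a1.trans_le h2)
  have b2 : j ≤ i := (pow_le_pow_iff_right_of_lt_one₀ (by norm_num) (by norm_num)).1 (h1.trans a2)
  refine (cw_ball (thr := fun j => K * gau κ ((1 / 2) ^ j)) (lc_lw η ξ)
    (Finset.mem_Icc.2 ⟨by omega, b2⟩) (mul_nonneg hK.le (lc_gau hκ hκ8 (by positivity))) x
    a2).trans ?_
  have b3 : gau κ ((1 / 2) ^ j) ≤ gau κ (2 * r) := by
    refine (gau_gauge hκ hκ8).2.1 (mem_Ici.2 (by positivity)) (mem_Ici.2 (by positivity)) ?_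
    rw [pow_succ] at a1
    linarith
  have b4 := mul_le_mul_of_nonneg_left (b3.trans (lc_dbl hκ hκ8 hr)) hK.le
  linarith

theorem lc_freq {α : Type*} (A : ℕ → Set α) :
    {x | ∃ᶠ n in atTop, x ∈ A n} = ⋂ a, ⋃ b, ⋃ (_ : a ≤ b), A b := by
  ext x
  simp only [frequently_atTop, mem_ofPred_eq, mem_iInter, mem_iUnion, exists_prop, ge_iff_le]

theorem lc_mfreq {α : Type*} [MeasurableSpace α] {A : ℕ → Set α} (h : ∀ n, MeasurableSet (A n)) :
    MeasurableSet {x | ∃ᶠ n in atTop, x ∈ A n} := by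
  rw [lc_freq]
  exact .iInter fun a => .iUnion fun b => .iUnion fun _ => h b

theorem lc_nfreq {α : Type*} [MeasurableSpace α] {P : Measure α} {A : ℕ → Set α}
    (h : ∀ n, NullMeasurableSet (A n) P) : NullMeasurableSet {x | ∃ᶠ n in atTop, x ∈ A n} P := by
  rw [lc_freq]
  exact .iInter fun a => .iUnion fun b => .iUnion fun _ => h b

theorem lc_ind {Ω : Type*} [MeasurableSpace Ω] {P : Measure Ω} [IsProbabilityMeasure P] {S : Set Ω}
    (hS : NullMeasurableSet S P) (c : ℝ) : Integrable (S.indicator fun _ => c) P ∧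
      ∫ ω, S.indicator (fun _ => c) ω ∂P = P.real S * c := by
  refine ⟨(integrable_const c).indicator₀ hS, ?_⟩
  rw [integral_indicator₀ hS, setIntegral_const, smul_eq_mul]

theorem lc_prob {Ω : Type*} [MeasurableSpace Ω] {P : Measure Ω} [IsProbabilityMeasure P]
    {X Y : ℕ → Ω → ℝ} {c C B : ℝ} (hc : 0 < c) (hC : 0 < C) (hX : ∀ j, AEMeasurable (X j) P)
    (hXC : ∀ j ω, X j ω ≤ C) (hYB : ∀ j ω, Y j ω ≤ B) (hY : ∀ j, AEMeasurable (Y j) P)
    (hI : ∀ᶠ j in atTop, Integrable (Y j) P ∧ c ≤ ∫ ω, Y j ω ∂P)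
    (hle : ∀ᵐ ω ∂P, ∀ᶠ j in atTop, Y j ω ≤ X j ω) :
    ∀ᶠ j in atTop, ENNReal.ofReal (c / (4 * C)) ≤ P {ω | c / 2 ≤ X j ω} := by
  have hA : ∀ j, NullMeasurableSet {ω | X j ω < Y j ω} P := fun j =>
    nullMeasurableSet_lt (hX j) (hY j)
  have h1 := prob_small hA (hle.mono fun ω h => h.mono fun j hj => not_lt.2 hj)
  have h2 := ((ENNReal.tendsto_toReal ENNReal.zero_ne_top).comp h1).mul_const (max B 0)
  rw [ENNReal.toReal_zero, zero_mul] at h2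
  filter_upwards [hI, h2.eventually (ge_mem_nhds (show 0 < c / 4 by positivity))] with j hj h3
  obtain ⟨a1, a2⟩ := lc_ind (hA j) (max B 0)
  obtain ⟨b1, b2⟩ := lc_ind (nullMeasurableSet_le (aemeasurable_const (b := c / 2)) (hX j)) C
  have a3 : Integrable (fun ω => {ω | X j ω < Y j ω}.indicator (fun _ => max B 0) ω + c / 2) P :=
    a1.add (integrable_const _)
  have h4 := integral_mono hj.1 (a3.add b1) fun ω => by
    change Y j ω ≤ {ω | X j ω < Y j ω}.indicator (fun _ => max B 0) ω + c / 2 +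
      {ω | c / 2 ≤ X j ω}.indicator (fun _ => C) ω
    have c1 : 0 ≤ {ω | X j ω < Y j ω}.indicator (fun _ => max B 0) ω :=
      indicator_nonneg (fun _ _ => le_max_right _ _) ω
    have c2 : 0 ≤ {ω | c / 2 ≤ X j ω}.indicator (fun _ => C) ω :=
      indicator_nonneg (fun _ _ => hC.le) ω
    by_cases d1 : X j ω < Y j ω
    · rw [indicator_of_mem (s := {ω | X j ω < Y j ω}) d1]
      linarith [hYB j ω, le_max_left B 0]
    · by_cases d2 : c / 2 ≤ X j ω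
      · rw [indicator_of_mem (s := {ω | c / 2 ≤ X j ω}) d2]
        linarith [hXC j ω, not_lt.1 d1]
      · linarith [not_lt.1 d1, not_le.1 d2]
  rw [integral_add' a3 b1, integral_add a1 (integrable_const _), a2, b2] at h4
  simp only [integral_const, probReal_univ, smul_eq_mul, one_mul] at h4
  refine ENNReal.ofReal_le_of_le_toReal ?_
  rw [div_le_iff₀ (by positivity)]
  have h5 : P.real {ω | X j ω < Y j ω} * max B 0 ≤ c / 4 := h3
  have h6 : c / 4 ≤ P.real {ω | c / 2 ≤ X j ω} * C := by linarith [hj.2]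
  rw [measureReal_def] at h6
  linarith

theorem lbcore {κ : ℝ} (hκ : 0 < κ) (hκ8 : κ < 8) (hs : LSt κ) :
    ∃ (T0 : ℝ≥0) (p : ℝ≥0∞) (E : Set (ℝ≥0 → ℝ)),
    0 < T0 ∧ 0 < p ∧ MeasurableSet E ∧
    (∀ {Ω : Type} [MeasurableSpace Ω] {P : Measure Ω} {B : ℝ≥0 → Ω → ℝ}, IsBrownianReal B P →
      (∀ᵐ ω ∂P, ∃ D g, Chain (drv κ fun t => B t ω) D g) →
      p ≤ P {ω | (fun t => B (min t T0) ω) ∈ E}) ∧
    ∀ b : ℝ≥0 → ℝ, (fun t => b (min t T0)) ∈ E → b 0 = 0 → ∀ D g, Chain (drv κ b) D g →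
      ∀ K : Set ℂ, IsCompact K →
      (∀ t ∈ Icc (0 : ℝ) T0, ∀ w ∈ boxp, w ∈ closure (D t) → w ∉ D t → w ∈ K) →
      0 < hm (gau κ) K := by
  obtain ⟨d0, K0, c1, j0, hd, hK0, hc1, hj0, hst⟩ := hs
  have hT : 0 < 4 / d0 ^ 4 + 1 := by positivity
  have hCm : 0 < 4 * 4 ^ j0 * (K0 * gau κ ((1 / 2) ^ j0)) :=
    mul_pos (by positivity) (mul_pos hK0 ((gau_gauge hκ hκ8).2.2.2 _ (by positivity)))
  refine ⟨(4 / d0 ^ 4 + 1).toNNReal,
    ENNReal.ofReal (c1 / (4 * (4 * 4 ^ j0 * (K0 * gau κ ((1 / 2) ^ j0))))),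
    {b | ∃ᶠ i in atTop, b ∈ {b | ∃ᶠ j : ℕ in atTop, b ∈ {b | c1 / 2 ≤
      lc_X κ d0 K0 j0 i (1 / (j + 1)) (inc (drv κ b) ((1 / (j + 1)) ^ 2))}}},
    Real.toNNReal_pos.2 hT, ENNReal.ofReal_pos.2 (by positivity), ?_, ?_, ?_⟩
  · exact lc_mfreq fun i => lc_mfreq fun j => measurableSet_le measurable_const
      ((lc_meas κ d0 K0 j0 i _).comp (measurable_inc κ _))
  · intro Ω _ P B hB hch
    have hPm : IsProbabilityMeasure P := hB.isGaussianProcess.isProbabilityMeasure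
    have hη : ∀ j : ℕ, (0 : ℝ) < 1 / (j + 1) := fun j => by positivity
    have hX : ∀ i (j : ℕ), AEMeasurable (fun ω => lc_X κ d0 K0 j0 i (1 / (j + 1))
        (inc (drv κ fun t => B t ω) ((1 / (j + 1)) ^ 2))) P := fun i j =>
      (lc_meas κ d0 K0 j0 i _).comp_aemeasurable (inc_law hB hκ (hη j)).aemeasurable
    have hS : ∀ i (j : ℕ), NullMeasurableSet {ω | c1 / 2 ≤ lc_X κ d0 K0 j0 i (1 / (j + 1))
        (inc (drv κ fun t => B t ω) ((1 / (j + 1)) ^ 2))} P := fun i j =>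
      nullMeasurableSet_le aemeasurable_const (hX i j)
    refine le_trans (freq_ge (fun i => lc_nfreq (hS i)) ?_) (le_of_eq ?_)
    · filter_upwards [eventually_ge_atTop j0] with i hi
      obtain ⟨Bd, Y, hY, ⟨η0, hη0, hI⟩, hW⟩ := hst i hi
      refine freq_ge (hS i) (lc_prob (Y := fun (j : ℕ) ω => Y (1 / (j + 1))
        (inc (drv κ fun t => B t ω) ((1 / (j + 1)) ^ 2))) (B := Bd) hc1 hCm (hX i)
        (fun j ω => lc_le hκ hκ8 hK0 hi _ _) (fun j ω => (hY _).2 _)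
        (fun j => (hY _).1.comp_aemeasurable (inc_law hB hκ (hη j)).aemeasurable) ?_ ?_)
      · filter_upwards [lc_ev hη0] with j hj
        obtain ⟨h1, h2⟩ := hI _ (hη j) hj
        have h3 := inc_law hB hκ (hη j)
        refine ⟨?_, h2.trans_eq (h3.integral_comp h1.aestronglyMeasurable).symm⟩
        rw [← h3.map_eq] at h1
        exact h1.comp_aemeasurable h3.aemeasurable
      · filter_upwards [hch, hB.eval_zero_ae_eq_zero] with ω h1 h2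
        obtain ⟨D, g, h1⟩ := h1
        obtain ⟨η1, hη1, h3⟩ := hW h1 (lc_zero κ h2)
        filter_upwards [lc_ev hη1] with j hj
        exact h3 _ (hη j) hj
    · congr 1
      ext ω
      simp only [mem_ofPred_eq, lc_stop hd _ (hη _) fun t => B t ω]
  · intro b hb h0 D g hch K hK hin
    have hη : ∀ j : ℕ, (0 : ℝ) < 1 / (j + 1) := fun j => by positivity
    simp only [mem_ofPred_eq, lc_stop hd _ (hη _) b] at hb
    rw [Real.coe_toNNReal _ hT.le] at hin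
    refine mass (gau_gauge hκ hκ8) (gau_scale hκ hκ8 two_pos) hK (r0 := (1 / 2) ^ j0)
      (C := 36 * K0) (by positivity) (half_pos hc1) fun ρ hρ => ?_
    have e1 : ∀ᶠ i : ℕ in atTop, 5 * (1 / 4 : ℝ) ^ i ≤ min ρ (1 / 2) := by
      have h1 := (tendsto_pow_atTop_nhds_zero_of_lt_one (r := (1 / 4 : ℝ)) (by norm_num)
        (by norm_num)).const_mul 5
      rw [mul_zero] at h1
      exact h1.eventually (ge_mem_nhds (by positivity))
    have e2 : ∀ᶠ i : ℕ in atTop, (1 / 2 : ℝ) ^ i ≤ ρ :=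
      (tendsto_pow_atTop_nhds_zero_of_lt_one (by norm_num) (by norm_num)).eventually
        (ge_mem_nhds hρ)
    obtain ⟨i, hi, hi0, hi1, hi2⟩ := (hb.and_eventually
      ((eventually_ge_atTop j0).and (e1.and e2))).exists
    obtain ⟨δ0, hδ0, hnb⟩ := near_bdry hch (lc_zero κ h0) hd (lc_log (hj0.trans hi0)) hT
    obtain ⟨j, hj, hj1⟩ := (hi.and_eventually (lc_ev (Real.sqrt_pos.2 hδ0))).exists
    have hj2 : (1 / (j + 1) : ℝ) ^ 2 ≤ δ0 := (Real.le_sqrt (hη j).le hδ0.le).1 hj1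
    obtain ⟨η, hηe⟩ : ∃ η : ℝ, η = 1 / (j + 1) := ⟨_, rfl⟩
    have hη0 : 0 < η := hηe ▸ hη j
    rw [← hηe] at hj hj2
    refine ⟨(lg i).filter fun u => lx κ d0 K0 j0 i η (inc (drv κ b) (η ^ 2)) u ≠ 0,
      lx κ d0 K0 j0 i η (inc (drv κ b) (η ^ 2)), fun u _ => lc_nonneg _ _ _, ?_, ?_, ?_⟩
    · rw [Finset.sum_filter_ne_zero]
      exact hj
    · intro u hu
      obtain ⟨hu1, hu2⟩ := Finset.mem_filter.1 hu
      obtain ⟨a1, a2, a3, a4⟩ := lc_mem hu1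
      obtain ⟨t, ht, w, hw1, hw2, hw3⟩ := hnb _ (by positivity) hj2 _ (lc_floor hT.le hη0) u a3 a4
        (lc_ne hu2)
      rw [Real.exp_log (by positivity)] at hw3
      have h4 := (hw3.trans hi1).trans (min_le_right _ _)
      have h5 := abs_le.1 ((Complex.abs_re_le_norm _).trans h4)
      have h6 := abs_le.1 ((Complex.abs_im_le_norm _).trans h4)
      rw [Complex.sub_re] at h5
      rw [Complex.sub_im] at h6
      refine ⟨w, hin t ht w ⟨?_, ?_, ?_, ?_⟩ hw1 hw2, (hw3.trans hi1).trans (min_le_left _ _)⟩ <;>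
        linarith [h5.1, h5.2, h6.1, h6.2]
    · intro x r hr1 hr2
      refine le_trans (Finset.sum_le_sum_of_subset_of_nonneg
        (Finset.filter_subset_filter _ (Finset.filter_subset _ _))
        fun u _ _ => lc_nonneg _ _ _) ?_
      exact lc_ball hκ hκ8 hK0 _ _ x (hi2.trans hr1) hr2

end Vale.Agent.P164
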