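import Vale.Agent.P164.Sp4
import Vale.Agent.P164.EU
import Vale.Agent.P164.Grid

namespace Vale.Agent.P164

open Set Metric

theorem rich_log {x y : ℝ} (hx : 0 < x) (h : x ≤ 2 * y) : Real.log x ≤ Real.log y + 1 := by
  have hy : 0 < y := by linarith
  have h1 := Real.log_le_log hx h
  rw [Real.log_mul two_ne_zero hy.ne'] at h1
  linarith [Real.log_le_sub_one_of_pos two_pos]

theorem rich_exp {x l : ℝ} (hx : 0 < x) (h : |l - Real.log x| ≤ 1) :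
    Real.exp l ≤ 3 * x ∧ x ≤ 3 * Real.exp l := by
  obtain ⟨h1, h2⟩ := abs_le.1 h
  have h3 : Real.exp 1 ≤ 3 := Real.exp_one_lt_d9.le.trans (by norm_num)
  have h4 := Real.exp_le_exp.2 (by linarith : l ≤ 1 + Real.log x)
  have h5 := Real.exp_le_exp.2 (by linarith : Real.log x ≤ 1 + l)
  rw [Real.exp_add, Real.exp_log hx] at h4 h5
  exact ⟨h4.trans (mul_le_mul_of_nonneg_right h3 hx.le),
    h5.trans (mul_le_mul_of_nonneg_right h3 (Real.exp_pos _).le)⟩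

theorem rich_mart {κ C x : ℝ} (hκ : 0 < κ) (hκ8 : κ < 8) (hC : 0 < C) (hx : 0 < x) {p : St}
    (hy : 0 < p.y) (h1 : |p.x| ≤ 3 * p.y) (h2 : Real.exp p.l ≤ C * x) :
    C ^ (κ / 8 - 1) * (1 / 10) ^ ((8 / κ - 1) / 2) * x ^ (κ / 8 - 1) ≤ mart κ p := by
  have h3 : 1 / 10 ≤ ss p := by
    refine one_div_le_one_div_of_le (by positivity) ?_
    have h4 : |tau p| ≤ 3 := by
      rw [tau, abs_div, abs_of_pos hy, div_le_iff₀ hy]
      exact h1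
    have h5 := pow_le_pow_left₀ (abs_nonneg _) h4 2
    rw [sq_abs] at h5
    linarith
  have h4 : 0 ≤ (8 / κ - 1) / 2 := by
    have := (one_le_div hκ).2 hκ8.le
    linarith
  have h5 := Real.rpow_le_rpow_of_nonpos (Real.exp_pos _) h2 (by linarith : κ / 8 - 1 ≤ 0)
  rw [← Real.exp_mul, mul_comm p.l, Real.mul_rpow hC.le hx.le] at h5
  rw [mart, fam_eq, mul_right_comm]
  exact mul_le_mul h5 (Real.rpow_le_rpow (by norm_num) h3 h4) (by positivity) (Real.exp_pos _).le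

theorem rich_sp {E m e x y X Y : ℝ} (hE : 1 ≤ E) (hm : 16 * E ≤ m) (e0 : 0 < e) (he : e ≤ y / 10)
    (h1 : |x - X| ≤ e) (h2 : |y - Y| ≤ e) (h3 : m * y / E ≤ x) (h4 : x ≤ E * m * y) :
    m * Y / (2 * E) ≤ X ∧ X ≤ 2 * E * m * Y := by
  have E0 : 0 < E := by linarith
  obtain ⟨b8, b9⟩ := abs_le.1 h1
  obtain ⟨b10, b11⟩ := abs_le.1 h2
  have b12 : 16 ≤ m / E := (le_div_iff₀ E0).2 hm
  have b13 : 16 ≤ E * m := by nlinarith
  rw [mul_div_right_comm] at h3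
  constructor
  · rw [show m * Y / (2 * E) = m / E * (Y / 2) by field_simp]
    have b14 := mul_le_mul_of_nonneg_left (by linarith : Y / 2 + e ≤ y) (by linarith : 0 ≤ m / E)
    nlinarith
  · have b14 := mul_le_mul_of_nonneg_left (by linarith : y + e ≤ 2 * Y) (by linarith : 0 ≤ E * m)
    nlinarith

theorem rich_c {cf c ρ r m : ℝ} (c0 : 0 < c) (r0 : 0 < r) (ρ0 : 0 < ρ) (m0 : 0 < m)
    (h1 : cf ≤ c / 36) (h2 : ρ ≤ 3 * r) : 9 * (cf * ρ / m) ≤ c * r / m := by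
  rw [← mul_div_assoc]
  refine div_le_div_of_nonneg_right ?_ m0.le
  nlinarith [mul_le_mul h1 h2 ρ0.le (by positivity), mul_pos c0 r0]

/-- a spiral of the Euler run of `z` gives many lattice points near `z` with large mass -/
theorem rich {κ E : ℝ} (hκ : 0 < κ) (hκ8 : κ < 8) (hE : 1 ≤ E) :
    ∃ B0 c C : ℝ, 1 ≤ B0 ∧ 0 < c ∧ c ≤ 1 ∧ 1 ≤ C ∧ ∀ {W D g}, Chain W D g → W 0 = 0 →
    ∀ T y0 : ℝ, 0 < T → 0 < y0 → ∃ δ0 : ℝ, 0 < δ0 ∧ ∀ δ : ℝ, 0 < δ → δ ≤ δ0 →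
    ∀ m : ℝ, 16 * E ≤ m → ∀ z ∈ uhp, ∀ n0 n1 : ℕ, n0 ≤ n1 → n1 * δ ≤ T →
    y0 ≤ (fre δ z (inc W δ) n1).y →
    (∀ i, n0 ≤ i → i ≤ n1 → m * (fre δ z (inc W δ) i).y / E ≤ (fre δ z (inc W δ) i).x ∧
      (fre δ z (inc W δ) i).x ≤ E * m * (fre δ z (inc W δ) i).y) →
    B0 * m ^ 2 ≤ Real.log (fre δ z (inc W δ) n0).y - Real.log (fre δ z (inc W δ) n1).y →
    ∀ s : ℝ, 0 < s → s ≤ c * Real.exp (fre δ z (inc W δ) n0).l / m →
    ∃ R : Finset ℂ, c * Real.exp (fre δ z (inc W δ) n0).l ^ 2 ≤ R.card * s ^ 2 ∧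
      ∀ u ∈ R, IsLat s u ∧ ‖u - z‖ ≤ C * Real.exp (fre δ z (inc W δ) n0).l ∧
        y0 / 4 ≤ (fre δ u (inc W δ) n1).y ∧
        Real.log (c * Real.exp (fre δ z (inc W δ) n0).l / m) ≤ (fre δ u (inc W δ) n1).l ∧
        c * (Real.exp (fre δ z (inc W δ) n0).l / m) ^ (κ / 8 - 1) ≤
          mart κ (fre δ u (inc W δ) n1) := by
  classical
  obtain ⟨B, c, C, B1, c0, c1, C1, hsp⟩ := spiral (E := 2 * E) (by linarith)
  obtain ⟨cf, f0, f1, f2⟩ : ∃ cf : ℝ, 0 < cf ∧ cf ≤ c ^ 3 / 36 ∧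
      cf ≤ (9 * C) ^ (κ / 8 - 1) * (1 / 10) ^ ((8 / κ - 1) / 2) :=
    ⟨min _ _, lt_min (by positivity) (by positivity), min_le_left _ _, min_le_right _ _⟩
  have f3 : cf ≤ c / 36 := f1.trans (div_le_div_of_nonneg_right
    (pow_le_of_le_one c0.le c1 three_ne_zero) (by norm_num))
  refine ⟨B + 2, cf, 3 * C, by linarith, f0, by linarith, by linarith,
    fun {W D g} h h0 T y0 hT hy0 => ?_⟩
  obtain ⟨e, e0, e1, e2⟩ : ∃ e : ℝ, 0 < e ∧ e ≤ 1 ∧ e ≤ y0 / 10 :=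
    ⟨min _ _, lt_min one_pos (by positivity), min_le_left _ _, min_le_right _ _⟩
  obtain ⟨δ0, δ0p, heu⟩ := h.eu h0 hT (half_pos hy0) e0
  refine ⟨δ0, δ0p, fun δ hδ hδ' m hm z hz n0 n1 hn hT' hy hx hB s hs hs' => ?_⟩
  have m1 : 16 ≤ m := by linarith
  have m0 : 0 < m := by linarith
  obtain ⟨z1, z2⟩ := heu δ hδ hδ' z hz n1 hT' (Or.inr (by linarith))
  have en : ∀ n : ℕ, (n : ℝ) * δ ∈ Icc (n * δ) ((n + 1) * δ) := fun n =>
    ⟨le_rfl, by linarith⟩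
  have a0 : (0 : ℝ) ≤ n0 * δ := by positivity
  have t0 : (0 : ℝ) ≤ n1 * δ := by positivity
  have a1 : (n0 : ℝ) * δ ≤ n1 * δ := mul_le_mul_of_nonneg_right (Nat.cast_le.2 hn) hδ.le
  have z3 : z ∈ D (n1 * δ) := h.anti _ _ t0 (by linarith) z1
  have yy : ∀ n ≤ n1, y0 ≤ (fre δ z (inc W δ) n).y := fun n hn' =>
    hy.trans (fre_y_anti hδ.le hz _ hn')
  have hS : SpH W g (2 * E) m (n0 * δ) (n1 * δ) z := fun t ht => by
    have b0 : 0 ≤ t / δ := div_nonneg (a0.trans ht.1) hδ.le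
    have b1 : n0 ≤ ⌊t / δ⌋₊ := Nat.le_floor ((le_div_iff₀ hδ).2 ht.1)
    have b2 : ⌊t / δ⌋₊ ≤ n1 := Nat.floor_le_of_le ((div_le_iff₀ hδ).2 ht.2)
    obtain ⟨b3, b4, -⟩ := z2 _ b2 t ⟨(le_div_iff₀ hδ).1 (Nat.floor_le b0),
      (div_le_iff₀ hδ).1 (Nat.lt_floor_add_one _).le⟩
    exact rich_sp hE hm e0 (by linarith [yy _ b2]) b3 b4 (hx _ b1 b2).1 (hx _ b1 b2).2
  obtain ⟨-, u2, u3⟩ := z2 n0 hn _ (en n0)
  obtain ⟨-, u4, -⟩ := z2 n1 le_rfl _ (en n1)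
  obtain ⟨u5, u6⟩ := abs_le.1 u2
  obtain ⟨u7, u8⟩ := abs_le.1 u4
  have u9 := yy n0 hn
  obtain ⟨S, s1, s2, s3⟩ := hsp h m _ _ z z3 (by linarith) a0 a1 hS (by
    have b1 := rich_log (x := (fre δ z (inc W δ) n0).y) (y := (g (n0 * δ) z).im)
      (by linarith) (by linarith)
    have b2 := rich_log (x := (g (n1 * δ) z).im) (y := (fre δ z (inc W δ) n1).y)
      (by linarith) (by linarith)
    linarith [one_le_pow₀ (by linarith : 1 ≤ m) (n := 2)])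
  have r0 := h.ups_pos a0 (h.anti _ _ a0 a1 z3)
  obtain ⟨r1, r2⟩ := rich_exp r0 (u3.trans e1)
  have ρ0 := Real.exp_pos (fre δ z (inc W δ) n0).l
  generalize ups g (n0 * δ) z = r at *
  generalize Real.exp (fre δ z (inc W δ) n0).l = ρ at *
  have p1 := rich_c c0 r0 ρ0 m0 f3 r1
  have p2 : 0 < cf * ρ / m := by positivity
  choose L hL1 hL2 using fun u => card_ge_disc (ρ := c * r / m) hs (by linarith) u
  refine ⟨S.biUnion L, ?_, fun v hv => ?_⟩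
  · rw [Finset.card_biUnion fun u hu u' hu' hne => Finset.disjoint_left.2 fun v h1 h2 =>
      disjoint_left.1 (s2 u hu u' hu' hne) (mem_ball_iff_norm.2 (hL1 u v h1).2)
        (mem_ball_iff_norm.2 (hL1 u' v h2).2), Nat.cast_sum, Finset.sum_mul]
    refine le_trans ?_ (Finset.card_nsmul_le_sum S _ _ fun u _ => hL2 u)
    rw [nsmul_eq_mul]
    refine le_trans ?_ (mul_le_mul_of_nonneg_right s1 (by positivity))
    rw [show c * m ^ 2 * ((c * r / m) ^ 2 / 4) = c ^ 3 / 36 * (3 * r) ^ 2 by field_simp; ring]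
    exact mul_le_mul f1 (pow_le_pow_left₀ ρ0.le r1 2) (by positivity) (by positivity)
  · obtain ⟨u, hu, hvu⟩ := Finset.mem_biUnion.1 hv
    obtain ⟨v1, v2, v3, v4, v5, v6⟩ := s3 u hu v (mem_ball_iff_norm.2 (hL1 u v hvu).2)
    obtain ⟨w1, w2, w3⟩ := (heu δ hδ hδ' v (h.sub _ t0 v2) n1 hT'
      (Or.inl ⟨v2, by linarith⟩)).2 n1 le_rfl _ (en n1)
    obtain ⟨w4, w5⟩ := rich_exp (h.ups_pos t0 v2) (w3.trans e1)
    obtain ⟨w6, w7⟩ := abs_le.1 w2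
    refine ⟨(hL1 u v hvu).1, v1.trans ((mul_le_mul_of_nonneg_left r2 (by linarith)).trans_eq
      (by ring)), by linarith, ?_, ?_⟩
    · rw [Real.log_le_iff_le_exp p2]
      linarith
    · refine le_trans ?_ (rich_mart (C := 9 * C) (x := ρ / m) hκ hκ8 (by linarith) (by positivity)
        (by linarith) ?_ ?_)
      · exact mul_le_mul_of_nonneg_right f2 (by positivity)
      · have w8 := abs_sub_abs_le_abs_sub (fre δ v (inc W δ) n1).x (zz W g (n1 * δ) v).re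
        have w9 := Complex.abs_re_le_norm (zz W g (n1 * δ) v)
        linarith
      · have w8 : C * r / m ≤ C * (3 * ρ) / m := by gcongr
        rw [show 9 * C * (ρ / m) = 3 * (C * (3 * ρ) / m) by ring]
        linarith

end Vale.Agent.P164
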