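import Vale.Agent.P164.Flow2

namespace Vale.Agent.P164

open Set

/-- the point `z` stays at angle about `1 / m` during `[a, t1]` -/
def SpH (W : ℝ → ℝ) (g : ℝ → ℂ → ℂ) (E m a t1 : ℝ) (z : ℂ) : Prop :=
  ∀ t ∈ Icc a t1, m * (g t z).im / E ≤ (zz W g t z).re ∧ (zz W g t z).re ≤ E * m * (g t z).im

/-- rotation of `w` around `z` -/
noncomputable def rot (W : ℝ → ℝ) (g : ℝ → ℂ → ℂ) (a b : ℝ) (z w : ℂ) : ℝ :=
  ∫ s in a..b, 4 * pk (zz W g s z) * ((zz W g s w).re / ‖zz W g s w‖ ^ 2)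

/-- radial motion of `w` seen from `z` -/
noncomputable def dep (W : ℝ → ℝ) (g : ℝ → ℂ → ℂ) (a b : ℝ) (z w : ℂ) : ℝ :=
  ∫ s in a..b, 4 * pk (zz W g s z) * pk (zz W g s w)

theorem s2_nle {F : Type*} [NormedAddCommGroup F] [NormedSpace ℝ F] {f : ℝ → F} {k : ℝ → ℝ}
    {a b t c : ℝ} (hk : ContinuousOn k (Icc 0 t)) (ha : 0 ≤ a) (hab : a ≤ b) (hb : b ≤ t)
    (hf : ∀ s ∈ Icc a b, ‖f s‖ ≤ c * k s) : ‖∫ s in a..b, f s‖ ≤ c * ∫ s in a..b, k s := by
  rw [← intervalIntegral.integral_const_mul]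
  exact intervalIntegral.norm_integral_le_of_norm_le hab
    (Filter.Eventually.of_forall fun s hs => hf s (Ioc_subset_Icc_self hs))
    (((hk.mono (Icc_subset_Icc ha hb)).intervalIntegrable_of_Icc hab).const_mul c)

theorem s2_le {f k : ℝ → ℝ} {a b t c : ℝ} (hf : ContinuousOn f (Icc 0 t))
    (hk : ContinuousOn k (Icc 0 t)) (ha : 0 ≤ a) (hab : a ≤ b) (hb : b ≤ t)
    (h : ∀ s ∈ Ioo a b, c * k s ≤ f s) : c * ∫ s in a..b, k s ≤ ∫ s in a..b, f s := by
  rw [← intervalIntegral.integral_const_mul]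
  exact intervalIntegral.integral_mono_on_of_le_Ioo hab
    (((hk.mono (Icc_subset_Icc ha hb)).intervalIntegrable_of_Icc hab).const_mul c)
    ((hf.mono (Icc_subset_Icc ha hb)).intervalIntegrable_of_Icc hab) h

theorem s2_rho {p : ℂ} {E m : ℝ} (hE : 1 ≤ E) (hm : 8 * E ≤ m) (hp : 0 < p.im)
    (hX : m * p.im / E ≤ p.re) (hX' : p.re ≤ E * m * p.im) : ‖p‖ ≤ 2 * E * m * p.im := by
  have k := Complex.norm_le_abs_re_add_abs_im p
  have k1 : 0 ≤ m * p.im / E := by
    have : 0 ≤ m := by linarith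
    positivity
  rw [abs_of_nonneg (k1.trans hX), abs_of_pos hp] at k
  have k2 : 1 ≤ E * m := by nlinarith
  nlinarith

theorem s2_abs {p q : ℂ} {n : ℝ} (hp : 0 < p.im) (hn : 0 < n) (hq : n ≤ ‖q‖) :
    ‖4 * pk p * (q.re / ‖q‖ ^ 2)‖ ≤ 2 / n * (2 * p.im / ‖p‖ ^ 2) := by
  have q0 := hn.trans_le hq
  have k : |q.re| / ‖q‖ ^ 2 ≤ 1 / n := by
    rw [div_le_div_iff₀ (by positivity) hn]
    nlinarith [Complex.abs_re_le_norm q, abs_nonneg q.re]
  have k1 : 0 ≤ 4 * pk p := by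
    unfold pk
    positivity
  rw [Real.norm_eq_abs, abs_mul, abs_of_nonneg k1, abs_div, abs_of_pos (pow_pos q0 2)]
  refine (mul_le_mul_of_nonneg_left k k1).trans (le_of_eq ?_)
  unfold pk
  ring

theorem s2_inv {p q : ℂ} {n c : ℝ} (hn : 0 < n) (hq : n ≤ ‖q‖) (hp : p ≠ 0)
    (hc : ‖p‖ ≤ c * p.im) : ‖2 / (p * q)‖ ≤ c / n * (2 * p.im / ‖p‖ ^ 2) := by
  have p0 := norm_pos_iff.2 hp
  have q0 := hn.trans_le hq
  rw [norm_div, norm_mul, Complex.norm_two, div_mul_div_comm,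
    div_le_div_iff₀ (by positivity) (by positivity)]
  have k := mul_le_mul hc hq hn.le (p0.le.trans hc)
  nlinarith [mul_le_mul_of_nonneg_left k p0.le]

theorem s2_cs {p q : ℂ} {c : ℝ} (hp : 0 < p.im) (hq : 0 < q.im) (hc : ‖p‖ ≤ c * p.im) :
    1 / c ^ 2 * (2 / ‖p‖ ^ 2) ≤ 2 * ‖q - (starRingEnd ℂ) p‖ ^ 2 / (‖p‖ ^ 2 * ‖q‖ ^ 2) := by
  have p0 := hp.trans_le (Complex.im_le_norm p)
  have q0 := hq.trans_le (Complex.im_le_norm q)
  have c0 : 0 < c := (pos_iff_pos_of_mul_pos (p0.trans_le hc)).2 hp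
  have k := cs_ineq hp.le hq.le
  have k1 : ‖p‖ ^ 2 ≤ (c * p.im) ^ 2 := pow_le_pow_left₀ p0.le hc 2
  have k2 : ‖q‖ ^ 2 ≤ c ^ 2 * ‖q - (starRingEnd ℂ) p‖ ^ 2 := by
    refine le_of_mul_le_mul_left ?_ (pow_pos hp 2)
    nlinarith [mul_le_mul_of_nonneg_left k1 (sq_nonneg ‖q - (starRingEnd ℂ) p‖)]
  rw [div_mul_div_comm, div_le_div_iff₀ (by positivity) (by positivity)]
  nlinarith [mul_le_mul_of_nonneg_left k2 (pow_pos p0 2).le]

theorem s2_low {p q : ℂ} {E m A : ℝ} (hE : 1 ≤ E) (hm : 0 < m) (hA : 1 ≤ A) (hp : 0 < p.im)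
    (hX : m * p.im / E ≤ p.re) (hQ : 4 / (A ^ 2 * m) ≤ bigQ p q) :
    m * p.im / (4 * A ^ 2 * E ^ 2) ≤ ‖q‖ := by
  have E0 : 0 < E := by linarith
  have A0 : 0 < A := by linarith
  have A1 : 1 ≤ A ^ 2 := one_le_pow₀ hA
  rcases le_total (p.re / 2) ‖q‖ with k | k
  · refine le_trans ?_ k
    refine le_trans ?_ (div_le_div_of_nonneg_right hX zero_le_two)
    rw [div_div]
    refine div_le_div_of_nonneg_left (by positivity) (by positivity) ?_
    nlinarith [mul_le_mul A1 hE zero_le_one (by positivity), mul_le_mul_of_nonneg_right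
      (mul_le_mul A1 hE zero_le_one (by positivity)) E0.le]
  · have k1 : m * p.im / (2 * E) ≤ ‖q - p‖ := by
      have k2 := norm_sub_norm_le p q
      have k3 := Complex.re_le_norm p
      rw [norm_sub_rev] at k2
      rw [mul_comm 2 E, ← div_div]
      linarith
    have k2 : 0 < m * p.im / (2 * E) := by positivity
    have k3 := k2.trans_le k1
    rw [bigQ, div_le_div_iff₀ (by positivity) (by positivity)] at hQ
    have k4 := pow_le_pow_left₀ k2.le k1 2
    rw [div_pow, div_le_iff₀ (by positivity)] at k4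
    rw [div_le_iff₀ (by positivity)]
    refine le_trans ?_ (mul_le_mul_of_nonneg_right (Complex.im_le_norm q) (by positivity))
    refine le_of_mul_le_mul_left ?_ (mul_pos hm hp)
    nlinarith [mul_le_mul_of_nonneg_right hQ (sq_nonneg E)]

theorem s2_near {p q : ℂ} {E m : ℝ} (hE : 1 ≤ E) (hm : 8 * E ≤ m) (hp : 0 < p.im)
    (hq : 0 < q.im) (hX : m * p.im / E ≤ p.re) (hX' : p.re ≤ E * m * p.im)
    (hQ : 32 * E / m ≤ bigQ p q) :
    12 / (25 * E) / m * (2 / ‖p‖ ^ 2) ≤ 4 * pk p * (q.re / ‖q‖ ^ 2) := by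
  have E0 : 0 < E := by linarith
  have m0 : 0 < m := by linarith
  have p0 := hp.trans_le (Complex.im_le_norm p)
  have q0 := hq.trans_le (Complex.im_le_norm q)
  rw [div_le_iff₀ E0] at hX
  have X0 : 0 < p.re := (pos_iff_pos_of_mul_pos ((mul_pos m0 hp).trans_le hX)).2 E0
  have XY : 8 * p.im ≤ p.re := by
    refine le_of_mul_le_mul_right ?_ E0
    nlinarith
  have d0 : 0 < ‖q - p‖ := by
    refine (norm_nonneg _).lt_of_ne fun e => ?_
    rw [bigQ, ← e, sq, mul_zero, div_zero] at hQ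
    exact absurd hQ (not_le.2 (by positivity))
  rw [bigQ, div_le_div_iff₀ m0 (by positivity)] at hQ
  have k1 : q.im ≤ p.im + ‖q - p‖ := by
    have := Complex.im_le_norm (q - p)
    rw [Complex.sub_im] at this
    linarith
  have k2 : 4 * ‖q - p‖ ≤ p.re := by
    by_contra k
    rw [not_le] at k
    have k3 : 4 * p.im * q.im * m ≤ 4 * (p.re * E) * (p.im + ‖q - p‖) := by
      nlinarith [mul_le_mul hX k1 hq.le (by positivity)]
    have k4 : 8 * ‖q - p‖ ^ 2 ≤ p.re * (p.im + ‖q - p‖) := by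
      refine le_of_mul_le_mul_right ?_ E0
      nlinarith
    nlinarith
  have k3 : 3 / 4 * p.re ≤ q.re := by
    have := (neg_abs_le _).trans' (neg_le_neg (Complex.abs_re_le_norm (q - p)))
    rw [Complex.sub_re] at this
    linarith
  have k4 : ‖q‖ ≤ 5 / 4 * ‖p‖ := by
    have := norm_sub_norm_le q p
    linarith [Complex.re_le_norm p]
  have k5 : ‖p‖ ^ 2 ≤ 2 * p.re ^ 2 := by
    rw [Complex.sq_norm, Complex.normSq_apply]
    nlinarith
  have k6 : ‖q‖ ^ 2 ≤ 25 / 8 * p.re ^ 2 := by nlinarith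
  have k7 : 6 / (25 * p.re) ≤ q.re / ‖q‖ ^ 2 := by
    rw [div_le_div_iff₀ (by positivity) (by positivity)]
    nlinarith
  have k8 : 6 / (25 * (E * m * p.im)) ≤ 6 / (25 * p.re) :=
    div_le_div_of_nonneg_left (by norm_num) (by positivity) (by linarith)
  refine le_trans (le_of_eq ?_) (mul_le_mul_of_nonneg_left (k8.trans k7) (by
    unfold pk
    positivity))
  unfold pk
  field_simp
  norm_num

theorem s2_dep {p q : ℂ} {E m : ℝ} (hE : 0 < E) (hm : 0 < m) (hp : 0 < p.im) (hq : 0 < q.im)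
    (hX : m * p.im / E ≤ p.re) (hX' : p.re ≤ E * m * p.im) :
    ‖4 * pk p * pk q‖ ≤ E / m * (4 * pk p * (q.re / ‖q‖ ^ 2) +
      2 * (2 * (q.im * p.re - q.re * p.im) / (‖p‖ ^ 2 * ‖q‖ ^ 2))) ∧
    1 / (E * m) * (4 * pk p * (q.re / ‖q‖ ^ 2) +
      2 * (2 * (q.im * p.re - q.re * p.im) / (‖p‖ ^ 2 * ‖q‖ ^ 2))) ≤ 4 * pk p * pk q := by
  have e1 : 4 * pk p * (q.re / ‖q‖ ^ 2) +
      2 * (2 * (q.im * p.re - q.re * p.im) / (‖p‖ ^ 2 * ‖q‖ ^ 2)) =
      p.re * (4 * q.im / (‖p‖ ^ 2 * ‖q‖ ^ 2)) := by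
    unfold pk
    ring
  have e2 : 4 * pk p * pk q = p.im * (4 * q.im / (‖p‖ ^ 2 * ‖q‖ ^ 2)) := by
    unfold pk
    ring
  have T : 0 ≤ 4 * q.im / (‖p‖ ^ 2 * ‖q‖ ^ 2) := by positivity
  rw [e1, e2, Real.norm_of_nonneg (mul_nonneg hp.le T), ← mul_assoc, ← mul_assoc]
  refine ⟨mul_le_mul_of_nonneg_right ?_ T, mul_le_mul_of_nonneg_right ?_ T⟩
  · rw [div_le_iff₀ hE] at hX
    rw [div_mul_eq_mul_div, le_div_iff₀ hm]
    linarith
  · rw [div_mul_eq_mul_div, div_le_iff₀ (mul_pos hE hm)]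
    linarith

variable {W : ℝ → ℝ} {D : ℝ → Set ℂ} {g : ℝ → ℂ → ℂ}

theorem s2_Q (s : ℝ) (z w : ℂ) : bigQ (zz W g s z) (zz W g s w) = bigQ (g s z) (g s w) := by
  simp [bigQ, zz]

theorem Chain.s2_pos (h : Chain W D g) {t : ℝ} {z : ℂ} (hz : z ∈ D t) {s : ℝ}
    (hs : s ∈ Icc 0 t) : 0 < (zz W g s z).im := (h.flow_pos hz hs).trans_eq (zz_im s z).symm

theorem Chain.s2_cR (h : Chain W D g) {t : ℝ} (ht : 0 ≤ t) {z w : ℂ} (hz : z ∈ D t)
    (hw : w ∈ D t) : ContinuousOn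
      (fun s => 4 * pk (zz W g s z) * ((zz W g s w).re / ‖zz W g s w‖ ^ 2)) (Icc 0 t) :=
  (continuousOn_const.mul (h.f2_cp ht hz)).mul
    ((Complex.continuous_re.comp_continuousOn (h.zz_cont ht hw)).div
      ((h.zz_cont ht hw).norm.pow 2)
      fun _ hs => pow_ne_zero 2 (norm_ne_zero_iff.2 (h.flow_ne hw hs)))

theorem Chain.s2_cH (h : Chain W D g) {t : ℝ} (ht : 0 ≤ t) {z w : ℂ} (hz : z ∈ D t)
    (hw : w ∈ D t) : ContinuousOn
      (fun s => 2 * ((zz W g s w).im * (zz W g s z).re - (zz W g s w).re * (zz W g s z).im) /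
        (‖zz W g s z‖ ^ 2 * ‖zz W g s w‖ ^ 2)) (Icc 0 t) :=
  (continuousOn_const.mul (((Complex.continuous_im.comp_continuousOn (h.zz_cont ht hw)).mul
    (Complex.continuous_re.comp_continuousOn (h.zz_cont ht hz))).sub
    ((Complex.continuous_re.comp_continuousOn (h.zz_cont ht hw)).mul
    (Complex.continuous_im.comp_continuousOn (h.zz_cont ht hz))))).div
    (h.f2_cn ht hz hw) fun _ hs => h.f2_nn hz hw hs

theorem Chain.s2_cY (h : Chain W D g) {t : ℝ} (ht : 0 ≤ t) {z : ℂ} (hz : z ∈ D t) :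
    ContinuousOn (fun s => 2 * (g s z).im / ‖zz W g s z‖ ^ 2) (Icc 0 t) :=
  (continuousOn_const.mul (h.f2_cy ht hz)).div ((h.zz_cont ht hz).norm.pow 2)
    fun _ hs => pow_ne_zero 2 (norm_ne_zero_iff.2 (h.flow_ne hz hs))

theorem Chain.s2_add (h : Chain W D g) {t : ℝ} (ht : 0 ≤ t) {z w : ℂ} (hz : z ∈ D t)
    (hw : w ∈ D t) {a b c : ℝ} (ha : 0 ≤ a) (hab : a ≤ b) (hbc : b ≤ c) (hc : c ≤ t) :
    rot W g a c z w = rot W g a b z w + rot W g b c z w :=
  (intervalIntegral.integral_add_adjacent_intervals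
    (((h.s2_cR ht hz hw).mono (Icc_subset_Icc ha (hbc.trans hc))).intervalIntegrable_of_Icc hab)
    (((h.s2_cR ht hz hw).mono (Icc_subset_Icc (ha.trans hab) hc)).intervalIntegrable_of_Icc
      hbc)).symm

/-- the tail of the rotation, and the size of `Q` at time `t` -/
theorem Chain.s2_tail (h : Chain W D g) {E m a t1 t : ℝ} {z w : ℂ} (hE : 1 ≤ E) (hz : z ∈ D t1)
    (hm : 8 * E ≤ m) (ha : 0 ≤ a) (hS : SpH W g E m a t1 z) (ht : t ∈ Icc a t1) (hw : w ∈ D t1)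
    (e : zz W g t1 w = Complex.I * (m * (g t z).im : ℝ)) :
    |rot W g t t1 z w| ≤ 2 / m ∧ z ≠ w ∧
      4 / ((3 * E * Real.exp (2 * E)) ^ 2 * m) ≤ bigQ (g t z) (g t w) := by
  have t0 := ha.trans ht.1
  have t10 := t0.trans ht.2
  have E0 : 0 < E := by linarith
  have m0 : 0 < m := by linarith
  have Y0 := h.flow_pos hz ⟨t0, ht.2⟩
  have Y1 := h.flow_pos hz ⟨t10, le_rfl⟩
  have n0 := mul_pos m0 Y0
  have e1 : (g t1 w).im = m * (g t z).im := by
    rw [← zz_im (W := W), e]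
    simp
  have su : Icc t t1 ⊆ Icc 0 t1 := Icc_subset_Icc t0 le_rfl
  have su' : Icc t t1 ⊆ Icc a t1 := Icc_subset_Icc ht.1 le_rfl
  have hn : ∀ s ∈ Icc t t1, m * (g t z).im ≤ ‖zz W g s w‖ := fun s hs =>
    e1.ge.trans (h.flow_le t10 hw (su hs))
  have hr : ∀ s ∈ Icc t t1, ‖zz W g s z‖ ≤ 2 * E * m * (zz W g s z).im := fun s hs =>
    s2_rho hE hm (h.s2_pos hz (su hs)) (by simpa only [zz_im] using (hS s (su' hs)).1)
      (by simpa only [zz_im] using (hS s (su' hs)).2)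
  have iY := h.Y_int t10 hz t0 ht.2 le_rfl
  have ne : z ≠ w := by
    rintro rfl
    have k := (hS t1 ⟨ht.1.trans ht.2, le_rfl⟩).1
    rw [e] at k
    have k2 : 0 < m * (g t1 z).im / E := by positivity
    simp only [Complex.mul_re, Complex.I_re, Complex.I_im, Complex.ofReal_im, zero_mul, mul_zero,
      sub_zero] at k
    linarith
  refine ⟨?_, ne, ?_⟩
  · have k := s2_nle (c := 2 / (m * (g t z).im)) (h.s2_cY t10 hz) t0 ht.2 le_rfl fun s hs => by
      simpa only [zz_im] using s2_abs (h.s2_pos hz (su hs)) n0 (hn s hs)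
    rw [← iY] at k
    refine k.trans ?_
    rw [div_mul_eq_mul_div, div_le_div_iff₀ n0 m0]
    nlinarith
  · have k := s2_nle (c := 2 * E * m / (m * (g t z).im)) (h.s2_cY t10 hz) t0 ht.2 le_rfl
      fun s hs => by
        simpa only [zz_im] using s2_inv n0 (hn s hs) (h.flow_ne hz (su hs)) (hr s hs)
    rw [← iY] at k
    have k1 : 2 * E * m / (m * (g t z).im) * ((g t z).im - (g t1 z).im) ≤ 2 * E := by
      rw [div_mul_eq_mul_div, div_le_iff₀ n0]
      nlinarith [mul_pos (mul_pos E0 m0) Y1]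
    have k2 := congrArg norm (h.two_pt t10 hz hw t0 ht.2 le_rfl)
    rw [norm_mul, Complex.norm_exp, Complex.neg_re] at k2
    have k3 := Real.exp_le_exp.2 (neg_le_neg ((Complex.re_le_norm _).trans (k.trans k1)))
    have k4 : ‖g t1 z - g t1 w‖ ≤ 3 * E * (m * (g t z).im) := by
      have l1 : g t1 z - g t1 w = zz W g t1 z - zz W g t1 w := by simp [zz]
      have l2 := hr t1 ⟨ht.2, le_rfl⟩
      have l3 : ‖zz W g t1 w‖ = m * (g t z).im := by
        rw [e, norm_mul, Complex.norm_I, one_mul, Complex.norm_real, Real.norm_of_nonneg n0.le]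
      have l4 := norm_sub_le (zz W g t1 z) (zz W g t1 w)
      have l5 := mul_le_mul_of_nonneg_left (h.Y_anti t10 hz t0 ht.2 le_rfl)
        (mul_pos (mul_pos two_pos E0) m0).le
      rw [zz_im] at l2
      rw [l1]
      nlinarith
    have k5 : ‖g t w - g t z‖ ≤ 3 * E * Real.exp (2 * E) * (m * (g t z).im) := by
      rw [norm_sub_rev]
      have l1 := (mul_le_mul_of_nonneg_left k3 (norm_nonneg (g t z - g t w))).trans
        (k2.ge.trans k4)
      rw [Real.exp_neg, ← div_eq_mul_inv, div_le_iff₀ (Real.exp_pos _)] at l1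
      linarith
    have k6 : 0 < ‖g t w - g t z‖ := norm_pos_iff.2 fun e' => ne ((h.bij t t0).injOn
      (h.anti t t1 t0 ht.2 hz) (h.anti t t1 t0 ht.2 hw) (sub_eq_zero.1 e').symm)
    have k7 := e1.ge.trans (h.Y_anti t10 hw t0 ht.2 le_rfl)
    rw [bigQ, div_le_div_iff₀ (by positivity) (by positivity)]
    have k8 := pow_le_pow_left₀ k6.le k5 2
    have k9 := mul_le_mul_of_nonneg_right k7
      (mul_pos (pow_pos (mul_pos (mul_pos three_pos E0) (Real.exp_pos (2 * E))) 2) n0).le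
    nlinarith

/-- the two rotation estimates -/
theorem s2_rot {E : ℝ} (hE : 1 ≤ E) : ∃ c C : ℝ, 0 < c ∧ 1 ≤ C ∧
    ∀ {W D g}, Chain W D g → ∀ m a t1 : ℝ, ∀ z ∈ D t1, 8 * E ≤ m → 0 ≤ a → SpH W g E m a t1 z →
    ∀ t ∈ Icc a t1, ∀ w ∈ D t1, zz W g t1 w = Complex.I * (m * (g t z).im : ℝ) →
      |rot W g a t1 z w| ≤ C * (Real.log (g a z).im - Real.log (g t z).im) / m + 2 ∧
      c * (Real.log (g a z).im - Real.log (g t z).im) / m - C * m ≤ rot W g a t1 z w := by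
  have E0 : 0 < E := by linarith
  obtain ⟨A, eA⟩ : ∃ A, A = 3 * E * Real.exp (2 * E) := ⟨_, rfl⟩
  have A1 : 1 ≤ A := by
    have := Real.one_le_exp (x := 2 * E) (by linarith)
    nlinarith
  obtain ⟨c, ec⟩ : ∃ c, c = 12 / (25 * E) := ⟨_, rfl⟩
  obtain ⟨B, eB⟩ : ∃ B, B = 8 * A ^ 2 * E ^ 2 := ⟨_, rfl⟩
  obtain ⟨K, eK⟩ : ∃ K, K = 32 * E ^ 3 * A ^ 2 := ⟨_, rfl⟩
  have c0 : 0 < c := by
    rw [ec]
    positivity
  have B0 : 0 < B := by
    rw [eB]
    positivity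
  have K0 : 0 < K := by
    rw [eK]
    positivity
  have BK : 0 < (c + B) * K := by positivity
  refine ⟨c, (c + B) * K + B + 1, c0, by linarith, ?_⟩
  intro W D g h m a t1 z hz hm ha hS t ht w hw e
  obtain ⟨r1, ne, q1⟩ := h.s2_tail hE hz hm ha hS ht hw e
  rw [← eA] at q1
  have t0 := ha.trans ht.1
  have t10 := t0.trans ht.2
  have m0 : 0 < m := by linarith
  have su : Icc a t ⊆ Icc 0 t1 := Icc_subset_Icc ha ht.2
  have su' : Icc a t ⊆ Icc a t1 := Icc_subset_Icc le_rfl ht.2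
  have x1 : ∀ s ∈ Icc a t1, m * (zz W g s z).im / E ≤ (zz W g s z).re := fun s hs => by
    simpa only [zz_im] using (hS s hs).1
  have x2 : ∀ s ∈ Icc a t1, (zz W g s z).re ≤ E * m * (zz W g s z).im := fun s hs => by
    simpa only [zz_im] using (hS s hs).2
  have L0 : ∀ s ∈ Icc a t, ∀ r ∈ Icc s t, Real.log (g r z).im ≤ Real.log (g s z).im :=
    fun s hs r hr => Real.log_le_log (h.flow_pos hz ⟨(su hs).1.trans hr.1, hr.2.trans ht.2⟩)
      (h.Y_anti t10 hz (su hs).1 hr.1 (hr.2.trans ht.2))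
  have Q0 : 0 < 4 / (A ^ 2 * m) := by positivity
  have hQ : ∀ s ∈ Icc a t, 4 / (A ^ 2 * m) * Real.exp (1 / (2 * E * m) ^ 2 *
      (Real.log (g s z).im - Real.log (g t z).im)) ≤ bigQ (zz W g s z) (zz W g s w) := by
    intro s hs
    have k := s2_le (c := 1 / (2 * E * m) ^ 2) ((continuousOn_const.mul (((h.zz_cont t10 hw).sub
      (h.zz_cont t10 hz).star).norm.pow 2)).div (h.f2_cn t10 hz hw)
      fun _ hs => h.f2_nn hz hw hs) (h.flow_c2 t10 hz) (su hs).1 hs.2 ht.2 fun r hr => by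
        have r0 : r ∈ Icc a t := ⟨hs.1.trans hr.1.le, hr.2.le⟩
        exact s2_cs (h.s2_pos hz (su r0)) (h.s2_pos hw (su r0))
          (s2_rho hE hm (h.s2_pos hz (su r0)) (x1 r (su' r0)) (x2 r (su' r0)))
    have k1 := h.logQ_int t10 hz hw ne (su hs).1 hs.2 ht.2
    rw [← h.logY_int t10 hz (su hs).1 hs.2 ht.2] at k
    have k2 := k.trans k1.ge
    have k3 : 0 < bigQ (g s z) (g s w) := by
      have l1 := h.flow_pos hz (su hs)
      have l2 := h.flow_pos hw (su hs)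
      have l3 : 0 < ‖g s w - g s z‖ := norm_pos_iff.2 fun e' => ne ((h.bij s (su hs).1).injOn
        (h.anti s t1 (su hs).1 (su hs).2 hz) (h.anti s t1 (su hs).1 (su hs).2 hw)
        (sub_eq_zero.1 e').symm)
      unfold bigQ
      positivity
    have k4 := Real.exp_le_exp.2 k2
    rw [Real.exp_sub, Real.exp_log k3, Real.exp_log (Q0.trans_le q1),
      le_div_iff₀ (Q0.trans_le q1)] at k4
    rw [s2_Q, mul_comm]
    exact (mul_le_mul_of_nonneg_left q1 (Real.exp_pos _).le).trans k4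
  have hB : ∀ b ∈ Icc a t, |rot W g b t z w| ≤
      B / m * (Real.log (g b z).im - Real.log (g t z).im) := fun b hb => by
    rw [h.logY_int t10 hz (su hb).1 hb.2 ht.2]
    refine (Real.norm_eq_abs _).ge.trans
      (s2_nle (h.flow_c2 t10 hz) (su hb).1 hb.2 ht.2 fun s hs => ?_)
    have s0 : s ∈ Icc a t := ⟨hb.1.trans hs.1, hs.2⟩
    have p0 := h.s2_pos hz (su s0)
    have k := s2_low hE m0 A1 p0 (x1 s (su' s0)) (le_trans (le_mul_of_one_le_right Q0.le
      (Real.one_le_exp (mul_nonneg (by positivity) (sub_nonneg.2 (L0 s s0 t ⟨hs.2, le_rfl⟩)))))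
      (hQ s s0))
    refine (s2_abs p0 (by positivity) k).trans (le_of_eq ?_)
    rw [eB]
    field_simp
    norm_num
  have La := sub_nonneg.2 (L0 a ⟨le_rfl, ht.1⟩ t ⟨ht.1, le_rfl⟩)
  have m2 : 2 / m ≤ 2 := div_le_self zero_le_two (by linarith)
  have ad := h.s2_add t10 hz hw ha ht.1 ht.2 le_rfl
  constructor
  · rw [ad]
    have k := hB a ⟨le_rfl, ht.1⟩
    have k1 := abs_add_le (rot W g a t z w) (rot W g t t1 z w)
    have k2 : B / m * (Real.log (g a z).im - Real.log (g t z).im) ≤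
        ((c + B) * K + B + 1) * (Real.log (g a z).im - Real.log (g t z).im) / m := by
      rw [div_mul_eq_mul_div]
      exact div_le_div_of_nonneg_right (mul_le_mul_of_nonneg_right (by linarith) La) m0.le
    linarith
  obtain ⟨b, hb, b1, b2⟩ : ∃ b ∈ Icc a t, Real.log (g b z).im - Real.log (g t z).im ≤ K * m ^ 2 ∧
      ∀ s ∈ Ioo a b, K * m ^ 2 ≤ Real.log (g s z).im - Real.log (g t z).im := by
    rcases le_total (Real.log (g a z).im - Real.log (g t z).im) (K * m ^ 2) with k | k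
    · exact ⟨a, ⟨le_rfl, ht.1⟩, k, fun s hs => absurd (hs.1.trans hs.2) (lt_irrefl a)⟩
    have cl : ContinuousOn (fun s => Real.log (g s z).im - Real.log (g t z).im) (Icc a t) :=
      fun s hs => (((h.d_logY t10 hz (su hs)).continuousWithinAt).mono su).sub
        continuousWithinAt_const
    obtain ⟨b, hb, eb⟩ := intermediate_value_Icc' ht.1 cl
      ⟨(sub_self _).trans_le (by positivity : 0 ≤ K * m ^ 2), k⟩
    refine ⟨b, hb, eb.le, fun s hs => eb.ge.trans (sub_le_sub_right ?_ _)⟩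
    exact L0 s ⟨hs.1.le, hs.2.le.trans hb.2⟩ b ⟨hs.2.le, hb.2⟩
  have k := s2_le (c := c / m) (h.s2_cR t10 hz hw) (h.flow_c2 t10 hz) ha hb.1 (hb.2.trans ht.2)
    fun s hs => by
      have s0 : s ∈ Icc a t := ⟨hs.1.le, hs.2.le.trans hb.2⟩
      rw [ec]
      refine s2_near hE hm (h.s2_pos hz (su s0)) (h.s2_pos hw (su s0)) (x1 s (su' s0))
        (x2 s (su' s0)) (le_trans ?_ (hQ s s0))
      have l1 := mul_le_mul_of_nonneg_left (b2 s hs) (by positivity : 0 ≤ 1 / (2 * E * m) ^ 2)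
      have l2 := Real.add_one_le_exp (1 / (2 * E * m) ^ 2 *
        (Real.log (g s z).im - Real.log (g t z).im))
      refine le_trans (le_of_eq ?_) (mul_le_mul_of_nonneg_left
        (l1.trans ((le_add_of_nonneg_right zero_le_one).trans l2)) Q0.le)
      rw [eK]
      field_simp
      norm_num
  rw [← h.logY_int t10 hz ha hb.1 (hb.2.trans ht.2)] at k
  have k1 := (neg_abs_le _).trans' (neg_le_neg (hB b hb))
  have k2 := (neg_abs_le _).trans' (neg_le_neg r1)
  have k3 : (c + B) / m * (Real.log (g b z).im - Real.log (g t z).im) ≤ (c + B) * K * m := by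
    refine (mul_le_mul_of_nonneg_left b1 (by positivity)).trans (le_of_eq ?_)
    field_simp
  have k4 : 2 / m ≤ m := by
    rw [div_le_iff₀ m0]
    nlinarith
  rw [ad, h.s2_add t10 hz hw ha hb.1 hb.2 ht.2]
  have k5 : c * (Real.log (g a z).im - Real.log (g t z).im) / m =
      c / m * (Real.log (g a z).im - Real.log (g b z).im) +
      (c + B) / m * (Real.log (g b z).im - Real.log (g t z).im) -
      B / m * (Real.log (g b z).im - Real.log (g t z).im) := by ring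
  have k6 := mul_pos B0 m0
  unfold rot at *
  linarith

/-- estimates for the points of the central line of the corridor -/
theorem sp2 {E : ℝ} (hE : 1 ≤ E) : ∃ c1 C1 : ℝ, 0 < c1 ∧ 1 ≤ C1 ∧
    ∀ {W D g}, Chain W D g → ∀ m a t1 : ℝ, ∀ z ∈ D t1, 8 * E ≤ m → 0 ≤ a → SpH W g E m a t1 z →
    ∀ t ∈ Icc a t1, ∀ w ∈ D t1, zz W g t1 w = Complex.I * (m * (g t z).im : ℝ) →
      |rot W g a t1 z w| ≤ C1 * (Real.log (g a z).im - Real.log (g t z).im) / m + 2 ∧
      c1 * (Real.log (g a z).im - Real.log (g t z).im) / m - C1 * m ≤ rot W g a t1 z w ∧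
      dep W g a t1 z w ≤ C1 * (Real.log (g a z).im - Real.log (g t z).im) / m ^ 2 + C1 ∧
      c1 * (Real.log (g a z).im - Real.log (g t z).im) / m ^ 2 - C1 ≤ dep W g a t1 z w := by
  obtain ⟨c, C, c0, C1, H⟩ := s2_rot hE
  have E0 : 0 < E := by linarith
  have EC : C ≤ E * C := le_mul_of_one_le_left (by linarith) hE
  refine ⟨c / E, E * C + 2, by positivity, by linarith, ?_⟩
  intro W D g h m a t1 z hz hm ha hS t ht w hw e
  obtain ⟨r1, r2⟩ := H h m a t1 z hz hm ha hS t ht w hw e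
  have at1 := ht.1.trans ht.2
  have t10 := ha.trans at1
  have m0 : 0 < m := by linarith
  have su : Icc a t1 ⊆ Icc 0 t1 := Icc_subset_Icc ha le_rfl
  have La : 0 ≤ Real.log (g a z).im - Real.log (g t z).im :=
    sub_nonneg.2 (Real.log_le_log (h.flow_pos hz (su ht)) (h.Y_anti t10 hz ha ht.1 ht.2))
  generalize Real.log (g a z).im - Real.log (g t z).im = L at r1 r2 La ⊢
  have pt := fun s (hs : s ∈ Icc a t1) => s2_dep E0 m0 (h.s2_pos hz (su hs)) (h.s2_pos hw (su hs))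
    (by simpa only [zz_im] using (hS s hs).1) (by simpa only [zz_im] using (hS s hs).2)
  have cG := (h.s2_cR t10 hz hw).add ((h.s2_cH t10 hz hw).const_smul (2 : ℝ))
  have d1 := (le_abs_self _).trans (s2_nle cG ha at1 le_rfl fun s hs => (pt s hs).1)
  have d2 := s2_le ((continuousOn_const.mul (h.f2_cp t10 hz)).mul (h.f2_cp t10 hw)) cG ha at1
    le_rfl fun s hs => (pt s (Ioo_subset_Icc_self hs)).2
  have ar := abs_le.1 ((h.arg_int t10 hz hw ha at1 le_rfl).trans Real.pi_le_four)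
  simp only [Pi.add_apply, Pi.smul_apply, Pi.mul_apply, smul_eq_mul] at d1 d2
  rw [intervalIntegral.integral_add
    (((h.s2_cR t10 hz hw).mono su).intervalIntegrable_of_Icc at1)
    ((((h.s2_cH t10 hz hw).mono su).intervalIntegrable_of_Icc at1).const_mul 2),
    intervalIntegral.integral_const_mul] at d1 d2
  have Lm := div_nonneg La m0.le
  have Lm2 := div_nonneg La (sq_nonneg m)
  refine ⟨r1.trans ?_, le_trans ?_ r2, d1.trans ?_, le_trans ?_ d2⟩
  · rw [mul_div_assoc, mul_div_assoc]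
    nlinarith
  · rw [mul_div_assoc, mul_div_assoc]
    nlinarith [div_le_self c0.le hE]
  · have k := mul_le_mul_of_nonneg_left (add_le_add ((le_abs_self _).trans r1)
      (mul_le_mul_of_nonneg_left ar.2 zero_le_two)) (div_pos E0 m0).le
    refine k.trans ?_
    have k1 : E / m ≤ 1 / 8 := by
      rw [div_le_div_iff₀ m0 (by norm_num)]
      linarith
    have k2 : E / m * (C * L / m + 2 + 2 * 4) = E * C * (L / m ^ 2) + 10 * (E / m) := by ring
    rw [k2, mul_div_assoc]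
    nlinarith
  · have k := mul_le_mul_of_nonneg_left (add_le_add r2
      (mul_le_mul_of_nonneg_left ar.1 zero_le_two)) (by positivity : 0 ≤ 1 / (E * m))
    refine le_trans ?_ k
    have k1 : 1 / (E * m) ≤ 1 / 8 := one_div_le_one_div_of_le (by norm_num) (by nlinarith)
    have k2 : 1 / (E * m) * (c * L / m - C * m + 2 * -4) =
        c / E * L / m ^ 2 - C / E - 8 * (1 / (E * m)) := by
      field_simp
      ring
    rw [k2]
    linarith [div_le_self (by linarith : 0 ≤ C) hE]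

end Vale.Agent.P164
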