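import Vale.Agent.P164.Sp2

namespace Vale.Agent.P164

open Set
open scoped ComplexConjugate

/-- a continuous logarithm of a differentiable curve is Lipschitz -/
theorem log_lift {Λ f f' : ℝ → ℂ} {a b L : ℝ} (hab : a ≤ b) (hc : ContinuousOn Λ (Icc a b))
    (he : ∀ y ∈ Icc a b, f y = Complex.exp (Λ y))
    (hd : ∀ y ∈ Icc a b, HasDerivAt f (f' y) y) (hL : ∀ y ∈ Icc a b, ‖f' y‖ ≤ L * ‖f y‖) :
    ‖Λ b - Λ a‖ ≤ L * (b - a) := by
  have hne : ∀ y ∈ Icc a b, f y ≠ 0 := fun y hy => by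
    rw [he y hy]
    exact Complex.exp_ne_zero _
  refine norm_image_sub_le_of_norm_deriv_le_segment' (f' := fun y => f' y / f y)
    (fun y hy => ?_) (fun y hy => ?_) b (right_mem_Icc.2 hab)
  · have h1 := (((hd y hy).div_const (f y)).clog_real
      (by rw [div_self (hne y hy)]; exact Complex.one_mem_slitPlane)).const_add (Λ y)
    rw [div_self (hne y hy), div_one] at h1
    refine h1.hasDerivWithinAt.congr_of_eventuallyEq ?_ (by simp [div_self (hne y hy)])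
    filter_upwards [(hc y hy).eventually (Metric.ball_mem_nhds _ Real.pi_pos),
      self_mem_nhdsWithin] with x h2 hx
    have h3 := abs_lt.1 ((Complex.abs_im_le_norm _).trans_lt (mem_ball_iff_norm.1 h2))
    rw [he x hx, he y hy, ← Complex.exp_sub, Complex.log_exp h3.1 h3.2.le, add_sub_cancel]
  · have h1 := Ico_subset_Icc_self hy
    rw [norm_div, div_le_iff₀ (norm_pos_iff.2 (hne y h1))]
    exact hL y h1

theorem sp3_conj (a : ℂ) (ha : 0 < a.im) : ‖a - conj a‖ = 2 * a.im := by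
  rw [Complex.sub_conj, norm_mul, Complex.norm_I, mul_one, Complex.norm_real,
    Real.norm_of_nonneg (by linarith)]

theorem sp3_den (a b : ℂ) : b.im + a.im ≤ ‖b - conj a‖ := by
  simpa using Complex.im_le_norm (b - conj a)

theorem sp3_phi {a b : ℂ} (ha : 0 < a.im) (hb : 8 * a.im ≤ b.im) : ‖phi a b - 1‖ ≤ 1 / 4 := by
  have h1 := f2_ne ha (by linarith : 0 < b.im)
  have e : phi a b - 1 = -(a - conj a) / (b - conj a) := by
    rw [phi, div_sub_one h1]
    ring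
  rw [e, norm_div, norm_neg, sp3_conj a ha, div_le_iff₀ (norm_pos_iff.2 h1)]
  linarith [sp3_den a b]

theorem sp3_near {a b : ℂ} (ha : 0 < a.im) (hb : 0 < b.im) (h : ‖phi a b‖ ≤ 1 / 4) :
    ‖b - a‖ ≤ 2 / 3 * a.im := by
  rw [phi, norm_div, div_le_iff₀ (norm_pos_iff.2 (f2_ne ha hb))] at h
  have := norm_sub_le_norm_sub_add_norm_sub b a (conj a)
  rw [sp3_conj a ha] at this
  linarith

theorem sp3_dphi {a b : ℂ} (ha : 0 < a.im) (hb : 0 < b.im) :
    ∃ c : ℂ, HasDerivAt (phi a) c b ∧ ‖c‖ ≤ 2 / a.im := by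
  have h1 := f2_ne ha hb
  refine ⟨(a - conj a) / (b - conj a) ^ 2, (((hasDerivAt_id b).sub_const a).div
    ((hasDerivAt_id b).sub_const (conj a)) h1).congr_deriv (by simp), ?_⟩
  have h2 := sp3_den a b
  rw [norm_div, sp3_conj a ha, norm_pow, div_le_div_iff₀ (pow_pos (norm_pos_iff.2 h1) 2) ha]
  nlinarith

theorem sp3_div (p : ℝ) (u : ℂ) : (4 * Complex.I * p / u).re = 4 * p * pk u ∧
    (4 * Complex.I * p / u).im = 4 * p * (u.re / ‖u‖ ^ 2) := by
  rw [Complex.div_re, Complex.div_im, Complex.normSq_eq_norm_sq, pk]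
  constructor <;> simp <;> ring

/-- the statement of the distortion theorem -/
def sp3K (C : ℝ) : Prop := ∀ f : ℂ → ℂ, Uv f → ∀ z ∈ uhp, ∀ w : ℂ,
  ‖w - z‖ ≤ 3 * z.im → z.im / 3 ≤ w.im →
    ‖deriv f w‖ ≤ C * ‖deriv f z‖ ∧ ‖deriv f z‖ ≤ C * ‖deriv f w‖ ∧
      ‖f w - f z‖ ≤ C * ‖w - z‖ * ‖deriv f z‖

/-- the exponent of `phi_int` -/
noncomputable def sp3J (W : ℝ → ℝ) (g : ℝ → ℂ → ℂ) (a b : ℝ) (z w : ℂ) : ℂ :=
  ∫ s in a..b, 4 * Complex.I * (pk (zz W g s z) : ℂ) / zz W g s w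

variable {W : ℝ → ℝ} {D : ℝ → Set ℂ} {g : ℝ → ℂ → ℂ} {a t C : ℝ} {z w : ℂ}

theorem Chain.sp3_koebe (h : Chain W D g) (hK : sp3K C) (hC : 0 ≤ C) (ha : 0 ≤ a) (hz : z ∈ D a)
    (hw : w ∈ D a) (hp : ‖phi (g a z) (g a w)‖ ≤ 1 / 4) :
    ‖w - z‖ ≤ C * ups g a z ∧ ups g a w ≤ 2 * C * ups g a z ∧
      ‖deriv (g a) w‖ * ups g a z ≤ C * (g a z).im := by
  have p1 := h.im_pos ha hz
  have p2 := h.im_pos ha hw
  have n1 := sp3_near p1 p2 hp
  have n2 := abs_le.1 ((Complex.abs_im_le_norm _).trans n1)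
  rw [Complex.sub_im] at n2
  obtain ⟨k1, k2, k3⟩ := hK _ (h.iv_uv ha) _ p1 (g a w) (by linarith) (by linarith [n2.1])
  rw [h.iv_g ha hz, h.iv_g ha hw] at k3
  rw [h.ups_eq ha hz, h.ups_eq ha hw]
  have q := norm_nonneg (deriv (iv D g a) (g a z))
  refine ⟨k3.trans ?_, ?_, ?_⟩
  · rw [mul_assoc]
    exact mul_le_mul_of_nonneg_left (mul_le_mul_of_nonneg_right (by linarith) q) hC
  · refine (mul_le_mul (b := 2 * (g a z).im) (by linarith [n2.2]) k1 (norm_nonneg _)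
      (by linarith)).trans_eq (by ring)
  · rw [h.deriv_iv ha hw, norm_inv] at k2
    have q2 := norm_pos_iff.2 (h.deriv_ne ha hw)
    rw [← div_eq_mul_inv, le_div_iff₀ q2] at k2
    nlinarith

theorem Chain.sp3_ci (h : Chain W D g) (ht : 0 ≤ t) (hz : z ∈ D t) (hw : w ∈ D t) :
    ContinuousOn (fun s => 4 * Complex.I * (pk (zz W g s z) : ℂ) / zz W g s w) (Icc 0 t) :=
  (continuousOn_const.mul (Complex.continuous_ofReal.comp_continuousOn (h.f2_cp ht hz))).div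
    (h.zz_cont ht hw) fun _ hs => h.flow_ne hw hs

theorem Chain.sp3_reim (h : Chain W D g) (ha : 0 ≤ a) (hat : a ≤ t) (hz : z ∈ D t) (hw : w ∈ D t) :
    (sp3J W g a t z w).re = dep W g a t z w ∧ (sp3J W g a t z w).im = rot W g a t z w := by
  have hi : IntervalIntegrable (fun s => 4 * Complex.I * (pk (zz W g s z) : ℂ) / zz W g s w)
      MeasureTheory.volume a t :=
    ((h.sp3_ci (ha.trans hat) hz hw).mono (Icc_subset_Icc_left ha)).intervalIntegrable_of_Icc hat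
  refine ⟨(Complex.reCLM.intervalIntegral_comp_comm hi).symm.trans ?_,
    (Complex.imCLM.intervalIntegral_comp_comm hi).symm.trans ?_⟩
  · exact intervalIntegral.integral_congr fun s _ => (sp3_div _ _).1
  · exact intervalIntegral.integral_congr fun s _ => (sp3_div _ _).2

theorem sp3_up (x : ℝ) {y : ℝ} (hy : 0 < y) : (x : ℂ) + Complex.I * y ∈ uhp := by
  simpa [uhp] using hy

theorem Chain.sp3_cw (h : Chain W D g) (ha : 0 ≤ a) (hat : a ≤ t) {y : ℝ} (hy : 0 < y) :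
    HasDerivAt (fun u : ℂ => g a (iv D g t (W t + Complex.I * u)))
      (deriv (g a) (iv D g t (W t + Complex.I * y)) *
        (deriv (iv D g t) (W t + Complex.I * y) * Complex.I)) y := by
  have ht := ha.trans hat
  have h1 := h.anti a t ha hat (h.iv_mem ht (sp3_up (W t) hy)).1
  have d1 : HasDerivAt (fun u : ℂ => W t + Complex.I * u) Complex.I y := by
    simpa using ((hasDerivAt_id (y : ℂ)).const_mul Complex.I).const_add (W t : ℂ)
  have d2 := ((h.iv_uv ht).diff (sp3_up (W t) hy)).hasDerivAt.comp (y : ℂ) d1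
  exact ((h.diff a ha).differentiableAt ((h.op a ha).mem_nhds h1)).hasDerivAt.comp (y : ℂ) d2

theorem Chain.sp3_cont (h : Chain W D g) (ha : 0 ≤ a) (hat : a ≤ t) (hz : z ∈ D t) {y0 : ℝ}
    (h0 : 0 < y0) :
    ContinuousOn (fun y : ℝ => sp3J W g a t z (iv D g t (W t + Complex.I * y))) (Ici y0) := by
  have ht := ha.trans hat
  have hm := fun y : ℝ => fun hy : y ∈ Ici y0 => h.iv_mem ht (sp3_up (W t) (h0.trans_le hy))
  have hI : ∀ s ∈ uIoc a t, s ∈ Icc 0 t := fun s hs => by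
    rw [uIoc_of_le hat] at hs
    exact ⟨ha.trans hs.1.le, hs.2⟩
  have pz := h.im_pos ht hz
  intro y hy
  refine intervalIntegral.continuousWithinAt_of_dominated_interval
    (bound := fun _ => 4 * (1 / (g t z).im) / y0) ?_ ?_ intervalIntegrable_const ?_
  · filter_upwards [self_mem_nhdsWithin] with x hx
    exact ((h.sp3_ci ht hz (hm x hx).1).mono hI).aestronglyMeasurable measurableSet_uIoc
  · filter_upwards [self_mem_nhdsWithin] with x hx
    refine Filter.Eventually.of_forall fun s hs => ?_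
    have a1 := h.flow_le ht (hm x hx).1 (hI s hs)
    have a2 := h.flow_le ht hz (hI s hs)
    rw [(hm x hx).2] at a1
    have a3 : y0 ≤ ‖zz W g s (iv D g t (W t + Complex.I * x))‖ := le_trans (by simpa using hx) a1
    have a4 : |pk (zz W g s z)| ≤ 1 / (g t z).im := by
      rw [pk, abs_div, abs_of_nonneg (sq_nonneg ‖zz W g s z‖),
        div_le_div_iff₀ (pow_pos (pz.trans_le a2) 2) pz, one_mul, sq]
      exact mul_le_mul (Complex.abs_im_le_norm _) a2 pz.le (norm_nonneg _)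
    rw [norm_div, norm_mul, norm_mul, Complex.norm_I, mul_one, Complex.norm_real, Real.norm_eq_abs,
      Complex.norm_ofNat]
    gcongr
  · refine Filter.Eventually.of_forall fun s hs => ?_
    have a1 := (h.sp3_cw (hI s hs).1 (hI s hs).2 (h0.trans_le hy)).comp_ofReal.continuousAt
    exact (continuousAt_const.div (a1.sub continuousAt_const)
      (h.flow_ne (hm y hy).1 (hI s hs))).continuousWithinAt

theorem Chain.sp3_pt (h : Chain W D g) (ha : 0 ≤ a) (hat : a ≤ t) (hz : z ∈ D t) (hw : w ∈ D t)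
    (h8 : 8 * (g t z).im ≤ (g t w).im) {M : ℝ} (h2 : 2 ≤ dep W g a t z w)
    (hM : dep W g a t z w ≤ M) :
    phi (g t z) (g t w) ∈ Complex.slitPlane ∧ phi (g a z) (g a w) =
      Complex.exp (Complex.log (phi (g t z) (g t w)) - sp3J W g a t z w) ∧
    ‖phi (g a z) (g a w)‖ ≤ 1 / 4 ∧ Real.exp (-M) / 2 ≤ ‖phi (g a z) (g a w)‖ := by
  have ht := ha.trans hat
  have a1 := sp3_phi (h.im_pos ht hz) h8
  have a2 : phi (g t z) (g t w) ∈ Complex.slitPlane := by
    simpa using Complex.mem_slitPlane_of_norm_lt_one (a1.trans_lt (by norm_num))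
  have a3 := abs_le.1 ((abs_norm_sub_norm_le _ _).trans a1)
  rw [norm_one] at a3
  have e : phi (g a z) (g a w) = phi (g t z) (g t w) * Complex.exp (-sp3J W g a t z w) :=
    h.phi_int ht hz hw ha hat le_rfl
  have a4 : ‖phi (g a z) (g a w)‖ = ‖phi (g t z) (g t w)‖ * Real.exp (-dep W g a t z w) := by
    rw [e, norm_mul, Complex.norm_exp, Complex.neg_re, (h.sp3_reim ha hat hz hw).1]
  refine ⟨a2, ?_, ?_, ?_⟩
  · rw [sub_eq_add_neg, Complex.exp_add, Complex.exp_log (Complex.slitPlane_ne_zero a2), e]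
  · have b1 := Real.quadratic_le_exp_of_nonneg (x := 2) (by norm_num)
    have b2 := Real.exp_le_exp.2 h2
    rw [a4, Real.exp_neg, ← div_eq_mul_inv, div_le_iff₀ (Real.exp_pos _)]
    linarith [a3.2]
  · have b1 := Real.exp_le_exp.2 (neg_le_neg hM)
    have b2 := Real.exp_pos (-M)
    rw [a4]
    nlinarith [a3.1]

/-- one dyadic piece -/
theorem Chain.sp3_piece (h : Chain W D g) (hK : sp3K C) (hC : 0 ≤ C) (ha : 0 ≤ a) (hat : a ≤ t)
    (hz : z ∈ D t) {M x x' : ℝ} (h8 : 8 * (g t z).im ≤ x) (hx : x ≤ x') (hx' : x' ≤ 2 * x)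
    (hd : ∀ y ∈ Icc x x', 2 ≤ dep W g a t z (iv D g t (W t + Complex.I * y)) ∧
      dep W g a t z (iv D g t (W t + Complex.I * y)) ≤ M) {Λ : ℝ → ℂ}
    (hΛ : ∀ y : ℝ, Λ y = Complex.log (phi (g t z) (W t + Complex.I * y)) -
      sp3J W g a t z (iv D g t (W t + Complex.I * y))) :
    ‖Λ x' - Λ x‖ ≤ 4 * C ^ 2 * Real.exp M / ups g a z *
      ups g t (iv D g t (W t + Complex.I * x)) := by
  have ht := ha.trans hat
  have pz := h.im_pos ht hz
  have x0 : 0 < x := by linarith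
  have hza := h.anti a t ha hat hz
  have pa := h.im_pos ha hza
  have pr := h.ups_pos ha hza
  have hm := fun y : ℝ => fun hy : y ∈ Icc x x' => h.iv_mem ht (sp3_up (W t) (x0.trans_le hy.1))
  have hp := fun y : ℝ => fun hy : y ∈ Icc x x' => h.sp3_pt ha hat hz (hm y hy).1
    (by rw [(hm y hy).2]; simpa using h8.trans hy.1) (hd y hy).1 (hd y hy).2
  have eu := h.ups_eq ht (hm x ⟨le_rfl, hx⟩).1
  rw [(hm x ⟨le_rfl, hx⟩).2] at eu
  simp only [Complex.add_im, Complex.ofReal_im, Complex.I_mul_im, Complex.ofReal_re,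
    zero_add] at eu
  have hd' : ∀ y ∈ Icc x x', ∃ c : ℂ, HasDerivAt
      (fun y : ℝ => phi (g a z) (g a (iv D g t (W t + Complex.I * y)))) c y ∧
      ‖c‖ ≤ 4 * C ^ 2 * Real.exp M / ups g a z * ‖deriv (iv D g t) (W t + Complex.I * x)‖ *
        ‖phi (g a z) (g a (iv D g t (W t + Complex.I * y)))‖ := fun y hy => by
    have hwa := h.anti a t ha hat (hm y hy).1
    obtain ⟨c, c1, c2⟩ := sp3_dphi pa (h.im_pos ha hwa)
    have c3 := HasDerivAt.comp (y : ℂ) (h₂ := phi (g a z)) c1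
      (h.sp3_cw ha hat (x0.trans_le hy.1))
    refine ⟨_, c3.comp_ofReal, ?_⟩
    have k1 := (h.sp3_koebe hK hC ha hza hwa (hp y hy).2.2.1).2.2
    have k2 := (hK _ (h.iv_uv ht) _ (sp3_up (W t) x0) (W t + Complex.I * y) (by
      rw [add_sub_add_left_eq_sub, ← mul_sub, norm_mul, Complex.norm_I, one_mul,
        ← Complex.ofReal_sub, Complex.norm_real, Real.norm_of_nonneg (sub_nonneg.2 hy.1)]
      simp only [Complex.add_im, Complex.ofReal_im, Complex.I_mul_im, Complex.ofReal_re, zero_add]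
      linarith [hy.2]) (by
      simp only [Complex.add_im, Complex.ofReal_im, Complex.I_mul_im, Complex.ofReal_re, zero_add]
      linarith [hy.1])).1
    rw [← le_div_iff₀ pr] at k1
    rw [norm_mul, norm_mul, norm_mul, Complex.norm_I, mul_one]
    refine (mul_le_mul c2 (mul_le_mul k1 k2 (norm_nonneg _) (by positivity)) (by positivity)
      (by positivity)).trans (le_trans (le_of_eq ?_)
        (mul_le_mul_of_nonneg_left (hp y hy).2.2.2 (by positivity)))
    rw [Real.exp_neg]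
    field_simp
    ring
  choose! f' d1 d2 using hd'
  refine (log_lift hx ?_ (fun y hy => ?_) d1 d2).trans ?_
  · rw [funext hΛ]
    refine ContinuousOn.sub (ContinuousOn.clog (ContinuousOn.div (by fun_prop) (by fun_prop)
      fun y hy => f2_ne pz (sp3_up (W t) (x0.trans_le hy.1))) fun y hy => ?_)
      ((h.sp3_cont ha hat hz x0).mono Icc_subset_Ici_self)
    have := (hp y hy).1
    rwa [(hm y hy).2] at this
  · have := (hp y hy).2.1
    rwa [(hm y hy).2, ← hΛ] at this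
  · rw [eu, mul_assoc, mul_comm x]
    exact mul_le_mul_of_nonneg_left (mul_le_mul_of_nonneg_left (by linarith) (norm_nonneg _))
      (by positivity)

theorem Chain.sp3_time (h : Chain W D g) (ha : 0 ≤ a) (hat : a ≤ t) (hz : z ∈ D t) {L : ℝ}
    (h0 : 0 ≤ L) (hL : L ≤ Real.log (g a z).im - Real.log (g t z).im) :
    ∃ s ∈ Icc a t, Real.log (g a z).im - Real.log (g s z).im = L ∧
      (g s z).im = (g a z).im * Real.exp (-L) := by
  have hI : Icc a t ⊆ Icc 0 t := Icc_subset_Icc_left ha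
  have hc : ContinuousOn (fun s => Real.log (g a z).im - Real.log (g s z).im) (Icc a t) :=
    continuousOn_const.sub (((h.f2_cy (ha.trans hat) hz).mono hI).log fun s hs =>
      (h.flow_pos hz (hI hs)).ne')
  obtain ⟨s, hs, e⟩ := intermediate_value_Icc hat hc ⟨(sub_self _).trans_le h0, hL⟩
  refine ⟨s, hs, e, ?_⟩
  rw [← e, neg_sub, Real.exp_sub, Real.exp_log (h.flow_pos hz (hI hs)),
    Real.exp_log (h.flow_pos hz ⟨ha, hat⟩), mul_div_cancel₀ _ (h.flow_pos hz ⟨ha, hat⟩).ne']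

theorem sp3_dy {Λ : ℝ → ℂ} {u : ℝ → ℝ} {y Y A N : ℝ} (hy : 0 < y) (hY : y ≤ Y) (h0 : 0 ≤ N)
    (hN : Y ≤ y * Real.exp N)
    (hp : ∀ x x', y ≤ x → x ≤ x' → x' ≤ Y → x' ≤ 2 * x → ‖Λ x' - Λ x‖ ≤ A * u x) :
    ∃ J : ℕ, (J : ℝ) ≤ 2 * N + 1 ∧ (∀ j < J, y * 2 ^ j ∈ Icc y Y) ∧
      ‖Λ Y - Λ y‖ ≤ A * ∑ j ∈ Finset.range J, u (y * 2 ^ j) := by
  have h1 : Y ≤ y * 2 ^ ⌈2 * N⌉₊ := by
    refine hN.trans (mul_le_mul_of_nonneg_left ?_ hy.le)
    have a1 := Nat.le_ceil (2 * N)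
    have a2 := Real.log_two_gt_d9
    refine (Real.exp_le_exp.2 (?_ : N ≤ ⌈2 * N⌉₊ * Real.log 2)).trans_eq
      (by rw [Real.exp_nat_mul, Real.exp_log two_pos])
    nlinarith
  have hex : ∃ n : ℕ, Y ≤ y * 2 ^ n := ⟨_, h1⟩
  have h2 : ∀ j < Nat.find hex, y * 2 ^ j ∈ Icc y Y := fun j hj =>
    ⟨le_mul_of_one_le_right hy.le (one_le_pow₀ one_le_two), (not_le.1 (Nat.find_min hex hj)).le⟩
  refine ⟨Nat.find hex, (Nat.cast_le.2 (Nat.find_min' hex h1)).trans
    (Nat.ceil_lt_add_one (by linarith)).le, h2, ?_⟩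
  have h3 := dist_le_range_sum_of_dist_le (f := fun j => Λ (min (y * 2 ^ j) Y)) (Nat.find hex)
    (d := fun j => A * u (y * 2 ^ j)) fun {k} hk => by
      have b1 := h2 k hk
      rw [dist_comm, dist_eq_norm, min_eq_left b1.2]
      have b2 : y * 2 ^ (k + 1) = 2 * (y * 2 ^ k) := by ring
      exact hp _ _ b1.1 (le_min (by linarith [b1.1]) b1.2) (min_le_right _ _)
        (b2 ▸ min_le_left _ _)
  rwa [pow_zero, mul_one, min_eq_left hY, min_eq_right (Nat.find_spec hex), dist_comm,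
    dist_eq_norm, ← Finset.mul_sum] at h3

/-- the central line of the corridor is long -/
theorem sp3 {E : ℝ} (hE : 1 ≤ E) : ∃ B c C : ℝ, 1 ≤ B ∧ 0 < c ∧ 1 ≤ C ∧
    ∀ {W D g}, Chain W D g → ∀ m a t1 : ℝ, ∀ z ∈ D t1, 8 * E ≤ m → 0 ≤ a → a ≤ t1 →
    SpH W g E m a t1 z → B * m ^ 2 ≤ Real.log (g a z).im - Real.log (g t1 z).im →
    ∃ (y : ℝ) (J : ℕ), m * (g t1 z).im ≤ y ∧ (J : ℝ) ≤ C * m ^ 2 ∧
      (∀ j < J, ‖iv D g t1 (W t1 + Complex.I * (y * 2 ^ j : ℝ)) - z‖ ≤ C * ups g a z ∧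
        ups g t1 (iv D g t1 (W t1 + Complex.I * (y * 2 ^ j : ℝ))) ≤ C * ups g a z) ∧
      c * m * ups g a z ≤
        ∑ j ∈ Finset.range J, ups g t1 (iv D g t1 (W t1 + Complex.I * (y * 2 ^ j : ℝ))) := by
  obtain ⟨c0, C1, hc0, hC1, H⟩ := sp2 hE
  obtain ⟨K, hK1, hK⟩ := koebe1 3 (by norm_num)
  obtain ⟨c1, hc1, hc2, hc3⟩ : ∃ c1 : ℝ, 0 < c1 ∧ c1 ≤ c0 ∧ c1 ≤ 1 :=
    ⟨min c0 1, lt_min hc0 one_pos, min_le_left _ _, min_le_right _ _⟩
  obtain ⟨β, hβ, e1⟩ : ∃ β : ℝ, 0 < β ∧ 4 * C1 * β = c1 :=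
    ⟨c1 / (4 * C1), by positivity, by field_simp⟩
  obtain ⟨B, hB0, e2⟩ : ∃ B : ℝ, 0 < B ∧ c1 * β * B = C1 + 2 :=
    ⟨(C1 + 2) / (c1 * β), by positivity, by field_simp⟩
  have hβ1 : 4 * β ≤ 1 := by nlinarith
  have e3 : 4 * (C1 + 2) ≤ c1 * B := by nlinarith [mul_pos hc1 hB0]
  have hB : 1 ≤ B := by nlinarith
  refine ⟨B, 1 / (4 * K ^ 2 * Real.exp (C1 * B + C1)), 2 * K + 2 * B + 1, hB, by positivity,
    by linarith, fun {W D g} h m a t z hz hm ha hat hS hL => ?_⟩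
  have ht := ha.trans hat
  have m8 : 8 ≤ m := by linarith
  have m0 : 0 < m := by linarith
  have m2 : 0 < m ^ 2 := by positivity
  have hza := h.anti a t ha hat hz
  have pa := h.im_pos ha hza
  have pz := h.im_pos ht hz
  have pr := h.ups_pos ha hza
  have hma : 0 < m * (g a z).im := by positivity
  have l0 : 0 ≤ β * B * m ^ 2 := by positivity
  have l1 : β * B * m ^ 2 ≤ B * m ^ 2 := by nlinarith [mul_pos hB0 m2]
  have key : ∀ L ∈ Icc (β * B * m ^ 2) (B * m ^ 2), ∀ x : ℝ, x = m * (g a z).im * Real.exp (-L) →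
      |rot W g a t z (iv D g t (W t + Complex.I * x))| ≤ C1 * L / m + 2 ∧
      c0 * L / m - C1 * m ≤ rot W g a t z (iv D g t (W t + Complex.I * x)) ∧
      dep W g a t z (iv D g t (W t + Complex.I * x)) ≤ C1 * L / m ^ 2 + C1 ∧
      c0 * L / m ^ 2 - C1 ≤ dep W g a t z (iv D g t (W t + Complex.I * x)) := by
    intro L hL' x hx
    obtain ⟨s, hs, f1, f2⟩ := h.sp3_time ha hat hz (l0.trans hL'.1) (hL'.2.trans hL)
    have hw := h.iv_mem ht (sp3_up (W t) (y := x) (by rw [hx]; positivity))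
    have := H h m a t z hz hm ha hS s hs _ hw.1 (by
      rw [zz, hw.2, add_sub_cancel_left, f2, hx, mul_assoc])
    rwa [f1] at this
  obtain ⟨y, hy⟩ : ∃ y, y = m * (g a z).im * Real.exp (-(B * m ^ 2)) := ⟨_, rfl⟩
  obtain ⟨Y, hY⟩ : ∃ y, y = m * (g a z).im * Real.exp (-(β * B * m ^ 2)) := ⟨_, rfl⟩
  have y0 : 0 < y := by rw [hy]; positivity
  have y1 : m * (g t z).im ≤ y := by
    rw [hy, mul_assoc, ← Real.exp_log pa, ← Real.exp_log pz, ← Real.exp_add]
    exact mul_le_mul_of_nonneg_left (Real.exp_le_exp.2 (by linarith)) m0.le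
  have y8 : 8 * (g t z).im ≤ y := (mul_le_mul_of_nonneg_right m8 pz.le).trans y1
  have hyY : y ≤ Y := by
    rw [hy, hY]
    exact mul_le_mul_of_nonneg_left (Real.exp_le_exp.2 (by linarith)) hma.le
  have hd : ∀ x ∈ Icc y Y, 2 ≤ dep W g a t z (iv D g t (W t + Complex.I * x)) ∧
      dep W g a t z (iv D g t (W t + Complex.I * x)) ≤ C1 * B + C1 := by
    intro x hx
    have x0 := div_pos (y0.trans_le hx.1) hma
    have b1 : β * B * m ^ 2 ≤ -Real.log (x / (m * (g a z).im)) := by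
      rw [le_neg, Real.log_le_iff_le_exp x0, div_le_iff₀' hma, ← hY]
      exact hx.2
    have b2 : -Real.log (x / (m * (g a z).im)) ≤ B * m ^ 2 := by
      rw [neg_le, Real.le_log_iff_exp_le x0, le_div_iff₀' hma, ← hy]
      exact hx.1
    obtain ⟨-, -, k1, k2⟩ := key _ ⟨b1, b2⟩ x
      (by rw [neg_neg, Real.exp_log x0, mul_div_cancel₀ _ hma.ne'])
    refine ⟨le_trans ?_ k2, k1.trans ?_⟩
    · rw [le_sub_iff_add_le, le_div_iff₀ m2]
      refine le_trans (le_of_eq ?_) (mul_le_mul hc2 b1 l0 hc0.le)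
      linear_combination (-m ^ 2) * e2
    · rw [add_le_add_iff_right, div_le_iff₀ m2, mul_assoc]
      exact mul_le_mul_of_nonneg_left b2 (by linarith)
  obtain ⟨Λ, hΛ⟩ : ∃ Λ : ℝ → ℂ, ∀ y : ℝ, Λ y = Complex.log (phi (g t z) (W t + Complex.I * y)) -
      sp3J W g a t z (iv D g t (W t + Complex.I * y)) := ⟨_, fun _ => rfl⟩
  have hm' := fun x : ℝ => fun hx : x ∈ Icc y Y => h.iv_mem ht (sp3_up (W t) (y0.trans_le hx.1))
  obtain ⟨J, j1, j2, j3⟩ := sp3_dy (Λ := Λ) (N := B * m ^ 2)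
    (u := fun x => ups g t (iv D g t (W t + Complex.I * x))) y0 hyY (by positivity) (by
      rw [hy, hY, mul_assoc _ (Real.exp _), ← Real.exp_add]
      exact mul_le_mul_of_nonneg_left (Real.exp_le_exp.2 (by linarith)) hma.le)
    fun x x' a1 a2 a3 a4 => h.sp3_piece hK (by linarith) ha hat hz (y8.trans a1) a2 a4
      (fun v hv => hd v ⟨a1.trans hv.1, hv.2.trans a3⟩) hΛ
  refine ⟨y, J, y1, j1.trans (by nlinarith), fun j hj => ?_, ?_⟩
  · have hx := j2 j hj
    generalize y * 2 ^ j = x at hx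
    have hw := hm' _ hx
    have k := h.sp3_koebe hK (by linarith) ha hza (h.anti a t ha hat hw.1) (h.sp3_pt ha hat hz hw.1
      (by rw [hw.2]; simpa using y8.trans hx.1) (hd _ hx).1 (hd _ hx).2).2.2.1
    exact ⟨k.1.trans (mul_le_mul_of_nonneg_right (by linarith) pr.le),
      (h.ups_anti ht hw.1 ha hat le_rfl).trans
        (k.2.1.trans (mul_le_mul_of_nonneg_right (by linarith) pr.le))⟩
  · have r1 := (key _ ⟨l1, le_rfl⟩ y hy).2.1
    have r2 := (abs_le.1 (key _ ⟨le_rfl, l1⟩ Y hY).1).2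
    have r3 := (Complex.im_le_norm _).trans j3
    have s1 := (abs_le.1 (Complex.abs_arg_le_pi (phi (g t z) (W t + Complex.I * y)))).2
    have s2 := (abs_le.1 (Complex.abs_arg_le_pi (phi (g t z) (W t + Complex.I * Y)))).1
    rw [hΛ, hΛ, Complex.sub_im, Complex.sub_im, Complex.sub_im, Complex.log_im, Complex.log_im,
      (h.sp3_reim ha hat hz (hm' y ⟨le_rfl, hyY⟩).1).2,
      (h.sp3_reim ha hat hz (hm' Y ⟨hyY, le_rfl⟩).1).2] at r3
    have t1 : c0 * (B * m ^ 2) / m = c0 * (B * m) := by field_simp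
    have t2 : C1 * (β * B * m ^ 2) / m = c1 * B * m / 4 := by
      rw [← e1]
      field_simp
    have t3 : c1 * (B * m) ≤ c0 * (B * m) := mul_le_mul_of_nonneg_right hc2 (by positivity)
    have t4 := mul_le_mul_of_nonneg_right e3 m0.le
    have t5 := mul_le_mul_of_nonneg_right hC1 m0.le
    have t6 := Real.pi_le_four
    have t7 : m ≤ 4 * K ^ 2 * Real.exp (C1 * B + C1) / ups g a z * ∑ j ∈ Finset.range J,
        ups g t (iv D g t (W t + Complex.I * (y * 2 ^ j : ℝ))) := by nlinarith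
    rw [div_mul_eq_mul_div, le_div_iff₀ pr] at t7
    rw [mul_assoc, one_div, inv_mul_le_iff₀ (by positivity)]
    exact t7

end Vale.Agent.P164
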