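import Vale.Agent.P164.Sp3

namespace Vale.Agent.P164

open Set Metric MeasureTheory

theorem sp4_disc : ∃ c K : ℝ, 0 < c ∧ c ≤ 1 ∧ 1 ≤ K ∧ ∀ {W D g}, Chain W D g → ∀ t, 0 ≤ t →
    ∀ Y : ℝ, 0 < Y → ∀ u, u = iv D g t (W t + Complex.I * Y) → 0 < ups g t u ∧
      ∀ w ∈ ball u (c * ups g t u), w ∈ D t ∧ ups g t u ≤ K * ups g t w ∧
        ups g t w ≤ K * ups g t u ∧ ‖zz W g t w‖ ≤ 2 * (g t w).im ∧ 3 / 4 * Y < (g t w).im ∧
        (g t w).im < 5 / 4 * Y := by
  obtain ⟨c, c0, c1, hc⟩ := koebe2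
  obtain ⟨K, K1, hK⟩ := koebe1 2 one_le_two
  refine ⟨c * (1 / 4), 2 * K, by positivity, by linarith, by linarith,
    fun {W D g} h t ht Y hY u hu => ?_⟩
  have e0 : ((W t : ℂ) + Complex.I * Y).im = Y := by simp
  have hζ : (W t : ℂ) + Complex.I * Y ∈ uhp := by
    change 0 < Complex.im _
    rwa [e0]
  obtain ⟨m1, m2⟩ := h.iv_mem ht hζ
  rw [← hu] at m1 m2
  have e1 := h.ups_eq ht m1
  rw [m2] at e1
  refine ⟨h.ups_pos ht m1, fun w hw => ?_⟩
  have h1 := hc _ (h.iv_uv ht) _ hζ (1 / 4) (by norm_num) (by norm_num)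
  rw [← hu, ← e1] at h1
  obtain ⟨ζ, hζ', rfl⟩ := h1 hw
  rw [mem_ball_iff_norm, e0] at hζ'
  have h2 := abs_lt.1 ((Complex.abs_im_le_norm _).trans_lt hζ')
  rw [Complex.sub_im, e0] at h2
  have h3 : ζ ∈ uhp := by
    change 0 < ζ.im
    linarith [h2.1]
  obtain ⟨m3, m4⟩ := h.iv_mem ht h3
  obtain ⟨k1, k2, -⟩ := hK _ (h.iv_uv ht) _ hζ ζ (by rw [e0]; linarith)
    (by rw [e0]; linarith [h2.1])
  have e2 := h.ups_eq ht m3
  rw [e0] at e1
  rw [m4] at e2
  have n1 := norm_nonneg (deriv (iv D g t) ζ)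
  have n2 := norm_nonneg (deriv (iv D g t) (W t + Complex.I * Y))
  rw [e1, e2, zz, m4]
  refine ⟨m3, ?_, ?_, ?_, by linarith [h2.1], by linarith [h2.2]⟩
  · have := mul_le_mul_of_nonneg_left k2 hY.le
    nlinarith [mul_nonneg (mul_nonneg (zero_le_one.trans K1) n1)
      (by linarith [h2.1] : 0 ≤ 2 * ζ.im - Y)]
  · have := mul_le_mul (by linarith [h2.2] : ζ.im ≤ 2 * Y) k1 n1 (by linarith)
    linarith
  · have e3 : ζ - W t = ζ - (W t + Complex.I * Y) + Complex.I * Y := by ring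
    have h4 := norm_add_le (ζ - (W t + Complex.I * Y)) (Complex.I * Y)
    rw [← e3, norm_mul, Complex.norm_I, Complex.norm_real, Real.norm_of_nonneg hY.le] at h4
    linarith [h2.1]

theorem sp4_area {s : Finset ℕ} {w : ℕ → ℂ} {ρ : ℕ → ℝ} {z : ℂ} {R : ℝ} (hρ : ∀ j ∈ s, 0 ≤ ρ j)
    (hR : 0 ≤ R) (hd : ∀ i ∈ s, ∀ j ∈ s, i ≠ j → Disjoint (ball (w i) (ρ i)) (ball (w j) (ρ j)))
    (hs : ∀ j ∈ s, ball (w j) (ρ j) ⊆ ball z R) : ∑ j ∈ s, ρ j ^ 2 ≤ R ^ 2 := by
  have h1 := measure_mono (μ := volume) (iUnion₂_subset hs)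
  rw [measure_biUnion_finset hd fun _ _ => measurableSet_ball] at h1
  simp only [Complex.volume_ball] at h1
  rw [← Finset.sum_mul, ENNReal.mul_le_mul_iff_left (ENNReal.coe_ne_zero.2 NNReal.pi_ne_zero) (by simp),
    ← ENNReal.ofReal_pow hR, Finset.sum_congr rfl fun j hj => (ENNReal.ofReal_pow (hρ j hj) 2).symm,
    ← ENNReal.ofReal_sum_of_nonneg fun j _ => sq_nonneg _] at h1
  exact (ENNReal.ofReal_le_ofReal_iff (sq_nonneg R)).1 h1

/-- a spiral produces about `m^2` disjoint discs of radius about `r / m` in the corridor -/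
theorem spiral {E : ℝ} (hE : 1 ≤ E) : ∃ B c C : ℝ, 1 ≤ B ∧ 0 < c ∧ c ≤ 1 ∧ 1 ≤ C ∧
    ∀ {W D g}, Chain W D g → ∀ m a t1 : ℝ, ∀ z ∈ D t1, 8 * E ≤ m → 0 ≤ a → a ≤ t1 →
    SpH W g E m a t1 z → B * m ^ 2 ≤ Real.log (g a z).im - Real.log (g t1 z).im →
    ∃ S : Finset ℂ, c * m ^ 2 ≤ S.card ∧
      (∀ u ∈ S, ∀ v ∈ S, u ≠ v →
        Disjoint (ball u (c * ups g a z / m)) (ball v (c * ups g a z / m))) ∧
      ∀ u ∈ S, ∀ w ∈ ball u (c * ups g a z / m), ‖w - z‖ ≤ C * ups g a z ∧ w ∈ D t1 ∧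
        c * ups g a z / m ≤ ups g t1 w ∧ ups g t1 w ≤ C * ups g a z / m ∧
        ‖zz W g t1 w‖ ≤ 2 * (g t1 w).im ∧ (g t1 z).im ≤ (g t1 w).im := by
  classical
  obtain ⟨B, c, C, B1, c0, C1, h3⟩ := sp3 hE
  obtain ⟨k, K, k0, k1, K1, hd⟩ := sp4_disc
  obtain ⟨lo, hlo⟩ : ∃ lo : ℝ, lo = c / (4 * C) := ⟨_, rfl⟩
  obtain ⟨hi, hhi⟩ : ∃ hi : ℝ, hi = 16 * C ^ 2 / (k ^ 2 * c) := ⟨_, rfl⟩
  have lo0 : 0 < lo := by rw [hlo]; positivity
  have hi0 : 0 < hi := by rw [hhi]; positivity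
  obtain ⟨cf, f0, f1, f2, f3, f4⟩ : ∃ cf : ℝ, 0 < cf ∧ cf ≤ 1 ∧ cf ≤ c / (2 * hi) ∧ cf ≤ k * lo ∧
      cf ≤ lo / K := ⟨min (min 1 (c / (2 * hi))) (min (k * lo) (lo / K)), by positivity,
    (min_le_left _ _).trans (min_le_left _ _), (min_le_left _ _).trans (min_le_right _ _),
    (min_le_right _ _).trans (min_le_left _ _), (min_le_right _ _).trans (min_le_right _ _)⟩
  have Kh : 0 < K * hi := by positivity
  refine ⟨B, cf, 2 * C + K * hi, B1, f0, f1, by linarith,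
    fun {W D g} h m a t1 z hz hm ha hat hS hB => ?_⟩
  obtain ⟨y, J, hy, hJ, hw, hsum⟩ := h3 h m a t1 z hz hm ha hat hS hB
  have ht : 0 ≤ t1 := ha.trans hat
  have m0 : 0 < m := by linarith
  have r0 := h.ups_pos ha (h.anti a t1 ha hat hz)
  have Y0 := h.im_pos ht hz
  have y0 : 0 < y := (mul_pos m0 Y0).trans_le hy
  generalize ups g a z = r at *
  obtain ⟨w, hwe⟩ : ∃ w : ℕ → ℂ, ∀ j,
      w j = iv D g t1 (W t1 + Complex.I * (y * 2 ^ j : ℝ)) := ⟨_, fun _ => rfl⟩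
  have hj := fun j : ℕ => hd h t1 ht (y * 2 ^ j) (by positivity) (w j) (hwe j)
  simp only [← hwe] at hw hsum
  have dis : ∀ i j, i ≠ j →
      Disjoint (ball (w i) (k * ups g t1 (w i))) (ball (w j) (k * ups g t1 (w j))) := by
    intro i j hij
    wlog hlt : i < j generalizing i j
    · exact (this j i hij.symm (by omega)).symm
    refine disjoint_left.2 fun v h1 h2 => ?_
    have a1 := ((hj i).2 v h1).2.2.2.2.2
    have a2 := ((hj j).2 v h2).2.2.2.2.1
    have a3 : (2 : ℝ) ^ (i + 1) ≤ 2 ^ j := pow_le_pow_right₀ one_le_two hlt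
    have a4 : (0 : ℝ) < 2 ^ i := by positivity
    rw [pow_succ] at a3
    nlinarith
  have sub : ∀ j < J, ball (w j) (k * ups g t1 (w j)) ⊆ ball z (2 * C * r) := fun j hjJ v hv => by
    rw [mem_ball_iff_norm] at hv ⊢
    have a1 := norm_sub_le_norm_sub_add_norm_sub v (w j) z
    have a2 := mul_le_of_le_one_left (hj j).1.le k1
    linarith [(hw j hjJ).1, (hw j hjJ).2]
  have ar := sp4_area (s := Finset.range J) (fun j _ => (mul_pos k0 (hj j).1).le) (by positivity)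
    (fun i _ j _ hij => dis i j hij) fun j hjJ => sub j (Finset.mem_range.1 hjJ)
  simp only [mul_pow, ← Finset.mul_sum] at ar
  set M := (Finset.range J).filter fun j =>
    lo * r / m ≤ ups g t1 (w j) ∧ ups g t1 (w j) ≤ hi * r / m with hM
  have q0 : 0 < hi * r / m := by positivity
  have q1 : 0 < lo * r / m := by positivity
  have cnt : ∑ j ∈ Finset.range J, ups g t1 (w j) ≤ ∑ j ∈ Finset.range J, (lo * r / m +
      ups g t1 (w j) ^ 2 / (hi * r / m) + if lo * r / m ≤ ups g t1 (w j) ∧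
        ups g t1 (w j) ≤ hi * r / m then hi * r / m else 0) := by
    refine Finset.sum_le_sum fun j _ => ?_
    have a1 : 0 ≤ ups g t1 (w j) ^ 2 / (hi * r / m) := by positivity
    split_ifs with hc
    · linarith [hc.2]
    · rcases not_and_or.1 hc with hc | hc
      · linarith [not_le.1 hc]
      · have a2 : ups g t1 (w j) ≤ ups g t1 (w j) ^ 2 / (hi * r / m) := by
          rw [le_div_iff₀ q0, sq]
          exact mul_le_mul_of_nonneg_left (not_le.1 hc).le (hj j).1.le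
        linarith
  rw [Finset.sum_add_distrib, Finset.sum_add_distrib, Finset.sum_const, Finset.card_range,
    ← Finset.sum_div, ← Finset.sum_filter, Finset.sum_const, nsmul_eq_mul, nsmul_eq_mul,
    ← hM] at cnt
  have b1 : J * (lo * r / m) ≤ c * m * r / 4 := by
    refine (mul_le_mul_of_nonneg_right hJ q1.le).trans (le_of_eq ?_)
    rw [hlo]
    field_simp
  have b2 : (∑ j ∈ Finset.range J, ups g t1 (w j) ^ 2) / (hi * r / m) ≤ c * m * r / 4 := by
    rw [div_le_iff₀ q0]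
    refine le_of_mul_le_mul_left (ar.trans (le_of_eq ?_)) (pow_pos k0 2)
    rw [hhi]
    field_simp
    ring
  have b3 : c / (2 * hi) * m ^ 2 ≤ M.card := by
    refine le_of_mul_le_mul_right (le_trans (le_of_eq ?_)
      (by linarith : c * m * r / 2 ≤ M.card * (hi * r / m))) q0
    field_simp
  have inj : Function.Injective w := fun i j hij => by
    by_contra hne
    exact disjoint_left.1 (dis i j hne) (mem_ball_self (mul_pos k0 (hj i).1))
      (hij ▸ mem_ball_self (mul_pos k0 (hj i).1))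
  have sb : ∀ j ∈ M, ball (w j) (cf * r / m) ⊆ ball (w j) (k * ups g t1 (w j)) := fun j hjM => by
    refine ball_subset_ball (le_trans ?_
      (mul_le_mul_of_nonneg_left (Finset.mem_filter.1 hjM).2.1 k0.le))
    rw [← mul_div_assoc, ← mul_assoc]
    gcongr
  refine ⟨M.image w, ?_, ?_, ?_⟩
  · rw [Finset.card_image_of_injective _ inj]
    exact (mul_le_mul_of_nonneg_right f2 (sq_nonneg m)).trans b3
  · simp only [Finset.mem_image]
    rintro _ ⟨i, hi', rfl⟩ _ ⟨j, hj', rfl⟩ hne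
    exact (dis i j fun e => hne (e ▸ rfl)).mono (sb i hi') (sb j hj')
  · simp only [Finset.mem_image]
    rintro _ ⟨j, hjM, rfl⟩ v hv
    obtain ⟨a1, a2, a3, a4, a5, -⟩ := (hj j).2 v (sb j hjM hv)
    obtain ⟨a6, a7, a8⟩ := Finset.mem_filter.1 hjM
    have a9 := mem_ball_iff_norm.1 (sub j (Finset.mem_range.1 a6) (sb j hjM hv))
    have K0 : 0 < K := by linarith
    refine ⟨a9.le.trans (mul_le_mul_of_nonneg_right (by linarith) r0.le), a1, ?_, ?_, a4, ?_⟩
    · refine le_of_mul_le_mul_left (le_trans ?_ (a7.trans a2)) K0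
      rw [← mul_div_assoc, ← mul_assoc]
      have := (le_div_iff₀' K0).1 f4
      gcongr
    · refine (a3.trans (mul_le_mul_of_nonneg_left a8 K0.le)).trans ?_
      rw [← mul_div_assoc, ← mul_assoc]
      gcongr
      linarith
    · have a10 := le_mul_of_one_le_right y0.le (one_le_pow₀ one_le_two (n := j))
      have a11 := mul_le_mul_of_nonneg_right (by linarith : 8 ≤ m) Y0.le
      linarith

end Vale.Agent.P164
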