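import Vale.Agent.P164.StageAux

namespace Vale.Agent.P164

open Set Filter MeasureTheory
open scoped ENNReal

/-- the unit square above `x0` -/
def box (x0 : ℝ) : Set ℂ := {z | x0 ≤ z.re ∧ z.re ≤ x0 + 1 ∧ 1 ≤ z.im ∧ z.im ≤ 2}

theorem stage {κ : ℝ} (hκ : 0 < κ) (hκ8 : κ < 8) : ∃ C : ℝ, ∀ x0 T : ℝ, 0 < T →
    ∃ N : ℕ → ℕ → ℕ → (ℕ → ℝ) → ℝ≥0∞, (∀ k i j, Measurable (N k i j)) ∧
      (∀ᶠ k in atTop, ∀ i, ∀ᶠ j : ℕ in atTop,
        ∫⁻ ξ, N k i j ξ ∂GG κ (1 / (j + 1)) ≤ ENNReal.ofReal C) ∧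
      ∀ (W : ℝ → ℝ) (γ : ℝ → ℂ) (g : ℝ → ℂ → ℂ), ContinuousOn γ (Ici 0) → Chain W (dom γ) g →
        W 0 = 0 → ∀ᶠ k : ℕ in atTop, ∀ᶠ i in atTop, ∀ᶠ j : ℕ in atTop,
          hmd (gau κ) (2 * (1 / 2) ^ k) (γ '' Icc 0 T ∩ box x0) ≤
            N k i j (inc W ((1 / (j + 1)) ^ 2)) := by
  classical
  obtain ⟨E, hE, hM⟩ := centerM hκ hκ8
  obtain ⟨B0, c, C, hB, c0, c1, hC, hR⟩ := stage_rich hκ hκ8 hE
  obtain ⟨σ, σ0, hM⟩ := hM B0 hB
  obtain ⟨C6, h6, hH⟩ := stage_hit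
  have C0 : 0 < C := by linarith
  have a0 : 0 < c * (Real.exp (-σ) / C) ^ 2 := by positivity
  have tq : Tendsto (fun q : ℕ => (3 * q + 1 : ℝ)) atTop atTop := tendsto_atTop_add_const_right _ _
    (tendsto_natCast_atTop_atTop.const_mul_atTop (by norm_num))
  obtain ⟨q, q1, q2, q3⟩ := ((eventually_ge_atTop 1).and (((((tendsto_rpow_atTop
    (show 0 < 2 - (1 + κ / 8) by linarith)).comp tq).const_mul_atTop a0).eventually_ge_atTop 8).and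
      ((Real.tendsto_log_atTop.comp tq).eventually_ge_atTop (σ + 2)))).exists
  obtain ⟨C1, C', hC1, hC', hM⟩ := hM _ q3
  simp only [Function.comp] at q2 hM
  generalize ha : c * (Real.exp (-σ) / C) ^ 2 = a at a0 q2 hR
  refine ⟨3 * (32 * C1 / (a * c) * 33) + 16 * (4 * C * C6) ^ 2 * (8 * C' * 48), fun x0 T hT => ?_⟩
  obtain ⟨m, hm⟩ : ∃ m : ℕ → ℝ, ∀ k, m k = √(Real.log k / (2 * C1)) := ⟨_, fun _ => rfl⟩
  obtain ⟨s, hs⟩ : ∃ s : ℕ → ℝ, ∀ k, s k = c * (Real.exp (-σ) * (side q (2 * k) / C)) / m k :=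
    ⟨_, fun _ => rfl⟩
  obtain ⟨ε, hε⟩ : ∃ ε : ℕ → ℝ, ∀ k, ε k = side q (2 * k) / (4 * C * C6) := ⟨_, fun _ => rfl⟩
  have tm : ∀ᶠ k in atTop, 16 * E ≤ m k := by
    simp only [hm]
    exact (Real.tendsto_sqrt_atTop.comp ((Real.tendsto_log_atTop.comp
      tendsto_natCast_atTop_atTop).atTop_div_const (by positivity))).eventually_ge_atTop _
  have r0 := cover_pos q
  have r1 : ∀ k, side q k ≤ 1 := fun k => (cover_anti q (Nat.zero_le _)).trans_eq (by simp [side])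
  have e0 : ∀ k, 0 < ε k := fun k => by have := r0 (2 * k); rw [hε]; positivity
  have e1 : ∀ k, ε k ≤ side q (2 * k) / 8 := fun k => by
    rw [hε]
    exact div_le_div_of_nonneg_left (r0 _).le (by norm_num) (by nlinarith)
  have s0 : ∀ k, 16 * E ≤ m k → 0 < s k := fun k h => by
    have := r0 (2 * k)
    have : 0 < m k := by linarith
    rw [hs]; positivity
  have tη : ∀ e : ℝ, 0 < e → ∀ᶠ j : ℕ in atTop, (1 : ℝ) / (j + 1) ≤ e := fun e he =>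
    tendsto_one_div_add_atTop_nhds_zero_nat.eventually (ge_mem_nhds he)
  obtain ⟨Bad, hBad⟩ : ∃ Bad : ℕ → ℕ → ℝ → ℂ → Set (ℕ → ℝ), ∀ k i δ z, Bad k i δ z =
      {ξ | ∃ n ≤ ⌊T / δ⌋₊, 1 / (i + 1) ≤ (fre δ z ξ n).y ∧
        (fre δ z ξ n).l < Real.log (side q k / C) - k * Real.log (3 * q + 1) ∧
        ¬ Succ E B0 σ (m k) (Real.log (3 * q + 1)) (Real.log (side q k / C)) k (fre δ z ξ) n} :=
    ⟨_, fun _ _ _ _ => rfl⟩
  obtain ⟨H, hH'⟩ : ∃ H : ℕ → ℕ → ℝ → (ℕ → ℝ) → Set ℂ → Prop, ∀ k i δ ξ Γ, H k i δ ξ Γ ↔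
      ∀ x ∈ Γ, ∃ z : ℂ, ‖x - z‖ ≤ ε k ∧
        ((z ∈ lat (ε k) (x0 - 1 / 2) (x0 + 3 / 2) (3 / 4) (5 / 2) ∧ ξ ∈ Bad k i δ z) ∨
        stAlt κ q k (2 * k) ⌊T / δ⌋₊ (lat (s k) (x0 - 1) (x0 + 2) (1 / 2) 3) (s k) a
          (c * m k ^ (1 - κ / 8)) (1 / (i + 1) / 4) (Real.log (s k)) δ ξ z) :=
    ⟨_, fun _ _ _ _ _ => Iff.rfl⟩
  have key : ∀ᶠ k in atTop, ∀ i, ∀ᶠ j : ℕ in atTop, ∃ N : (ℕ → ℝ) → ℝ≥0∞, Measurable N ∧
      ∫⁻ ξ, N ξ ∂GG κ (1 / (j + 1)) ≤ ENNReal.ofReal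
        (3 * (32 * C1 / (a * c) * 33) + 16 * (4 * C * C6) ^ 2 * (8 * C' * 48)) ∧
      ∀ ξ Γ, H k i ((1 / (j + 1)) ^ 2) ξ Γ → hmd (gau κ) (2 * side q k) Γ ≤ N ξ := by
    filter_upwards [tm, stage_gau hκ hκ8 hC1 q1, eventually_ge_atTop 1] with k k1 k2 k3 i
    have m1 : 1 ≤ m k := by linarith
    have m2 : 0 < m k ^ (1 - κ / 8) := by positivity
    have s1 : s k ≤ side q (2 * k) := by
      rw [hs, div_le_iff₀ (by linarith)]
      have h1 : Real.exp (-σ) ≤ 1 := Real.exp_le_one_iff.2 (by linarith)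
      have h2 := r0 (2 * k)
      calc _ ≤ 1 * (1 * (side q (2 * k) / 1)) := by gcongr; linarith
        _ ≤ _ := by nlinarith
    have y0 : (0 : ℝ) < 1 / (i + 1) := by positivity
    obtain ⟨η0, h0, h1⟩ := stage_N hκ hκ8 (s0 k k1) s1 (e0 k).le (e1 k) (k1 := k) (by omega)
      (lam := a * (c * m k ^ (1 - κ / 8)) / 2) (mu := c * m k ^ (1 - κ / 8)) (by positivity) a0
      (le_of_eq (by ring)) (Kc := 32 * C1 / (a * c)) (by positivity) q2 (fun j hj =>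
        (k2 j (Finset.Ico_subset_Icc_self hj)).trans_eq (by rw [← hm]; field_simp; ring))
      (lat (s k) (x0 - 1) (x0 + 2) (1 / 2) 3) (fun u hu => ((mem_lat (s0 k k1)).1 hu).1)
      (fun u hu => ((mem_lat (s0 k k1)).1 hu).2.2.2)
      (lat (ε k) (x0 - 1 / 2) (x0 + 3 / 2) (3 / 4) (5 / 2)) (div_pos y0 four_pos) (Real.log (s k)) T
    have hL : Real.log (side q k / C) + Real.log (3 * q + 1) ≤ -1 := by
      obtain ⟨k', rfl⟩ := Nat.exists_eq_add_of_le' k3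
      have h2 := stage_side q k' 1 C0
      have h3 := Real.log_le_log (div_pos (r0 k') C0) (y := Real.exp (-1)) (by
        rw [Real.exp_neg, div_le_iff₀ C0, inv_mul_eq_div, le_div_iff₀ (Real.exp_pos 1)]
        nlinarith [r1 k', Real.exp_one_lt_d9, Real.exp_pos 1])
      rw [Real.log_exp] at h3
      push_cast at h2
      linarith
    obtain ⟨η1, h2, h3⟩ := hM (m k) (by linarith) _ hL k _ T y0
    filter_upwards [tη _ h0, tη _ h2] with j j1 j2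
    have j0 : (0 : ℝ) < 1 / (j + 1) := by positivity
    have hn : ⌊T / (1 / (j + 1)) ^ 2⌋₊ * (1 / (j + 1) : ℝ) ^ 2 ≤ T :=
      (le_div_iff₀ (by positivity)).1 (Nat.floor_le (by positivity))
    have h5 := fun z (hz : z ∈ lat (ε k) (x0 - 1 / 2) (x0 + 3 / 2) (3 / 4) (5 / 2)) =>
      h3 _ j0 j2 z (by linarith [((mem_lat (e0 k)).1 hz).2.2.2.1])
        (by linarith [((mem_lat (e0 k)).1 hz).2.2.2.2]) _ hn
    simp only [← hBad] at h5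
    obtain ⟨N, n1, n2, n3⟩ := h1 _ j0 j1 _ hn (Bad k i ((1 / (j + 1)) ^ 2)) _ (by positivity) h5
    refine ⟨N, n1, n2.trans (ENNReal.ofReal_le_ofReal (add_le_add ?_ ?_)),
      fun ξ Γ h => n3 ξ Γ ((hH' _ _ _ _ _).1 h)⟩
    · have s2 := s1.trans (r1 _)
      have h4 := stage_box (s0 k k1) s2 (a := x0 - 1) (b := x0 + 2) (c := 1 / 2) (e := 3)
        (by linarith) (by norm_num)
      rw [mul_assoc (_ / _)]
      gcongr
      nlinarith [s0 k k1]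
    · have h4 := stage_box (e0 k) ((e1 k).trans (by linarith [r1 (2 * k)])) (a := x0 - 1 / 2)
        (b := x0 + 3 / 2) (c := 3 / 4) (e := 5 / 2) (by linarith) (by norm_num)
      rw [stage_side _ _ _ C0, ← two_mul, hm]
      refine stage_bad hκ hκ8 (by linarith) hC1 hC' (by positivity) (r0 _) k3 (Nat.cast_nonneg _)
        (hε k ▸ h4) (hm k ▸ m1) (le_trans ?_ (k2 _ (Finset.mem_Icc.2 ⟨by omega, le_rfl⟩)))
      have h5 := e0 k
      have h6 := r0 (2 * k)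
      exact (gau_gauge hκ hκ8).2.1 (mem_Ici.2 (by positivity)) (mem_Ici.2 (by positivity))
        (by linarith [e1 k])
  have ex : ∀ (P : ((ℕ → ℝ) → ℝ≥0∞) → Prop), ∃ N, Measurable N ∧
      ((∃ N, Measurable N ∧ P N) → P N) := fun P => by
    by_cases h : ∃ N, Measurable N ∧ P N
    · exact h.imp fun N hN => ⟨hN.1, fun _ => hN.2⟩
    · exact ⟨0, measurable_const, fun h' => absurd h' h⟩
  choose N n1 n2 using fun k i j : ℕ => ex fun N =>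
    ∫⁻ ξ, N ξ ∂GG κ (1 / (j + 1)) ≤ ENNReal.ofReal
        (3 * (32 * C1 / (a * c) * 33) + 16 * (4 * C * C6) ^ 2 * (8 * C' * 48)) ∧
      ∀ ξ Γ, H k i ((1 / (j + 1)) ^ 2) ξ Γ → hmd (gau κ) (2 * side q k) Γ ≤ N ξ
  refine ⟨N, n1, key.mono fun k hk i => (hk i).mono fun j hj => (n2 k i j hj).1,
    fun W γ g hγ h h0 => ?_⟩
  filter_upwards [key, tm] with k k1 k2
  filter_upwards [hH W γ g hγ h h0 x0 T (ε k) hT (e0 k) ((e1 k).trans (by linarith [r1 (2 * k)]))]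
    with i ⟨δ0, d0, d1⟩
  obtain ⟨δ1, d2, d3⟩ := hR h h0 T (1 / (i + 1)) hT (by positivity)
  filter_upwards [k1 i, tη _ d0, tη _ d2, tη _ one_pos] with j j1 j2 j3 j4
  have j0 : (0 : ℝ) < 1 / (j + 1) := by positivity
  have j5 : (1 / (j + 1) : ℝ) ^ 2 ≤ 1 / (j + 1) := by nlinarith
  refine (hmd_anti ?_).trans ((n2 k i j j1).2 _ _ ((hH' _ _ _ _ _).2 fun x hx => ?_))
  · have h1 : (1 : ℝ) ≤ q := by exact_mod_cast q1
    rw [side, one_div, inv_pow]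
    gcongr
    linarith
  obtain ⟨z, z1, z2, n, z3, z4, z5⟩ := d1 _ (by positivity) (j5.trans j2) x hx.1 hx.2.1 hx.2.2.1
    hx.2.2.2.1 hx.2.2.2.2
  refine ⟨z, z2, ?_⟩
  by_cases hS : Succ E B0 σ (m k) (Real.log (3 * q + 1)) (Real.log (side q k / C)) k
    (fre ((1 / (j + 1)) ^ 2) z (inc W ((1 / (j + 1)) ^ 2))) n
  · obtain ⟨-, w1, w2, w3, w4⟩ := (mem_lat (e0 k)).1 z1
    rw [← ha]
    exact Or.inr (d3 _ (by positivity) (j5.trans j3) _ k2 σ x0 q k _ n z w1 w2 w3 w4 z3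
      ((le_div_iff₀ (by positivity)).1 (Nat.floor_le (by positivity))) z4 hS _ (s0 k k2) (hs k).le)
  refine Or.inl ⟨z1, ?_⟩
  rw [hBad]
  refine ⟨n, z3, z4, z5.trans_lt ?_, hS⟩
  have h1 := r0 (2 * k)
  rw [stage_side _ _ _ C0, ← two_mul, hε, show C6 * (side q (2 * k) / (4 * C * C6)) =
    side q (2 * k) / C / 4 by field_simp, Real.log_div (by positivity) four_ne_zero]
  linarith [(Real.lt_log_iff_exp_lt four_pos).2 (Real.exp_one_lt_d9.trans (by norm_num))]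

end Vale.Agent.P164
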