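import Vale.Agent.P164.Rich
import Vale.Agent.P164.Cover
import Vale.Agent.P164.CellM
import Vale.Agent.P164.CM3
import Vale.Agent.P164.Curve
import Vale.Agent.P164.Gauge

namespace Vale.Agent.P164

open Set Filter MeasureTheory
open scoped ENNReal Topology

/-- many lattice points near `z` carry a large mass -/
def stAlt (κ : ℝ) (q k1 k2 N : ℕ) (G : Finset ℂ) (s c0 mu y2 l2 δ : ℝ) (ξ : ℕ → ℝ) (z : ℂ) : Prop :=
  ∃ k ∈ Finset.Ico k1 k2, ∃ n ≤ N, ∃ R : Finset ℂ, R ⊆ G ∧ c0 * side q k ^ 2 ≤ R.card * s ^ 2 ∧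
    ∀ u ∈ R, ‖u - z‖ ≤ side q k / 8 ∧ (y2 ≤ (fre δ u ξ n).y ∧ l2 ≤ (fre δ u ξ n).l) ∧
      mu * side q k ^ (1 + κ / 8 - 2) ≤ mart κ (fre δ u ξ n)

theorem stage_N {κ : ℝ} (hκ : 0 < κ) (hκ8 : κ < 8) {s lam mu c0 Kc ε : ℝ} {q k1 k2 : ℕ}
    (hs : 0 < s) (hs2 : s ≤ side q k2) (hε : 0 ≤ ε) (hε2 : ε ≤ side q k2 / 8) (hk : k1 ≤ k2)
    (hlam : 0 < lam) (hc0 : 0 < c0) (hmu : 2 * lam ≤ c0 * mu) (hKc : 0 ≤ Kc)
    (hA : 8 ≤ c0 * (3 * q + 1 : ℝ) ^ (2 - (1 + κ / 8)))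
    (hh : ∀ k ∈ Finset.Ico k1 k2, gau κ (2 * side q k) ≤ Kc * (lam * side q k ^ (1 + κ / 8)))
    (G : Finset ℂ) (hG : ∀ u ∈ G, IsLat s u) (hG' : ∀ u ∈ G, 1 / 2 ≤ u.im ∧ u.im ≤ 3)
    (Z : Finset ℂ) {y2 : ℝ} (hy : 0 < y2) (l2 T : ℝ) : ∃ η0 : ℝ, 0 < η0 ∧ ∀ η : ℝ, 0 < η → η ≤ η0 →
    ∀ n : ℕ, n * η ^ 2 ≤ T → ∀ (Bad : ℂ → Set (ℕ → ℝ)) (p : ℝ), 0 ≤ p →
    (∀ z ∈ Z, GG κ η (Bad z) ≤ ENNReal.ofReal p) → ∃ N : (ℕ → ℝ) → ℝ≥0∞, Measurable N ∧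
      ∫⁻ ξ, N ξ ∂GG κ η ≤
        ENNReal.ofReal (3 * (Kc * s ^ 2 * (2 * G.card + 1)) + Z.card * (gau κ (2 * ε) * p)) ∧
      ∀ ξ (Γ : Set ℂ), (∀ x ∈ Γ, ∃ z : ℂ, ‖x - z‖ ≤ ε ∧ ((z ∈ Z ∧ ξ ∈ Bad z) ∨
        stAlt κ q k1 k2 n G s c0 mu y2 l2 (η ^ 2) ξ z)) →
        hmd (gau κ) (2 * side q k1) Γ ≤ N ξ := by
  classical
  have hg := gau_gauge hκ hκ8
  have hg0 : 0 ≤ gau κ (2 * ε) := haus_nonneg hg (by positivity)
  choose e he H using fun a : ℕ => cellM hκ hκ8 G hG' (Finset.Ico k1 k2)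
    (fun k => cidx (side q k) a) (fun k => lam * side q k ^ (1 + κ / 8) / s ^ 2) hy l2 T
  refine ⟨min (e 0) (min (e 1) (e 2)), lt_min (he 0) (lt_min (he 1) (he 2)),
    fun η h0 h1 n hn Bad p hp hB => ?_⟩
  have h2 : ∀ a : ℕ, η ≤ e (if a < 3 then a else 0) := fun a => by
    simp only [le_min_iff] at h1
    split_ifs with h
    · interval_cases a
      exacts [h1.1, h1.2.1, h1.2.2]
    · exact h1.1
  choose V V0 Vm Vi Vk Vf using fun a : ℕ => H _ η h0 (h2 a) n hn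
  have m1 : ∀ a, Measurable fun ξ => ENNReal.ofReal (∑ u ∈ G, V a ξ n u) := fun a =>
    (Vm a).ennreal_ofReal
  have m2 : ∀ z, Measurable ((toMeasurable (GG κ η) (Bad z)).indicator
      fun _ => ENNReal.ofReal (gau κ (2 * ε))) := fun z =>
    measurable_const.indicator (measurableSet_toMeasurable _ _)
  have m3 : Measurable fun ξ => ∑ a ∈ Finset.range 3,
      ENNReal.ofReal (Kc * s ^ 2) * ENNReal.ofReal (∑ u ∈ G, V a ξ n u) :=
    Finset.measurable_fun_sum _ fun a _ => (m1 a).const_mul _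
  refine ⟨fun ξ => ∑ a ∈ Finset.range 3,
      ENNReal.ofReal (Kc * s ^ 2) * ENNReal.ofReal (∑ u ∈ G, V a ξ n u) +
      ∑ z ∈ Z, (toMeasurable (GG κ η) (Bad z)).indicator
        (fun _ => ENNReal.ofReal (gau κ (2 * ε))) ξ,
    m3.add (Finset.measurable_fun_sum _ fun z _ => m2 z), ?_, fun ξ Γ hΓ => ?_⟩
  · rw [lintegral_add_left m3, lintegral_finsetSum _ fun a _ => (m1 a).const_mul _,
      lintegral_finsetSum _ fun z _ => m2 z,
      ENNReal.ofReal_add (by positivity) (by positivity)]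
    refine add_le_add ((Finset.sum_le_card_nsmul _ _
      (ENNReal.ofReal (Kc * s ^ 2 * (2 * G.card + 1))) fun a _ => ?_).trans_eq ?_)
      ((Finset.sum_le_card_nsmul _ _ (ENNReal.ofReal (gau κ (2 * ε) * p)) fun z hz => ?_).trans_eq ?_)
    · rw [lintegral_const_mul _ (m1 a), ENNReal.ofReal_mul (p := Kc * s ^ 2) (by positivity)]
      exact mul_le_mul_right (Vi a) _
    · rw [Finset.card_range, nsmul_eq_mul, ENNReal.ofReal_mul (p := 3) (by norm_num)]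
      simp
    · rw [lintegral_indicator_const (measurableSet_toMeasurable _ _), measure_toMeasurable,
        ENNReal.ofReal_mul hg0]
      exact mul_le_mul_right (hB z hz) _
    · rw [nsmul_eq_mul, ENNReal.ofReal_mul (Nat.cast_nonneg _), ENNReal.ofReal_natCast]
  refine (cover hg (by linarith) hs hs2 hε hε2 hk hlam hc0 hmu hKc hA hh G hG (fun a => V a ξ)
    (fun n u => mart κ (fre (η ^ 2) u ξ n))
    (fun n u => y2 ≤ (fre (η ^ 2) u ξ n).y ∧ l2 ≤ (fre (η ^ 2) u ξ n).l) (fun a => V0 a ξ)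
    (N := n) (fun a ha n' hn' k hk u hu => ?_) (fun a ha n' _ u hu h3 h4 => ?_)
    (Z.filter fun z => ξ ∈ Bad z) fun x hx => ?_).trans ?_
  · simpa only [if_pos ha] using Vk a ξ n' n hn' k hk u hu
  · exact Vf a ξ n' u hu (by simpa only [if_pos ha] using h3) h4.1 h4.2
  · obtain ⟨z, h3, h4⟩ := hΓ x hx
    exact ⟨z, h3, h4.imp (fun h => Finset.mem_filter.2 h) id⟩
  have h3 : ∀ a, 0 ≤ ∑ u ∈ G, V a ξ n u := fun a => Finset.sum_nonneg fun u _ => V0 a ξ n u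
  refine ENNReal.ofReal_add_le.trans (add_le_add ?_ ?_)
  · rw [ENNReal.ofReal_sum_of_nonneg fun a _ => mul_nonneg (by positivity) (h3 a)]
    exact Finset.sum_le_sum fun a _ => (ENNReal.ofReal_mul (by positivity)).le
  · rw [ENNReal.ofReal_mul (Nat.cast_nonneg _), ENNReal.ofReal_natCast, ← nsmul_eq_mul]
    refine (Finset.card_nsmul_le_sum _ _ _ fun z hz => ?_).trans
      (Finset.sum_le_sum_of_subset (Finset.filter_subset _ _))
    rw [indicator_of_mem (subset_toMeasurable _ _ (Finset.mem_filter.1 hz).2)]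

theorem stage_side (q k j : ℕ) {C : ℝ} (hC : 0 < C) :
    Real.log (side q k / C) - j * Real.log (3 * q + 1) = Real.log (side q (k + j) / C) := by
  have h := cover_one q
  simp only [side]
  rw [Real.log_div (by positivity) hC.ne', Real.log_div (by positivity) hC.ne', Real.log_inv,
    Real.log_inv, Real.log_pow, Real.log_pow]
  push_cast
  ring

theorem stage_rich {κ E : ℝ} (hκ : 0 < κ) (hκ8 : κ < 8) (hE : 1 ≤ E) :
    ∃ B0 c C : ℝ, 1 ≤ B0 ∧ 0 < c ∧ c ≤ 1 ∧ 8 ≤ C ∧ ∀ {W D g}, Chain W D g → W 0 = 0 →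
    ∀ T y0 : ℝ, 0 < T → 0 < y0 → ∃ δ0 : ℝ, 0 < δ0 ∧ ∀ δ : ℝ, 0 < δ → δ ≤ δ0 →
    ∀ m : ℝ, 16 * E ≤ m → ∀ (σ x0 : ℝ) (q k N n : ℕ) (z : ℂ), x0 - 1 / 2 ≤ z.re → z.re ≤ x0 + 3 / 2 →
    3 / 4 ≤ z.im → z.im ≤ 5 / 2 → n ≤ N → N * δ ≤ T → y0 ≤ (fre δ z (inc W δ) n).y →
    Succ E B0 σ m (Real.log (3 * q + 1)) (Real.log (side q k / C)) k (fre δ z (inc W δ)) n →
    ∀ s : ℝ, 0 < s → s ≤ c * (Real.exp (-σ) * (side q (2 * k) / C)) / m →
    stAlt κ q k (2 * k) N (lat s (x0 - 1) (x0 + 2) (1 / 2) 3) s (c * (Real.exp (-σ) / C) ^ 2)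
      (c * m ^ (1 - κ / 8)) (y0 / 4) (Real.log s) δ (inc W δ) z := by
  obtain ⟨B0, c, C, h1, h2, h3, h4, H⟩ := rich hκ hκ8 hE
  refine ⟨B0, c, 8 * C, h1, h2, h3, by linarith, fun {W D g} h h0 T y0 hT hy => ?_⟩
  obtain ⟨δ0, d0, H⟩ := H h h0 T y0 hT hy
  refine ⟨δ0, d0, fun δ d1 d2 m hm σ x0 q k N n z z1 z2 z3 z4 hn hN hy' hS s s0 hs => ?_⟩
  obtain ⟨n0, n1, j, a1, a2, a3, a4, a5, a6, a7⟩ := hS
  have hz : 0 < z.im := by linarith
  have m0 : 0 < m := by linarith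
  have r0 := cover_pos q (k + j)
  have r1 : side q (k + j) ≤ 1 := (cover_anti q (Nat.zero_le _)).trans_eq (by simp [side])
  have r2 : side q (2 * k) ≤ side q (k + j) := cover_anti q (by omega)
  rw [stage_side _ _ _ (by linarith)] at a6 a7
  have b1 := Real.exp_le_exp.2 a6
  have b2 := Real.exp_le_exp.2 a7
  rw [sub_eq_add_neg, Real.exp_add, mul_comm, Real.exp_log (by positivity)] at b1
  rw [Real.exp_log (by positivity)] at b2
  have hs' : s ≤ c * Real.exp (fre δ z (inc W δ) n0).l / m :=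
    hs.trans (by gcongr; exact le_trans (by gcongr) b1)
  obtain ⟨R, e1, e2⟩ := H δ d1 d2 m hm z hz n0 n1 a1
    (le_trans (by gcongr; exact_mod_cast a2.trans hn) hN)
    (hy'.trans (fre_y_anti d1.le hz _ a2)) a4 a5 s s0 hs'
  have p0 := Real.exp_pos (fre δ z (inc W δ) n0).l
  generalize Real.exp (fre δ z (inc W δ) n0).l = ρ at *
  have e3 : ∀ u ∈ R, ‖u - z‖ ≤ side q (k + j) / 8 := fun u hu =>
    (e2 u hu).2.1.trans ((mul_le_mul_of_nonneg_left b2 (by linarith)).trans_eq (by field_simp))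
  refine ⟨k + j, Finset.mem_Ico.2 ⟨by omega, by omega⟩, n1, a2.trans hn, R, fun u hu => ?_,
    le_trans ?_ e1, fun u hu => ⟨e3 u hu, ⟨(e2 u hu).2.2.1, ?_⟩, le_trans ?_ (e2 u hu).2.2.2.2⟩⟩
  · have f1 := abs_le.1 ((Complex.abs_re_le_norm (u - z)).trans (e3 u hu))
    have f2 := abs_le.1 ((Complex.abs_im_le_norm (u - z)).trans (e3 u hu))
    rw [Complex.sub_re] at f1
    rw [Complex.sub_im] at f2
    exact (mem_lat s0).2 ⟨(e2 u hu).1, by linarith [f1.1], by linarith [f1.2], by linarith [f2.1],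
      by linarith [f2.2]⟩
  · rw [mul_assoc, ← mul_pow]
    gcongr
    exact le_trans (le_of_eq (by ring)) b1
  · exact (Real.log_le_log s0 hs').trans (e2 u hu).2.2.2.1
  · have f1 : ρ ≤ side q (k + j) := b2.trans (div_le_self r0.le (by linarith))
    rw [mul_assoc, show 1 + κ / 8 - 2 = κ / 8 - 1 by ring, show 1 - κ / 8 = -(κ / 8 - 1) by ring,
      Real.rpow_neg m0.le, mul_comm _⁻¹, ← div_eq_mul_inv, ← Real.div_rpow r0.le m0.le]
    exact mul_le_mul_of_nonneg_left (Real.rpow_le_rpow_of_nonpos (by positivity) (by gcongr)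
      (by linarith)) h2.le

theorem stage_hit : ∃ C6 : ℝ, 1 ≤ C6 ∧ ∀ (W : ℝ → ℝ) (γ : ℝ → ℂ) (g : ℝ → ℂ → ℂ),
    ContinuousOn γ (Ici 0) → Chain W (dom γ) g → W 0 = 0 → ∀ x0 T ε : ℝ, 0 < T → 0 < ε →
    ε ≤ 1 / 8 → ∀ᶠ i : ℕ in atTop, ∃ δ0 : ℝ, 0 < δ0 ∧ ∀ δ : ℝ, 0 < δ → δ ≤ δ0 →
    ∀ x ∈ γ '' Icc 0 T, x0 ≤ x.re → x.re ≤ x0 + 1 → 1 ≤ x.im → x.im ≤ 2 →
    ∃ z ∈ lat ε (x0 - 1 / 2) (x0 + 3 / 2) (3 / 4) (5 / 2), ‖x - z‖ ≤ ε ∧ ∃ n ≤ ⌊T / δ⌋₊,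
      1 / (i + 1) ≤ (fre δ z (inc W δ) n).y ∧
      (fre δ z (inc W δ) n).l ≤ Real.log (C6 * ε) + 1 := by
  obtain ⟨C6, h6, H⟩ := hit
  refine ⟨C6, h6, fun W γ g hγ h h0 x0 T ε hT e0 e1 => ?_⟩
  have h1 : ∀ᶠ i : ℕ in atTop, ∀ z ∈ lat ε (x0 - 1 / 2) (x0 + 3 / 2) (3 / 4) (5 / 2),
      (∃ t ∈ Icc 0 T, z ∈ dom γ t ∧ ups g t z ≤ C6 * ε) →
      ∃ t ∈ Icc 0 T, z ∈ dom γ t ∧ ups g t z ≤ C6 * ε ∧ 1 / (i + 1) ≤ (g t z).im / 2 := by
    refine (eventually_all_finset _).2 fun z _ => ?_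
    by_cases hz : ∃ t ∈ Icc 0 T, z ∈ dom γ t ∧ ups g t z ≤ C6 * ε
    · obtain ⟨t, ht, a1, a2⟩ := hz
      filter_upwards [tendsto_one_div_add_atTop_nhds_zero_nat.eventually
        (ge_mem_nhds (half_pos (h.im_pos ht.1 a1)))] with i hi _
      exact ⟨t, ht, a1, a2, hi⟩
    · exact Eventually.of_forall fun i hi => absurd hi hz
  filter_upwards [h1] with i hi
  have y0 : (0 : ℝ) < 1 / (i + 1) := by positivity
  have y1 : (1 : ℝ) / (i + 1) ≤ 1 := div_le_self zero_le_one (by simp)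
  obtain ⟨δ0, d0, hE⟩ := h.eu h0 hT y0 y0
  refine ⟨δ0, d0, fun δ d1 d2 x ⟨t, ht, hx⟩ x1 x2 x3 x4 => ?_⟩
  obtain ⟨z, z1, z2⟩ := near_lat e0 x
  have f1 := abs_le.1 ((Complex.abs_re_le_norm (x - z)).trans z2.le)
  have f2 := abs_le.1 ((Complex.abs_im_le_norm (x - z)).trans z2.le)
  rw [Complex.sub_re] at f1
  rw [Complex.sub_im] at f2
  have hz : z ∈ lat ε (x0 - 1 / 2) (x0 + 3 / 2) (3 / 4) (5 / 2) := (mem_lat e0).2
    ⟨z1, by linarith [f1.2], by linarith [f1.1], by linarith [f2.2], by linarith [f2.1]⟩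
  obtain ⟨s, hs, a1, a2⟩ := H W γ g hγ h t z ε ht.1 e0 (hx ▸ z2) (by linarith [f2.2])
  obtain ⟨r, hr, b1, b2, b3⟩ := hi z hz ⟨s, ⟨hs.1, hs.2.trans ht.2⟩, a1, a2⟩
  have n0 : (0 : ℝ) ≤ ⌊r / δ⌋₊ * δ := by positivity
  have n1 : ⌊r / δ⌋₊ * δ ≤ r := (le_div_iff₀ d1).1 (Nat.floor_le (div_nonneg hr.1 d1.le))
  have n2 : r ≤ (⌊r / δ⌋₊ + 1) * δ := (div_le_iff₀ d1).1 (Nat.lt_floor_add_one _).le
  obtain ⟨-, c2, c3⟩ := (hE δ d1 d2 z (h.sub r hr.1 b1) ⌊r / δ⌋₊ (n1.trans hr.2)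
    (Or.inl ⟨h.anti _ r n0 n1 b1, by
      linarith [h.flow_anti hr.1 b1 n0 n1 le_rfl]⟩)).2 _ le_rfl r ⟨n1, n2⟩
  refine ⟨z, hz, z2.le, ⌊r / δ⌋₊, Nat.floor_le_floor (by gcongr; exact hr.2),
    by linarith [(abs_le.1 c2).1], ?_⟩
  linarith [(abs_le.1 c3).2, Real.log_le_log (h.ups_pos hr.1 b1) b2]

theorem stage_pow {t : ℝ} {k : ℕ} (ht : 1 ≤ t) (hk : t ^ 2 = k) :
    k * (t / (1 + t⁻¹) ^ k) ≤ 48 := by
  have t0 : 0 < t := by linarith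
  have x0 : 0 < t⁻¹ := by positivity
  have x1 : t⁻¹ ≤ 1 := inv_le_one_of_one_le₀ ht
  have h1 : Real.exp (t⁻¹ / 2) ≤ 1 + t⁻¹ := by
    have h2 := Real.add_one_le_exp (-(t⁻¹ / 2))
    have h3 : Real.exp (t⁻¹ / 2) * Real.exp (-(t⁻¹ / 2)) = 1 := by rw [← Real.exp_add]; simp
    have h4 := Real.exp_pos (t⁻¹ / 2)
    by_contra h5
    nlinarith [mul_le_mul_of_nonneg_left h2 h4.le, mul_nonneg x0.le (sub_nonneg.2 x1),
      mul_lt_mul_of_pos_right (not_le.1 h5) (show 0 < -(t⁻¹ / 2) + 1 by linarith)]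
  have h2 := pow_le_pow_left₀ (Real.exp_pos _).le h1 k
  rw [← Real.exp_nat_mul, ← hk, show t ^ 2 * (t⁻¹ / 2) = t / 2 by field_simp] at h2
  have h3 := (Real.pow_div_factorial_le_exp (t / 2) (by positivity) 3).trans h2
  rw [← mul_div_assoc, div_le_iff₀ (by positivity), ← hk]
  norm_num [Nat.factorial] at h3
  linarith

theorem stage_gau {κ C1 : ℝ} (hκ : 0 < κ) (hκ8 : κ < 8) (hC : 1 ≤ C1) {q : ℕ} (hq : 1 ≤ q) :
    ∀ᶠ k : ℕ in atTop, ∀ j ∈ Finset.Icc k (2 * k), gau κ (2 * side q j) ≤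
      16 * C1 * √(Real.log k / (2 * C1)) ^ (1 - κ / 8) * side q j ^ (1 + κ / 8) := by
  have hA : (1 : ℝ) < 3 * q + 1 := by
    have : (1 : ℝ) ≤ q := by exact_mod_cast hq
    linarith
  have hL := Real.log_pos hA
  have h1 : Tendsto (fun k => side q k) atTop (𝓝 0) :=
    (tendsto_pow_atTop_atTop_of_one_lt hA).inv_tendsto_atTop
  filter_upwards [h1.eventually (ge_mem_nhds (half_pos (Real.exp_pos (-Real.exp 1)))),
    tendsto_natCast_atTop_atTop.eventually_ge_atTop (2 * Real.log (3 * q + 1)),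
    eventually_ge_atTop 1] with k k1 k2 k3 j hj
  rw [Finset.mem_Icc] at hj
  have r0 := cover_pos q j
  have r1 : 2 * side q j ≤ Real.exp (-Real.exp 1) := by linarith [cover_anti q hj.1]
  obtain ⟨a1, a2⟩ := gau_one (by positivity) r1
  have k0 : (0 : ℝ) < k := by exact_mod_cast k3
  have l0 : 0 ≤ Real.log k := Real.log_natCast_nonneg k
  have a3 : Real.log (1 / (2 * side q j)) ≤ k ^ 2 := by
    have : (j : ℝ) ≤ 2 * k := by exact_mod_cast hj.2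
    refine (Real.log_le_log (by positivity) (y := (3 * q + 1) ^ j) ?_).trans ?_
    · rw [side, div_le_iff₀ (by positivity)]
      field_simp
      norm_num
    · rw [Real.log_pow]
      nlinarith
  have a4 := Real.log_le_log ((Real.exp_pos 1).trans_le a1) a3
  rw [Real.log_pow, show ((2 : ℕ) : ℝ) * Real.log k = 4 * C1 * √(Real.log k / (2 * C1)) ^ 2 by
    rw [Real.sq_sqrt (by positivity)]; field_simp; push_cast; ring] at a4
  have a5 := Real.rpow_le_rpow (by linarith) a4 (show 0 ≤ (1 - κ / 8) / 2 by linarith)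
  rw [Real.mul_rpow (by positivity) (by positivity), ← Real.rpow_natCast,
    ← Real.rpow_mul (Real.sqrt_nonneg _),
    show ((2 : ℕ) : ℝ) * ((1 - κ / 8) / 2) = 1 - κ / 8 by push_cast; ring] at a5
  have a6 : (4 * C1) ^ ((1 - κ / 8) / 2) ≤ 4 * C1 :=
    (Real.rpow_le_rpow_of_exponent_le (by linarith) (by linarith)).trans_eq (Real.rpow_one _)
  have a7 : (2 : ℝ) ^ (1 + κ / 8) ≤ 4 :=
    (Real.rpow_le_rpow_of_exponent_le one_le_two (by linarith : _ ≤ (2 : ℝ))).trans_eq (by norm_num)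
  rw [gau_eq r1, Real.mul_rpow zero_le_two r0.le]
  calc _ ≤ 4 * side q j ^ (1 + κ / 8) * (4 * C1 * √(Real.log k / (2 * C1)) ^ (1 - κ / 8)) := by
        gcongr
        exact a5.trans (by gcongr)
    _ = _ := by ring

theorem stage_box {s a b c e : ℝ} (s0 : 0 < s) (s1 : s ≤ 1) (h1 : b ≤ a + 3) (h2 : e ≤ c + 3) :
    ((lat s a b c e).card : ℝ) * s ^ 2 ≤ 16 := by
  refine (card_le_box s0 (r := 3) (by norm_num) _ (fun z hz => ((mem_lat s0).1 hz).1)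
    fun z hz w hw => ?_).trans (by nlinarith)
  obtain ⟨-, z1, z2, z3, z4⟩ := (mem_lat s0).1 hz
  obtain ⟨-, w1, w2, w3, w4⟩ := (mem_lat s0).1 hw
  exact ⟨abs_le.2 ⟨by linarith, by linarith⟩, abs_le.2 ⟨by linarith, by linarith⟩⟩

theorem stage_bad {κ C C1 C' D r n G : ℝ} {k : ℕ} (hκ : 0 < κ) (hκ8 : κ < 8) (hC : 1 ≤ C)
    (hC1 : 1 ≤ C1) (hC' : 0 < C') (hD : 0 < D) (r0 : 0 < r) (hk : 1 ≤ k) (n0 : 0 ≤ n)
    (hn : n * (r / D) ^ 2 ≤ 16) (hm : 1 ≤ √(Real.log k / (2 * C1)))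
    (hG : G ≤ 16 * C1 * √(Real.log k / (2 * C1)) ^ (1 - κ / 8) * r ^ (1 + κ / 8)) :
    n * (G * (C' * Real.exp (C1 * √(Real.log k / (2 * C1)) ^ 2) /
      (1 + Real.exp (-(C1 * √(Real.log k / (2 * C1)) ^ 2))) ^ k *
        Real.exp ((1 - κ / 8) * Real.log (r / C)))) ≤ 16 * D ^ 2 * (8 * C' * 48) := by
  have k0 : (0 : ℝ) < k := by exact_mod_cast hk
  have l0 : 0 ≤ Real.log k := Real.log_natCast_nonneg k
  have h1 : C1 * √(Real.log k / (2 * C1)) ^ 2 = Real.log k / 2 := by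
    rw [Real.sq_sqrt (by positivity)]; field_simp
  have h2 : √(Real.log k / (2 * C1)) ^ (1 - κ / 8) ≤ √(Real.log k / (2 * C1)) ^ 2 :=
    (Real.rpow_le_rpow_of_exponent_le hm (by linarith : _ ≤ (2 : ℝ))).trans_eq (Real.rpow_two _)
  have h3 : 16 * C1 * √(Real.log k / (2 * C1)) ^ (1 - κ / 8) ≤ 8 * k := by
    nlinarith [Real.log_le_self k0.le]
  have h4 := stage_pow (Real.one_le_exp (show 0 ≤ Real.log k / 2 by positivity)) (k := k) (by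
    rw [← Real.exp_nat_mul, ← Real.exp_log k0, Real.log_exp]; congr 1; push_cast; ring)
  have h5 : Real.exp ((1 - κ / 8) * Real.log (r / C)) ≤ r ^ (1 - κ / 8) := by
    rw [mul_comm, ← Real.rpow_def_of_pos (by positivity)]
    exact Real.rpow_le_rpow (by positivity) (div_le_self r0.le hC) (by linarith)
  have h6 : r ^ (1 + κ / 8) * r ^ (1 - κ / 8) = r ^ 2 := by
    rw [← Real.rpow_add r0, ← Real.rpow_two]; congr 1; ring
  rw [div_pow, ← mul_div_assoc, div_le_iff₀ (by positivity)] at hn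
  rw [h1, Real.exp_neg, mul_div_assoc]
  have h7 : 0 ≤ Real.exp (Real.log k / 2) / (1 + (Real.exp (Real.log k / 2))⁻¹) ^ k := by positivity
  generalize Real.exp (Real.log k / 2) / (1 + (Real.exp (Real.log k / 2))⁻¹) ^ k = u at h4 h7
  calc _ ≤ n * (8 * k * r ^ (1 + κ / 8) * (C' * u * r ^ (1 - κ / 8))) := by
        gcongr
        exact hG.trans (by gcongr)
    _ = n * r ^ 2 * (8 * C' * (k * u)) := by rw [← h6]; ring
    _ ≤ _ := by gcongr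

end Vale.Agent.P164
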