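import Vale.Agent.P164.Stage

namespace Vale.Agent.P164

open Set Filter MeasureTheory ProbabilityTheory
open scoped ENNReal NNReal

variable {κ : ℝ}

theorem ub1 (hκ : 0 < κ) (hκ8 : κ < 8) : ∃ C : ℝ, ∀ {Ω : Type} [MeasurableSpace Ω] {P : Measure Ω}
    {B : ℝ≥0 → Ω → ℝ} {γ : Ω → ℝ → ℂ}, IsBrownianReal B P →
    (∀ᵐ ω ∂P, Generates (drv κ fun t => B t ω) (γ ω)) → ∀ x0 T : ℝ, 0 < T →
    ∃ N : Ω → ℝ≥0∞, AEMeasurable N P ∧ ∫⁻ ω, N ω ∂P ≤ ENNReal.ofReal C ∧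
      ∀ᵐ ω ∂P, hm (gau κ) (γ ω '' Icc 0 T ∩ box x0) ≤ N ω := by
  obtain ⟨C, hC⟩ := stage hκ hκ8
  refine ⟨C, fun {Ω _ P B γ} hB hγ x0 T hT => ?_⟩
  obtain ⟨N, hN, h1, h2⟩ := hC x0 T hT
  have hl := fun j : ℕ => inc_law hB hκ (Nat.one_div_pos_of_nat (α := ℝ) (n := j))
  obtain ⟨N', m1, m2, m3⟩ := fatou3 (P := P) (C := ENNReal.ofReal C)
    (N := fun k i j ω => N k i j (inc (drv κ fun t => B t ω) ((1 / ((j : ℝ) + 1)) ^ 2)))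
    (fun k i j => (hN k i j).comp_aemeasurable (hl j).aemeasurable)
    (h1.mono fun k hk i => (hk i).mono fun j hj =>
      ((hl j).lintegral_comp (hN k i j).aemeasurable).trans_le hj)
  refine ⟨N', m1, m2, ?_⟩
  filter_upwards [hγ, hB.cont, hB.eval_zero_ae_eq_zero] with ω a1 a2 a3
  have hW : Continuous (drv κ fun t => B t ω) :=
    continuous_const.mul (a2.comp continuous_real_toNNReal)
  obtain ⟨g, hg⟩ := a1.chain hW.continuousOn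
  refine (hm_le_liminf (δ := fun k : ℕ => 2 * (1 / 2) ^ k) ?_).trans
    (m3 ω _ (h2 _ _ g a1.1 hg (by simp [drv, a3])))
  simpa using (tendsto_pow_atTop_nhds_zero_of_lt_one (r := (1 / 2 : ℝ)) (by norm_num)
    (by norm_num)).const_mul 2

theorem ub_scaled (hκ : 0 < κ) (hκ8 : κ < 8) : ∃ C : ℝ, ∀ {Ω : Type} [MeasurableSpace Ω]
    {P : Measure Ω} {B : ℝ≥0 → Ω → ℝ} {γ : Ω → ℝ → ℂ}, IsBrownianReal B P →
    (∀ᵐ ω ∂P, Generates (drv κ fun t => B t ω) (γ ω)) → ∀ a x0 T : ℝ, 0 < a → 0 < T →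
    ∃ N : Ω → ℝ≥0∞, AEMeasurable N P ∧ ∫⁻ ω, N ω ∂P ≤ ENNReal.ofReal C ∧
      ∀ᵐ ω ∂P, hm (gau κ) (γ ω '' Icc 0 T ∩ {z | z / a ∈ box x0}) ≤
        ENNReal.ofReal (2 * a ^ (1 + κ / 8)) * N ω := by
  obtain ⟨C, hC⟩ := ub1 hκ hκ8
  refine ⟨C, fun {Ω _ P B γ} hB hγ a x0 T ha hT => ?_⟩
  have ha2 : 0 < a ^ 2 := by positivity
  have hac : (a : ℂ) ≠ 0 := Complex.ofReal_ne_zero.2 ha.ne'
  obtain ⟨N, m1, m2, m3⟩ := hC (γ := fun ω t => γ ω (a ^ 2 * t) / (a : ℂ))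
    (hB.smul (c := (a ^ 2).toNNReal) (Real.toNNReal_pos.2 ha2).ne') (hγ.mono fun ω h => by
      have e : (drv κ fun t => (√((a ^ 2).toNNReal : ℝ))⁻¹ * B ((a ^ 2).toNNReal * t) ω) =
          fun t => drv κ (fun t => B t ω) (a ^ 2 * t) / a := by
        funext t
        rw [drv, drv, Real.toNNReal_mul ha2.le, Real.coe_toNNReal _ ha2.le, Real.sqrt_sq ha.le]
        ring
      rw [e]
      exact h.scale ha) x0 (T / a ^ 2) (by positivity)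
  refine ⟨N, m1, m2, m3.mono fun ω h => ?_⟩
  refine le_trans (hm_mono ?_) ((hm_image_le (gau_gauge hκ hκ8) (f := fun z => a * z) ha
    (by positivity) (fun x _ y _ => ?_) (gau_scale hκ hκ8 ha)).trans (mul_le_mul_right h _))
  · rintro _ ⟨⟨t, ht, rfl⟩, hz⟩
    refine ⟨γ ω t / a, ⟨⟨t / a ^ 2, ⟨div_nonneg ht.1 ha2.le,
      div_le_div_of_nonneg_right ht.2 ha2.le⟩, ?_⟩, hz⟩, mul_div_cancel₀ _ hac⟩
    simp only [mul_div_cancel₀ _ ha2.ne']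
  · rw [← mul_sub, norm_mul, Complex.norm_real, Real.norm_of_nonneg ha.le]

theorem ub_cover {R : ℝ} (hR : 0 < R) {z : ℂ} (h1 : ‖z‖ ≤ R) (h2 : 0 < z.im) :
    ∃ k : ℕ, ∃ j ∈ Finset.Icc (-(2 : ℤ) ^ (k + 1)) (2 ^ (k + 1)),
      z / (R * (1 / 2) ^ (k + 1) : ℝ) ∈ box j := by
  obtain ⟨k, k1, k2⟩ := exists_nat_pow_near_of_lt_one (div_pos h2 hR)
    ((div_le_one hR).2 ((le_abs_self _).trans ((Complex.abs_im_le_norm z).trans h1)))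
    one_half_pos one_half_lt_one
  have ha : 0 < R * (1 / 2) ^ (k + 1) := by positivity
  have h3 := abs_le.1 ((Complex.abs_re_le_norm z).trans h1)
  have e : (2 : ℝ) ^ (k + 1) * (R * (1 / 2) ^ (k + 1)) = R := by
    rw [mul_left_comm, ← mul_pow]
    simp
  rw [lt_div_iff₀' hR] at k1
  rw [div_le_iff₀' hR] at k2
  refine ⟨k, ⌊z.re / (R * (1 / 2) ^ (k + 1))⌋, Finset.mem_Icc.2 ⟨Int.le_floor.2 ?_,
    Int.floor_le_iff.2 ?_⟩, ?_⟩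
  · push_cast
    rw [le_div_iff₀ ha]
    linarith
  · push_cast
    rw [div_lt_iff₀ ha]
    linarith
  · simp only [box, mem_ofPred_eq, Complex.div_ofReal_re, Complex.div_ofReal_im]
    refine ⟨Int.floor_le _, (Int.lt_floor_add_one _).le, (one_le_div ha).2 k1.le,
      (div_le_iff₀ ha).2 ?_⟩
    rw [pow_succ]
    linarith

theorem ub_sum (hκ : 0 < κ) {R : ℝ} (hR : 0 < R) (C : ℝ) :
    ∑' k : ℕ, ∑ _j ∈ Finset.Icc (-(2 : ℤ) ^ (k + 1)) (2 ^ (k + 1)),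
      ENNReal.ofReal (2 * (R * (1 / 2) ^ (k + 1)) ^ (1 + κ / 8)) * ENNReal.ofReal C ≠ ⊤ := by
  have h0 : (0 : ℝ) ≤ (1 / 2) ^ (κ / 8) := by positivity
  have h1 : (1 / 2 : ℝ) ^ (κ / 8) < 1 := Real.rpow_lt_one (by norm_num) (by norm_num) (by positivity)
  refine ne_top_of_le_ne_top (ENNReal.mul_ne_top (((summable_geometric_of_lt_one h0 h1).mul_left
    (6 * R ^ (1 + κ / 8))).tsum_ofReal_ne_top) (ENNReal.ofReal_ne_top (r := C))) ?_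
  rw [← ENNReal.tsum_mul_right]
  refine ENNReal.tsum_le_tsum fun k => ?_
  rw [← Finset.sum_mul, Finset.sum_const, nsmul_eq_mul, ← ENNReal.ofReal_natCast,
    ← ENNReal.ofReal_mul (Nat.cast_nonneg _)]
  refine mul_le_mul_left (ENNReal.ofReal_le_ofReal ?_) _
  have c1 : ((Finset.Icc (-(2 : ℤ) ^ (k + 1)) (2 ^ (k + 1))).card : ℝ) ≤ 3 * 2 ^ (k + 1) := by
    have h2 : (1 : ℤ) ≤ 2 ^ (k + 1) := one_le_pow₀ one_le_two
    have h3 := Int.card_Icc_of_le (-(2 : ℤ) ^ (k + 1)) (2 ^ (k + 1)) (by linarith)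
    have h4 : ((Finset.Icc (-(2 : ℤ) ^ (k + 1)) (2 ^ (k + 1))).card : ℤ) ≤ 3 * 2 ^ (k + 1) := by
      linarith
    exact_mod_cast h4
  have c2 : ((1 / 2 : ℝ) ^ (k + 1)) ^ (1 + κ / 8) =
      (1 / 2) ^ (k + 1) * ((1 / 2) ^ (κ / 8)) ^ (k + 1) := by
    rw [Real.rpow_add (by positivity), Real.rpow_one, ← Real.rpow_pow_comm (by norm_num)]
  have c3 : (2 : ℝ) ^ (k + 1) * (1 / 2) ^ (k + 1) = 1 := by
    rw [← mul_pow]
    simp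
  have c4 : ((1 / 2 : ℝ) ^ (κ / 8)) ^ (k + 1) ≤ ((1 / 2 : ℝ) ^ (κ / 8)) ^ k :=
    pow_le_pow_of_le_one h0 h1.le (Nat.le_succ k)
  rw [Real.mul_rpow hR.le (by positivity), c2]
  refine (mul_le_mul_of_nonneg_right c1 (by positivity)).trans ?_
  calc _ = 6 * R ^ (1 + κ / 8) * ((2 : ℝ) ^ (k + 1) * (1 / 2) ^ (k + 1)) *
        ((1 / 2 : ℝ) ^ (κ / 8)) ^ (k + 1) := by ring
    _ ≤ _ := by
      rw [c3, mul_one]
      exact mul_le_mul_of_nonneg_left c4 (by positivity)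

theorem ub_ball (hκ : 0 < κ) (hκ8 : κ < 8) {Ω : Type} [MeasurableSpace Ω] {P : Measure Ω}
    {B : ℝ≥0 → Ω → ℝ} {γ : Ω → ℝ → ℂ} (hB : IsBrownianReal B P)
    (hγ : ∀ᵐ ω ∂P, Generates (drv κ fun t => B t ω) (γ ω)) {R : ℝ} (hR : 0 < R) :
    ∀ᵐ ω ∂P, hm (gau κ) (γ ω '' Icc 0 R ∩ {z | ‖z‖ ≤ R ∧ 0 < z.im}) < ⊤ := by
  obtain ⟨C, hC⟩ := ub_scaled hκ hκ8
  choose N m1 m2 m3 using fun (k : ℕ) (j : ℤ) =>
    hC hB hγ (R * (1 / 2) ^ (k + 1)) j R (by positivity) hR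
  have h0 := (gau_gauge hκ hκ8).2.2.1
  have a1 : ∀ k : ℕ, AEMeasurable (fun ω => ∑ j ∈ Finset.Icc (-(2 : ℤ) ^ (k + 1)) (2 ^ (k + 1)),
      ENNReal.ofReal (2 * (R * (1 / 2) ^ (k + 1)) ^ (1 + κ / 8)) * N k j ω) P := fun k =>
    Finset.aemeasurable_fun_sum _ fun j _ => (m1 k j).const_mul _
  have a2 := ae_lt_top' (AEMeasurable.tsum a1) (ne_top_of_le_ne_top (ub_sum hκ hR C) (by
    rw [lintegral_tsum a1]
    refine ENNReal.tsum_le_tsum fun k => ?_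
    rw [lintegral_finsetSum' _ fun j _ => (m1 k j).const_mul _]
    refine Finset.sum_le_sum fun j _ => ?_
    rw [lintegral_const_mul'' _ (m1 k j)]
    exact mul_le_mul_right (m2 k j) _))
  filter_upwards [a2, ae_all_iff.2 fun k => ae_all_iff.2 (m3 k)] with ω b1 b2
  refine lt_of_le_of_lt ((hm_mono (F := ⋃ k : ℕ,
    ⋃ j ∈ Finset.Icc (-(2 : ℤ) ^ (k + 1)) (2 ^ (k + 1)), γ ω '' Icc 0 R ∩
      {z | z / (R * (1 / 2) ^ (k + 1) : ℝ) ∈ box j}) fun z hz => ?_).trans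
    ((hm_iUnion_le h0 _).trans (ENNReal.tsum_le_tsum fun k => ?_))) b1
  · obtain ⟨k, j, hj, h⟩ := ub_cover hR hz.2.1 hz.2.2
    exact mem_iUnion.2 ⟨k, mem_iUnion₂.2 ⟨j, hj, hz.1, h⟩⟩
  · refine le_trans ?_ (Finset.sum_le_sum fun j _ => b2 k j)
    simp only [hm_eq h0]
    exact measure_biUnion_finset_le _ _

/-- finiteness of the gauge measure of the trace -/
theorem upper (hκ : 0 < κ) (hκ8 : κ < 8) {Ω : Type} [MeasurableSpace Ω] {P : Measure Ω}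
    {B : ℝ≥0 → Ω → ℝ} {γ : Ω → ℝ → ℂ} (hB : IsBrownianReal B P)
    (hγ : ∀ᵐ ω ∂P, Generates (drv κ fun t => B t ω) (γ ω)) :
    ∀ᵐ ω ∂P, ∀ T : ℝ, hm (gau κ) (γ ω '' Icc 0 T) < ⊤ := by
  have hg := gau_gauge hκ hκ8
  filter_upwards [hγ, ae_all_iff.2 fun n : ℕ =>
    ub_ball hκ hκ8 hB hγ (R := n + 1) (by positivity)] with ω a1 a2 T
  obtain ⟨M, hM⟩ := isCompact_Icc.exists_bound_of_continuousOn
    (a1.1.mono (Icc_subset_Ici_self : Icc 0 T ⊆ Ici 0))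
  obtain ⟨n, hn⟩ := exists_nat_ge (max M T)
  have h1 : γ ω '' Icc 0 T ⊆ {z : ℂ | z.im = 0} ∪
      γ ω '' Icc 0 (n + 1) ∩ {z | ‖z‖ ≤ n + 1 ∧ 0 < z.im} := by
    rintro _ ⟨t, ht, rfl⟩
    rcases (a1.2.1 t ht.1).eq_or_lt with h | h
    · exact Or.inl h.symm
    · exact Or.inr ⟨⟨t, ⟨ht.1, by linarith [ht.2, le_max_right M T]⟩, rfl⟩,
        by linarith [hM t ht, le_max_left M T], h⟩
  have h2 := hm_real hg (gau_small hκ hκ8)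
  have h3 := a2 n
  refine lt_of_le_of_lt (hm_mono h1) ?_
  rw [hm_eq hg.2.2.1] at h2 h3 ⊢
  refine lt_of_le_of_lt (measure_union_le _ _) ?_
  rwa [h2, zero_add]

end Vale.Agent.P164
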