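import Vale.Agent.P164.Univ

namespace Vale.Agent.P164

open Set Metric
open scoped ComplexConjugate

theorem Uv.diff {f : ℂ → ℂ} (hf : Uv f) {z : ℂ} (hz : z ∈ uhp) : DifferentiableAt ℂ f z :=
  hf.1.differentiableAt (isOpen_uhp.mem_nhds hz)

theorem univ2_gron {f : ℂ → ℂ} (hf : Uv f) {K m : ℝ} (hK : 0 < K) (hm : 0 < m)
    (h : ∀ z ∈ uhp, ‖deriv (deriv f) z‖ ≤ K * ‖deriv f z‖ / z.im) {a b : ℂ} (ha : m ≤ a.im)
    (hb : m ≤ b.im) : ‖deriv f b‖ ≤ ‖deriv f a‖ * Real.exp (K * ‖b - a‖ / m) := by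
  have h1 : ∀ t ∈ Icc (0 : ℝ) 1, m ≤ (a + t * (b - a)).im := fun t ht => by
    simp only [Complex.add_im, Complex.im_ofReal_mul, Complex.sub_im]
    nlinarith [ht.1, ht.2]
  have h2 : ∀ t ∈ Icc (0 : ℝ) 1, HasDerivAt (fun t : ℝ => deriv f (a + t * (b - a)))
      (deriv (deriv f) (a + t * (b - a)) * (1 * (b - a))) t := fun t ht => by
    have e := (hf.1.deriv isOpen_uhp).differentiableAt (isOpen_uhp.mem_nhds (hm.trans_le (h1 t ht)))
    exact (e.hasDerivAt.comp (t : ℂ)
      (((hasDerivAt_id' (t : ℂ)).mul_const (b - a)).const_add a)).comp_ofReal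
  have h3 := norm_le_gronwallBound_of_norm_deriv_right_le (K := K * ‖b - a‖ / m) (ε := 0)
    (fun t ht => (h2 t ht).continuousAt.continuousWithinAt)
    (fun t ht => (h2 t (Ico_subset_Icc_self ht)).hasDerivWithinAt) le_rfl (fun t ht => by
      have h4 := h1 t (Ico_subset_Icc_self ht)
      rw [norm_mul, one_mul, add_zero]
      refine (mul_le_mul_of_nonneg_right ((h _ (hm.trans_le h4)).trans
        (div_le_div_of_nonneg_left (by positivity) hm h4)) (norm_nonneg _)).trans_eq (by ring))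
    1 (right_mem_Icc.2 zero_le_one)
  simpa [gronwallBound_ε0] using h3

/-- distortion and growth in a hyperbolically bounded region -/
theorem koebe1 (R : ℝ) (hR : 1 ≤ R) : ∃ C : ℝ, 1 ≤ C ∧ ∀ f : ℂ → ℂ, Uv f → ∀ z ∈ uhp, ∀ w : ℂ,
    ‖w - z‖ ≤ R * z.im → z.im / R ≤ w.im →
      ‖deriv f w‖ ≤ C * ‖deriv f z‖ ∧ ‖deriv f z‖ ≤ C * ‖deriv f w‖ ∧
        ‖f w - f z‖ ≤ C * ‖w - z‖ * ‖deriv f z‖ := by
  obtain ⟨K, hK, h⟩ := koebe0
  refine ⟨Real.exp (K * R ^ 2), Real.one_le_exp (by positivity), fun f hf z hz w h1 h2 => ?_⟩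
  have h0 : 0 < z.im := hz
  have hm : 0 < z.im / R := by positivity
  have h3 : z.im / R ≤ z.im := div_le_self h0.le hR
  have k : ∀ a b : ℂ, ‖b - a‖ ≤ R * z.im → z.im / R ≤ a.im → z.im / R ≤ b.im →
      ‖deriv f b‖ ≤ Real.exp (K * R ^ 2) * ‖deriv f a‖ := fun a b e ha hb => by
    refine (univ2_gron hf hK hm (h f hf) ha hb).trans ?_
    rw [mul_comm]
    gcongr
    rw [div_le_iff₀ hm]
    refine (mul_le_mul_of_nonneg_left e hK.le).trans_eq ?_
    field_simp
  refine ⟨k z w h1 h3 h2, k w z (norm_sub_rev w z ▸ h1) h2 h3, ?_⟩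
  rw [mul_right_comm]
  exact ((convex_closedBall z (R * z.im)).inter
    (convex_halfSpace_im_ge (z.im / R))).norm_image_sub_le_of_norm_deriv_le
    (fun x hx => hf.diff (hm.trans_le hx.2))
    (fun x hx => k z x (mem_closedBall_iff_norm.1 hx.1) h3 hx.2)
    ⟨mem_closedBall_self (by positivity), h3⟩ ⟨mem_closedBall_iff_norm.2 h1, h2⟩

/-- covering -/
theorem koebe2 : ∃ c : ℝ, 0 < c ∧ c ≤ 1 ∧ ∀ f : ℂ → ℂ, Uv f → ∀ z ∈ uhp, ∀ ρ : ℝ, 0 < ρ → ρ ≤ 1 / 2 →
    ball (f z) (c * ρ * (z.im * ‖deriv f z‖)) ⊆ f '' ball z (ρ * z.im) := by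
  obtain ⟨C, hC, h⟩ := koebe1 2 one_le_two
  have hc : 1 / (2 * (C + 1)) < 1 := (div_lt_one (by positivity)).2 (by linarith)
  have hc0 : 0 < 1 / (2 * (C + 1)) := by positivity
  refine ⟨1 / (2 * (C + 1)) / 4, by positivity, by linarith, fun f hf z hz ρ h0 h1 => ?_⟩
  have hz0 : 0 < z.im := hz
  have hr : 1 / (2 * (C + 1)) * (ρ * z.im) < ρ * z.im := mul_lt_of_lt_one_left (by positivity) hc
  have hs : closedBall z (1 / (2 * (C + 1)) * (ρ * z.im)) ⊆ ball z (z.im / 2) :=
    closedBall_subset_ball (by nlinarith)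
  have h2 : ∀ w ∈ ball z (z.im / 2), z.im / 2 ≤ w.im := fun w hw => by
    have := (abs_le.1 ((Complex.abs_im_le_norm (w - z)).trans (mem_ball_iff_norm.1 hw).le)).1
    rw [Complex.sub_im] at this
    linarith
  have h3 : ball z (z.im / 2) ⊆ uhp := fun w hw => (half_pos hz0).trans_le (h2 w hw)
  have h4 : ∀ w ∈ closedBall z (1 / (2 * (C + 1)) * (ρ * z.im)),
      ‖deriv f w - deriv f z‖ ≤ ‖deriv f z‖ / 2 := fun w hw => by
    have h5 := Complex.dist_le_div_mul_dist_of_mapsTo_ball (R₂ := (C + 1) * ‖deriv f z‖)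
      ((hf.1.deriv isOpen_uhp).mono h3) (fun v hv => mem_closedBall_iff_norm.2
        ((norm_sub_le _ _).trans (by
          linarith [(h f hf z hz v (by linarith [mem_ball_iff_norm.1 hv]) (h2 v hv)).1]))) (hs hw)
    rw [dist_eq_norm] at h5
    refine h5.trans ((mul_le_mul_of_nonneg_left (mem_closedBall.1 hw) (by positivity)).trans ?_)
    refine le_of_eq_of_le (b := ρ * ‖deriv f z‖) (by field_simp) ?_
    nlinarith [norm_nonneg (deriv f z)]
  refine subset_trans (ball_subset_ball (le_of_eq ?_))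
    ((DiffContOnCl.ball_subset_image_closedBall
      (ε := ‖deriv f z‖ / 2 * (1 / (2 * (C + 1)) * (ρ * z.im)))
      ((hf.1.mono (hs.trans h3)).diffContOnCl_ball subset_rfl) (by positivity) (fun w hw => ?_)
      ?_).trans (image_mono (closedBall_subset_ball hr)))
  · ring
  · have h5 := (convex_closedBall z _).norm_image_sub_le_of_norm_hasDerivWithin_le
      (f := fun w => f w - w * deriv f z) (fun v hv => ((hf.diff (h3 (hs hv))).hasDerivAt.sub
        (hasDerivAt_mul_const _)).hasDerivWithinAt) h4 (mem_closedBall_self (by positivity))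
      (sphere_subset_closedBall hw)
    have h6 := norm_sub_norm_le ((w - z) * deriv f z) (f w - f z)
    rw [show (w - z) * deriv f z - (f w - f z) = -(f w - w * deriv f z - (f z - z * deriv f z)) by
      ring, norm_neg, norm_mul] at h6
    rw [mem_sphere_iff_norm.1 hw] at h5 h6
    linarith
  · exact ((eventually_mem_nhdsWithin (s := {z}ᶜ)).and (mem_nhdsWithin_of_mem_nhds
      (isOpen_uhp.mem_nhds hz))).frequently.filter_mono nhdsWithin_le_nhds |>.mono
      fun w hw e => hw.1 (hf.2 hw.2 hz e)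

theorem univ2_ne {a p : ℂ} (ha : a ∈ uhp) (hp : p ∈ uhp) : p - conj a ≠ 0 := fun h => by
  have h1 := congrArg Complex.im h
  simp only [Complex.sub_im, Complex.conj_im, Complex.zero_im] at h1
  linarith [show 0 < a.im from ha, show 0 < p.im from hp]

theorem univ2_cay {g : ℂ → ℂ} {u : ℂ} {R : ℝ} (hR : 0 < R) (hd : DifferentiableOn ℂ g (ball u R))
    (hm : MapsTo g (ball u R) uhp) :
    DifferentiableOn ℂ (fun v => (g v - g u) / (g v - conj (g u))) (ball u R) ∧
      MapsTo (fun v => (g v - g u) / (g v - conj (g u))) (ball u R)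
        (closedBall ((g u - g u) / (g u - conj (g u))) 1) := by
  have ha := hm (mem_ball_self hR)
  refine ⟨(hd.sub_const _).div (hd.sub_const _) fun v hv => univ2_ne ha (hm hv), fun v hv => ?_⟩
  rw [sub_self, zero_div, mem_closedBall_zero_iff, norm_div]
  refine div_le_one_of_le₀ (Real.sqrt_le_sqrt ?_) (norm_nonneg _)
  simp only [Complex.normSq_apply, Complex.sub_re, Complex.sub_im, Complex.conj_re, Complex.conj_im]
  nlinarith [mul_pos (show 0 < (g u).im from ha) (show 0 < (g v).im from hm hv)]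

/-- a disc mapped into the half-plane -/
theorem schwarz_disc {g : ℂ → ℂ} {u : ℂ} {R : ℝ} (hR : 0 < R) (hd : DifferentiableOn ℂ g (ball u R))
    (hm : MapsTo g (ball u R) uhp) : ‖deriv g u‖ * R ≤ 2 * (g u).im := by
  have ha := hm (mem_ball_self hR)
  have h0 : 0 < (g u).im := ha
  have h1 := Complex.norm_deriv_le_div_of_mapsTo_ball (univ2_cay hR hd hm).1 (univ2_cay hR hd hm).2 hR
  have h2 := (hd.differentiableAt (ball_mem_nhds u hR)).hasDerivAt
  rw [((h2.sub_const (g u)).fun_div (h2.sub_const (conj (g u))) (univ2_ne ha ha)).deriv, sub_self,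
    zero_mul, sub_zero, sq, mul_div_mul_right _ _ (univ2_ne ha ha), norm_div, Complex.sub_conj,
    norm_mul, Complex.norm_I, mul_one, Complex.norm_real, Real.norm_of_nonneg (by positivity),
    div_le_div_iff₀ (by positivity) hR, one_mul] at h1
  exact h1

/-- Schwarz-Pick in the half-plane -/
theorem schwarz_pick {ψ : ℂ → ℂ} (hd : DifferentiableOn ℂ ψ uhp) (hm : MapsTo ψ uhp uhp) {w : ℂ}
    (hw : w ∈ uhp) : ‖deriv ψ w‖ * w.im ≤ (ψ w).im := by
  have h0 : 0 < w.im := hw
  have h1 : ∀ ζ ∈ ball (0 : ℂ) 1, 1 - ζ ≠ 0 := fun ζ h e => by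
    rw [← sub_eq_zero.1 e] at h
    simp at h
  have h2 : MapsTo (fun ζ => (w - conj w * ζ) / (1 - ζ)) (ball 0 1) uhp := fun ζ h => by
    have h3 : Complex.normSq ζ < 1 := by
      rw [Complex.normSq_eq_norm_sq]
      exact pow_lt_one₀ (norm_nonneg _) (mem_ball_zero_iff.1 h) two_ne_zero
    change 0 < Complex.im _
    rw [Complex.div_im, ← sub_div]
    refine div_pos ?_ (Complex.normSq_pos.2 (h1 ζ h))
    simp only [Complex.normSq_apply, Complex.sub_re, Complex.sub_im, Complex.conj_re,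
      Complex.conj_im, Complex.mul_re, Complex.mul_im, Complex.one_re, Complex.one_im] at h3 ⊢
    nlinarith [mul_pos h0 (sub_pos.2 h3)]
  have h3 := schwarz_disc one_pos (hd.comp (by fun_prop (disch := assumption)) h2) (hm.comp h2)
  have h4 : HasDerivAt (fun ζ => (w - conj w * ζ) / (1 - ζ)) (w - conj w) 0 :=
    ((((hasDerivAt_id' (0 : ℂ)).const_mul (conj w)).const_sub w).fun_div
      ((hasDerivAt_id' (0 : ℂ)).const_sub 1) (by simp)).congr_deriv (by ring)
  have h5 : HasDerivAt ψ (deriv ψ w) ((w - conj w * 0) / (1 - 0)) := by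
    simpa using (hd.differentiableAt (isOpen_uhp.mem_nhds hw)).hasDerivAt
  rw [(h5.comp 0 h4).deriv, Complex.sub_conj, norm_mul, norm_mul, Complex.norm_I,
    Complex.norm_real, Real.norm_of_nonneg (by positivity)] at h3
  simp only [Function.comp, mul_zero, sub_zero, div_one] at h3
  linarith

/-- Harnack inequality for the imaginary part -/
theorem harnack_disc {g : ℂ → ℂ} {u : ℂ} {R : ℝ} (hR : 0 < R) (hd : DifferentiableOn ℂ g (ball u R))
    (hm : MapsTo g (ball u R) uhp) {v : ℂ} (hv : ‖v - u‖ ≤ R / 2) : (g v).im ≤ 3 * (g u).im := by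
  have hv' : v ∈ ball u R := mem_ball_iff_norm.2 (hv.trans_lt (half_lt_self hR))
  have ha := hm (mem_ball_self hR)
  have h1 := Complex.dist_le_div_mul_dist_of_mapsTo_ball (univ2_cay hR hd hm).1
    (univ2_cay hR hd hm).2 hv'
  rw [sub_self, zero_div, dist_zero_right, dist_eq_norm, norm_div] at h1
  have h2 := (div_le_iff₀ (norm_pos_iff.2 (univ2_ne ha (hm hv')))).1 (h1.trans
    ((mul_le_mul_of_nonneg_left hv (by positivity)).trans_eq (show _ = 1 / 2 by field_simp)))
  have h3 := pow_le_pow_left₀ (norm_nonneg _) h2 2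
  rw [mul_pow, ← Complex.normSq_eq_norm_sq, ← Complex.normSq_eq_norm_sq] at h3
  simp only [Complex.normSq_apply, Complex.sub_re, Complex.sub_im, Complex.conj_re,
    Complex.conj_im] at h3
  nlinarith [show 0 < (g u).im from ha, show 0 < (g v).im from hm hv',
    mul_self_nonneg ((g v).re - (g u).re)]

end Vale.Agent.P164
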